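import Vale.Agent.P011.H74.CocMink

/-!
# Cocompactness for anisotropic algebras with involution which need not be division

No archimedean place.  `W` is a compact open additive subgroup, `t` a central element of `O`
with `W ⊆ t W` and `⋃ t ^ j W = A`.
-/

namespace Vale.Agent.P011.H74

open Set MeasureTheory MeasureTheory.Measure Filter Topology

open scoped Pointwise

section

variable {A : Type*} [Ring A] [TopologicalSpace A] [IsTopologicalRing A]
  [T2Space A] [MeasurableSpace A] [BorelSpace A]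

/-- Few classes modulo `W + u O`. -/
theorem card_mul_le (μ : Measure A) [μ.IsAddLeftInvariant] (O : Subring A)
    (hO : (O : Set A).Countable) (K : Set A) (hK : IsCompact K)
    (hKO : ∀ a : A, ∃ k ∈ K, ∃ o ∈ O, a = k + o)
    (W : AddSubgroup A) (hWc : IsCompact (W : Set A)) (u : A)
    (huni : ∀ s : Set A, IsCompact s → μ ((fun x => u * x) ⁻¹' s) = μ s)
    (hshort : ∀ x ∈ O, u * x ∈ W → x = 0)
    (r : ℕ) (b : Fin r → A) (hb : ∀ i j, i ≠ j → ∀ w ∈ W, ∀ o ∈ O, b i - b j ≠ w + u * o) :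
    (r : ENNReal) * μ (W : Set A) ≤ μ K := by
  classical
  have : MeasurableAdd A := ⟨fun c => (continuous_const_add c).measurable,
    fun c => (continuous_add_const c).measurable⟩
  by_contra hlt
  push Not at hlt
  let B : Set A := ⋃ i : Fin r, (fun x => b i + x) '' (W : Set A)
  have hcomp : ∀ i, IsCompact ((fun x => b i + x) '' (W : Set A)) := fun i =>
    hWc.image (by fun_prop)
  have hB : IsCompact B := isCompact_iUnion hcomp
  have hdisj : Pairwise (Function.onFun Disjoint fun i => (fun x => b i + x) '' (W : Set A)) := by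
    intro i j hij
    rw [Function.onFun, Set.disjoint_left]
    rintro _ ⟨w, hw, rfl⟩ ⟨w', hw', h⟩
    refine hb i j hij (w' - w) (W.sub_mem hw' hw) 0 O.zero_mem ?_
    have h' : b j + w' = b i + w := h
    rw [mul_zero, add_zero]
    have : b i = b j + w' - w := by rw [h']; abel
    rw [this]
    abel
  have hμB : μ B = r * μ (W : Set A) := by
    rw [measure_iUnion hdisj fun i => (hcomp i).isClosed.measurableSet]
    have : ∀ i, μ ((fun x => b i + x) '' (W : Set A)) = μ (W : Set A) := by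
      intro i
      rw [Set.image_add_left]
      exact measure_preimage_add μ (-(b i)) _
    rw [tsum_congr this, tsum_fintype]
    simp
  have hclosed : IsClosed ((fun x => u * x) ⁻¹' B) := hB.isClosed.preimage (by fun_prop)
  obtain ⟨x, hx, y, hy, hxy, hmem⟩ := exists_sub_mem_of_lt μ O.toAddSubgroup hO K
    ((fun x => u * x) ⁻¹' B) hK.isClosed.measurableSet hclosed.measurableSet hKO
    (by rw [huni B hB, hμB]; exact hlt)
  obtain ⟨i, w, hw, hwx⟩ := mem_iUnion.1 hx
  obtain ⟨j, w', hw', hwy⟩ := mem_iUnion.1 hy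
  have hwx' : b i + w = u * x := hwx
  have hwy' : b j + w' = u * y := hwy
  have hxyO : x - y ∈ O := hmem
  by_cases hij : i = j
  · subst hij
    have h1 : u * (x - y) ∈ W := by
      have : u * (x - y) = w - w' := by
        rw [mul_sub, ← hwx', ← hwy']
        abel
      rw [this]
      exact W.sub_mem hw hw'
    exact hxy (sub_eq_zero.1 (hshort _ hxyO h1))
  · refine hb i j hij (w' - w) (W.sub_mem hw' hw) (x - y) hxyO ?_
    have : b i - b j = (b i + w) - (b j + w') + (w' - w) := by abel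
    rw [this, hwx', hwy', mul_sub]
    abel

/-- **Uniform covering.** -/
theorem uniform_cover (μ : Measure A) [μ.IsAddLeftInvariant] (O : Subring A)
    (hO : (O : Set A).Countable) (K : Set A) (hK : IsCompact K)
    (hKO : ∀ a : A, ∃ k ∈ K, ∃ o ∈ O, a = k + o)
    (W : AddSubgroup A) (hWc : IsCompact (W : Set A))
    (t : A) (htO : t ∈ O) (htc : ∀ a, t * a = a * t)
    (hWt : ∀ w ∈ W, ∃ w' ∈ W, w = t * w') (hun : ∀ a : A, ∃ j : ℕ, ∃ w ∈ W, a = t ^ j * w)
    (r : ℕ) (hr : μ K < ((r + 1 : ℕ) : ENNReal) * μ (W : Set A)) (u : A)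
    (huni : ∀ s : Set A, IsCompact s → μ ((fun x => u * x) ⁻¹' s) = μ s)
    (hshort : ∀ x ∈ O, u * x ∈ W → x = 0) (a : A) :
    ∃ w ∈ W, ∃ o ∈ O, a = t ^ r * w + u * o := by
  classical
  -- membership in `t ^ j W + u O`
  let H : ℕ → A → Prop := fun j a => ∃ w ∈ W, ∃ o ∈ O, a = t ^ j * w + u * o
  have hmono : ∀ j a, H j a → H (j + 1) a := by
    rintro j a ⟨w, hw, o, ho, rfl⟩
    obtain ⟨w', hw', rfl⟩ := hWt w hw
    exact ⟨w', hw', o, ho, by rw [pow_succ, mul_assoc]⟩
  have hmono' : ∀ i j a, i ≤ j → H i a → H j a := by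
    intro i j a hij
    induction j, hij using Nat.le_induction with
    | base => exact id
    | succ j _ ih => exact fun h => hmono _ _ (ih h)
  have hsub : ∀ j a b, H j a → H j b → H j (a - b) := by
    rintro j a b ⟨w, hw, o, ho, rfl⟩ ⟨w', hw', o', ho', rfl⟩
    refine ⟨w - w', W.sub_mem hw hw', o - o', O.sub_mem ho ho', ?_⟩
    rw [mul_sub, mul_sub]
    abel
  have hadd : ∀ j a b, H j a → H j b → H j (a + b) := by
    rintro j a b ⟨w, hw, o, ho, rfl⟩ ⟨w', hw', o', ho', rfl⟩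
    refine ⟨w + w', W.add_mem hw hw', o + o', O.add_mem ho ho', ?_⟩
    rw [mul_add, mul_add]
    abel
  have hu : ∀ j, ∀ o ∈ O, H j (u * o) := fun j o ho =>
    ⟨0, W.zero_mem, o, ho, by rw [mul_zero, zero_add]⟩
  -- a stable step is everything
  have hstable : ∀ j, (∀ a, H (j + 1) a → H j a) → ∀ a, H j a := by
    intro j hj
    have hmul : ∀ a, H j a → H j (t * a) := by
      rintro a ⟨w, hw, o, ho, rfl⟩
      apply hj
      refine ⟨w, hw, t * o, O.mul_mem htO ho, ?_⟩
      rw [mul_add, ← mul_assoc, ← pow_succ', ← mul_assoc, htc u, mul_assoc]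
    have hW0 : ∀ w ∈ W, H j w := fun w hw =>
      hmono' 0 j w (Nat.zero_le _) ⟨w, hw, 0, O.zero_mem, by simp⟩
    have hpow : ∀ i : ℕ, ∀ w ∈ W, H j (t ^ i * w) := by
      intro i w hw
      induction i with
      | zero => simpa using hW0 w hw
      | succ i ih =>
        rw [pow_succ', mul_assoc]
        exact hmul _ ih
    intro a
    obtain ⟨i, w, hw, rfl⟩ := hun a
    exact hpow i w hw
  -- some step below `r` is stable
  have hex : ∃ j < r, ∀ a, H (j + 1) a → H j a := by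
    by_contra hcon
    push Not at hcon
    choose! c hc hc' using hcon
    let b : Fin (r + 1) → A := fun i => if (i : ℕ) = 0 then 0 else c ((i : ℕ) - 1)
    have hb1 : ∀ i : Fin (r + 1), H i (b i) := by
      intro i
      by_cases hi : (i : ℕ) = 0
      · simp only [b, if_pos hi]
        exact ⟨0, W.zero_mem, 0, O.zero_mem, by simp⟩
      · simp only [b, if_neg hi]
        have h1 := hc ((i : ℕ) - 1) (by omega)
        have h2 : (i : ℕ) - 1 + 1 = i := by omega
        rwa [h2] at h1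
    have hb2 : ∀ i j : Fin (r + 1), (i : ℕ) < j → ¬ H i (b j) := by
      intro i j hij h
      have hj : (j : ℕ) ≠ 0 := by omega
      simp only [b, if_neg hj] at h
      exact hc' ((j : ℕ) - 1) (by omega) (hmono' _ _ _ (by omega) h)
    have key := card_mul_le μ O hO K hK hKO W hWc u huni hshort (r + 1) b ?_
    · exact absurd hr (not_lt.2 key)
    · intro i j hij w hw o ho heq
      have h0 : H 0 (b i - b j) := ⟨w, hw, o, ho, by simpa using heq⟩
      rcases lt_or_gt_of_ne (fun h => hij (Fin.ext h) : (i : ℕ) ≠ j) with h | h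
      · apply hb2 i j h
        have := hsub i _ _ (hb1 i) (hmono' 0 i _ (Nat.zero_le _) h0)
        rwa [sub_sub_cancel] at this
      · apply hb2 j i h
        have := hadd j _ _ (hmono' 0 j _ (Nat.zero_le _) h0) (hb1 j)
        rwa [sub_add_cancel] at this
  obtain ⟨j, hj, hj'⟩ := hex
  exact hmono' j r a hj.le (hstable j hj' a)

end

variable {A : Type*} [Ring A] [StarRing A] [TopologicalSpace A] [IsTopologicalRing A]
  [ContinuousStar A] [T2Space A] [MeasurableSpace A] [BorelSpace A]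

/-- **Cocompactness of the unitary group of an anisotropic algebra with involution** (no
archimedean place). -/
theorem cocompact_unitary_aniso (μ : Measure A) [μ.IsAddHaarMeasure] (O : Subring A)
    (hO : (O : Set A).Countable) (hstar : ∀ x ∈ O, star x ∈ O)
    (hfin : ∀ C : Set A, IsCompact C → (C ∩ (O : Set A)).Finite)
    (K : Set A) (hK : IsCompact K) (hKO : ∀ a : A, ∃ k ∈ K, ∃ o ∈ O, a = k + o)
    (huni : ∀ u ∈ unitary A, ∀ s : Set A, IsCompact s → μ ((fun x => u * x) ⁻¹' s) = μ s)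
    (haniso : ∀ x ∈ O, x ≠ 0 → star x * x ≠ 0)
    (W : AddSubgroup A) (hWo : IsOpen (W : Set A)) (hWc : IsCompact (W : Set A))
    (t t' : A) (htO : t ∈ O) (htc : ∀ a, t * a = a * t) (htt' : t * t' = 1)
    (hWt : ∀ w ∈ W, ∃ w' ∈ W, w = t * w') (hun : ∀ a : A, ∃ j : ℕ, ∃ w ∈ W, a = t ^ j * w)
    (ht0 : ∀ V ∈ 𝓝 (0 : A), ∃ j : ℕ, ∀ w ∈ W, t' ^ j * w ∈ V)
    (hunits : ∀ᶠ a in 𝓝 (1 : A), IsUnit a)
    (hinv : ∀ x ∈ O, IsUnit x → ∃ y m : A, x * y = 1 ∧ y * x = 1 ∧ m ∈ O ∧ star m = m ∧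
      (∀ a, m * a = a * m) ∧ (∀ a b : A, m * a = m * b → a = b) ∧ m * y ∈ O ∧
      ∃ T : Set A, T.Finite ∧ ∀ x ∈ O, ∃ t ∈ T, ∃ w ∈ O, x = t + m ^ 3 * w) :
    ∃ C₂ : Set A, IsCompact C₂ ∧ ∀ u ∈ unitary A, ∃ γ ∈ O, γ ∈ unitary A ∧ u * γ ∈ C₂ := by
  classical
  have ht't : t' * t = 1 := by rw [← htc, htt']
  have ht'c : ∀ a, t' * a = a * t' := by
    intro a
    calc t' * a = t' * a * (t * t') := by rw [htt', mul_one]
      _ = t' * (t * a) * t' := by rw [htc a]; simp only [mul_assoc]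
      _ = a * t' := by rw [← mul_assoc, ht't, one_mul]
  have hpp : ∀ j : ℕ, t ^ j * t' ^ j = 1 := by
    intro j
    have hcomm : Commute t t' := htc t'
    rw [← hcomm.mul_pow, htt', one_pow]
  have hpp' : ∀ j : ℕ, t' ^ j * t ^ j = 1 := by
    intro j
    have hcomm : Commute t' t := ht'c t
    rw [← hcomm.mul_pow, ht't, one_pow]
  -- shrink `W`
  obtain ⟨j₀, hj₀⟩ : ∃ j₀ : ℕ, ∀ w ∈ W, ∀ w' ∈ W,
      star (t' ^ j₀ * w) * (t' ^ j₀ * w') ∈ O → star (t' ^ j₀ * w) * (t' ^ j₀ * w') = 0 := by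
    have hWW : IsCompact ((fun p : A × A => star p.1 * p.2) '' ((W : Set A) ×ˢ (W : Set A))) :=
      (hWc.prod hWc).image (by fun_prop)
    set F : Set A := (((fun p : A × A => star p.1 * p.2) '' ((W : Set A) ×ˢ (W : Set A))) ∩
      (O : Set A)) \ {0} with hF
    have hFfin : F.Finite := (hfin _ hWW).subset sdiff_subset
    have hopen : Fᶜ ∈ 𝓝 ((fun p : A × A => star p.1 * p.2) (0, 0)) := by
      refine hFfin.isClosed.isOpen_compl.mem_nhds ?_
      simp [hF]
    have hcont : Continuous (fun p : A × A => star p.1 * p.2) := by fun_prop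
    have hpre := hcont.continuousAt (x := ((0, 0) : A × A)) hopen
    rw [mem_map, nhds_prod_eq, mem_prod_iff] at hpre
    obtain ⟨V₁, hV₁, V₂, hV₂, hV⟩ := hpre
    obtain ⟨j, hj⟩ := ht0 (V₁ ∩ V₂ ∩ W)
      (inter_mem (inter_mem hV₁ hV₂) (hWo.mem_nhds W.zero_mem))
    refine ⟨j, fun w hw w' hw' hmem => ?_⟩
    by_contra hne
    have h1 := hj w hw
    have h2 := hj w' hw'
    have h3 : ((t' ^ j * w, t' ^ j * w') : A × A) ∈ V₁ ×ˢ V₂ := ⟨h1.1.1, h2.1.2⟩
    exact hV h3 ⟨⟨⟨(t' ^ j * w, t' ^ j * w'), ⟨h1.2, h2.2⟩, rfl⟩, hmem⟩, hne⟩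
  let W₁ : AddSubgroup A := W.map (AddMonoidHom.mulLeft (t' ^ j₀))
  have hW₁mem : ∀ x, x ∈ W₁ ↔ ∃ w ∈ W, t' ^ j₀ * w = x := fun x => by
    simp [W₁, AddSubgroup.mem_map]
  have hW₁set : (W₁ : Set A) = (fun x => t ^ j₀ * x) ⁻¹' (W : Set A) := by
    ext x
    rw [SetLike.mem_coe, hW₁mem, mem_preimage]
    constructor
    · rintro ⟨w, hw, rfl⟩
      rw [← mul_assoc, hpp, one_mul]
      exact hw
    · intro h
      exact ⟨_, h, by rw [← mul_assoc, hpp', one_mul]⟩
  have hW₁o : IsOpen (W₁ : Set A) := by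
    rw [hW₁set]
    exact hWo.preimage (by fun_prop)
  have hW₁c : IsCompact (W₁ : Set A) := by
    have : (W₁ : Set A) = (fun x => t' ^ j₀ * x) '' (W : Set A) := by
      ext x
      rw [SetLike.mem_coe, hW₁mem]
      rfl
    rw [this]
    exact hWc.image (by fun_prop)
  have hW₁t : ∀ w ∈ W₁, ∃ w' ∈ W₁, w = t * w' := by
    intro x hx
    obtain ⟨w, hw, rfl⟩ := (hW₁mem x).1 hx
    obtain ⟨w', hw', rfl⟩ := hWt w hw
    refine ⟨t' ^ j₀ * w', (hW₁mem _).2 ⟨w', hw', rfl⟩, ?_⟩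
    rw [← mul_assoc, ← mul_assoc, htc]
  have hun₁ : ∀ a : A, ∃ j : ℕ, ∃ w ∈ W₁, a = t ^ j * w := by
    intro a
    obtain ⟨j, w, hw, rfl⟩ := hun a
    refine ⟨j + j₀, t' ^ j₀ * w, (hW₁mem _).2 ⟨w, hw, rfl⟩, ?_⟩
    rw [pow_add, mul_assoc, ← mul_assoc (t ^ j₀), hpp, one_mul]
  -- no short vectors
  have hshort : ∀ u ∈ unitary A, ∀ x ∈ O, u * x ∈ W₁ → x = 0 := by
    intro u hu x hx hux
    by_contra hne
    obtain ⟨w, hw, hwx⟩ := (hW₁mem _).1 hux
    have h1 : star (u * x) * (u * x) = star x * x := by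
      rw [star_mul]
      calc star x * star u * (u * x) = star x * (star u * u) * x := by simp only [mul_assoc]
        _ = star x * x := by rw [(Unitary.mem_iff.1 hu).1, mul_one]
    have h2 := hj₀ w hw w hw (by rw [hwx, h1]; exact O.mul_mem (hstar _ hx) hx)
    rw [hwx, h1] at h2
    exact haniso x hx hne h2
  -- the number of steps
  have hμW : 0 < μ (W₁ : Set A) := hW₁o.measure_pos μ ⟨0, W₁.zero_mem⟩
  obtain ⟨r, hr⟩ : ∃ r : ℕ, μ K < ((r + 1 : ℕ) : ENNReal) * μ (W₁ : Set A) := by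
    have hKt : μ K ≠ ⊤ := (hK.measure_lt_top (μ := μ)).ne
    obtain ⟨r, hr⟩ := ENNReal.exists_nat_mul_gt hμW.ne' hKt
    refine ⟨r, hr.trans_le ?_⟩
    gcongr
    omega
  -- a large central element
  obtain ⟨M, hM⟩ : ∃ M : ℕ, ∀ w ∈ W, IsUnit (1 - t' ^ M * w) := by
    have hc : Continuous (fun v : A => 1 - v) := by fun_prop
    have h0 : {v : A | IsUnit (1 - v)} ∈ 𝓝 (0 : A) := by
      have := hc.continuousAt (x := (0 : A))
      rw [ContinuousAt, sub_zero] at this
      exact this hunits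
    exact ht0 _ h0
  have hM₁ : ∀ w ∈ W₁, IsUnit (1 - t' ^ M * w) := by
    intro x hx
    obtain ⟨w, hw, rfl⟩ := (hW₁mem x).1 hx
    -- `t' ^ j₀ W ⊆ W`
    have hsub : ∀ j : ℕ, ∀ w ∈ W, t' ^ j * w ∈ W := by
      intro j
      induction j with
      | zero => intro w hw; simpa using hw
      | succ j ih =>
        intro w hw
        obtain ⟨w', hw', rfl⟩ := hWt w hw
        rw [pow_succ, mul_assoc, ← mul_assoc t', ht't, one_mul]
        exact ih w' hw'
    exact hM _ (hsub j₀ w hw)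
  have hut : ∀ j : ℕ, IsUnit (t ^ j) := fun j =>
    ⟨⟨t ^ j, t' ^ j, hpp j, hpp' j⟩, rfl⟩
  refine exists_compact_mul_unitary_of (fun x => IsUnit x) O hstar hfin
    ((fun w => t ^ (r + M) - t ^ r * w) '' (W₁ : Set A)) (hW₁c.image (by fun_prop)) ?_ hinv
  intro u hu
  obtain ⟨w, hw, o, ho, hcov⟩ := uniform_cover μ O hO K hK hKO W₁ hW₁c t htO htc hW₁t hun₁ r hr u
    (huni u hu) (hshort u hu) (t ^ (r + M))
  have huo : u * o = t ^ (r + M) - t ^ r * w := by rw [hcov]; abel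
  have hunit : IsUnit (u * o) := by
    have h1 : u * o = t ^ (r + M) * (1 - t' ^ M * w) := by
      rw [huo, mul_sub, mul_one, pow_add, ← mul_assoc, mul_assoc (t ^ r), hpp, mul_one]
    rw [h1]
    exact (hut _).mul (hM₁ w hw)
  refine ⟨o, ho, ?_, ⟨w, hw, huo.symm⟩⟩
  have hsu : IsUnit (star u) := ⟨⟨star u, u, (Unitary.mem_iff.1 hu).1,
    (Unitary.mem_iff.1 hu).2⟩, rfl⟩
  have : o = star u * (u * o) := by rw [← mul_assoc, (Unitary.mem_iff.1 hu).1, one_mul]
  rw [this]
  exact hsu.mul hunit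

end Vale.Agent.P011.H74
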