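import Vale.Agent.P011.H544.HaarDet
import Vale.Agent.P011.H74.CocFF

/-!
# Base change of an algebra with involution which need not be a division algebra

`k` a field, `R` a topological `k`-algebra (a finite product of locally compact fields), `A` a
finite dimensional `k`-algebra with `k`-linear involution, `E` its base change to `R` given in
coordinates.  (Generalises `H544.BC` from division algebras to arbitrary rings `A`.)
-/

open MeasureTheory Matrix Module

namespace Vale.Agent.P011.H74

/-- `A` has a linear functional whose kernel contains no nonzero left ideal. -/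
def Frob (k A : Type*) [Field k] [Ring A] [Algebra k A] : Prop :=
  ∃ t : A →ₗ[k] k, ∀ z : A, (∀ y : A, t (y * z) = 0) → z = 0

/-- `E` is the base change to `R` of the `k`-algebra with involution `A`, in coordinates with
respect to a `k`-basis `a` of `A`. -/
structure BCR (k R A E ι : Type*) [Field k] [CommRing R] [TopologicalSpace R] [Algebra k R]
    [Ring A] [StarRing A] [Algebra k A] [Ring E] [StarRing E] [TopologicalSpace E]
    [Algebra R E] [Finite ι] [DecidableEq ι] where
  /-- a basis of `A` over `k` -/
  a : Basis ι k A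
  /-- coordinates of `E` -/
  φ : E ≃L[R] (ι → R)
  /-- the embedding of `A` in `E` -/
  j : A →+* E
  j_smul : ∀ (c : k) (x : A), j (c • x) = algebraMap k R c • j x
  j_star : ∀ x : A, j (star x) = star (j x)
  φ_j : ∀ i, φ (j (a i)) = Pi.single i 1
  star_smul : ∀ (r : R) (x : E), star (r • x) = r • star x

/-- `Lam` is an order over `O` in `A`: a star-stable subring, comparable with the lattice spanned
by the basis. -/
structure IsOrdR {k A ι : Type*} [Field k] [Ring A] [StarRing A] [Algebra k A]
    [Fintype ι] (a : Basis ι k A) (O : Subring k) (Lam : Subring A) : Prop where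
  star_mem : ∀ x ∈ Lam, star x ∈ Lam
  up : ∃ d : k, d ≠ 0 ∧ ∀ x ∈ Lam, ∀ i, d * a.repr x i ∈ O
  lo : ∃ d : k, d ≠ 0 ∧ ∀ c : ι → k, (∀ i, c i ∈ O) → ∑ i, (d * c i) • a i ∈ Lam

namespace BCR

variable {k R A E ι : Type*} [Field k] [CommRing R] [TopologicalSpace R] [IsTopologicalRing R]
  [Algebra k R]
  [Ring A] [StarRing A] [Algebra k A] [Ring E] [StarRing E] [TopologicalSpace E]
  [IsTopologicalRing E] [Algebra R E] [Fintype ι] [DecidableEq ι] (B : BCR k R A E ι)

/-- The basis of `E`. -/
noncomputable def b : Basis ι R E := Basis.ofEquivFun B.φ.toLinearEquiv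

omit [IsTopologicalRing R] [IsTopologicalRing E] in
theorem b_apply (i : ι) : B.b i = B.j (B.a i) := by
  rw [b, Basis.coe_ofEquivFun]
  change B.φ.symm (Pi.single i 1) = _
  rw [← B.φ_j i, ContinuousLinearEquiv.symm_apply_apply]

omit [IsTopologicalRing R] [IsTopologicalRing E] in
theorem j_eq (x : A) : B.j x = ∑ i, algebraMap k R (B.a.repr x i) • B.b i := by
  conv_lhs => rw [← B.a.sum_repr x]
  rw [map_sum]
  exact Finset.sum_congr rfl fun i _ => by rw [B.j_smul, B.b_apply]

omit [IsTopologicalRing R] [IsTopologicalRing E] in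
theorem φ_eq (x : A) (i : ι) : B.φ (B.j x) i = algebraMap k R (B.a.repr x i) := by
  have h : B.φ (B.j x) i = B.b.repr (B.j x) i := rfl
  rw [h, B.j_eq, map_sum, Finsupp.finsetSum_apply]
  simp only [map_smul, Basis.repr_self, Finsupp.smul_single, smul_eq_mul, mul_one]
  rw [Finset.sum_eq_single i]
  · simp
  · intro l _ hl
    simp [hl]
  · simp

/-- Star as a linear map. -/
def starL : E →ₗ[R] E where
  toFun := star
  map_add' := star_add
  map_smul' r x := B.star_smul r x

omit [Fintype ι] [DecidableEq ι] [StarRing E] [IsTopologicalRing E] in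
theorem cont_lin [Finite ι] (φ : E ≃L[R] (ι → R)) (L : E →ₗ[R] E) : Continuous L := by
  have h1 : Continuous (((φ : E →ₗ[R] (ι → R)) ∘ₗ L) ∘ₗ (φ.symm : (ι → R) →ₗ[R] E)) :=
    LinearMap.continuous_on_pi _
  have h2 : (L : E → E) =
      (φ.symm ∘ (((φ : E →ₗ[R] (ι → R)) ∘ₗ L) ∘ₗ (φ.symm : (ι → R) →ₗ[R] E))) ∘ φ := by
    funext x
    simp
  rw [h2]
  exact (φ.symm.continuous.comp h1).comp φ.continuous

include B

omit [IsTopologicalRing E] in
theorem continuousStar : ContinuousStar E := ⟨cont_lin B.φ B.starL⟩

omit [IsTopologicalRing R] [IsTopologicalRing E] in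
theorem t2 [T2Space R] : T2Space E := B.φ.toHomeomorph.symm.t2Space

omit [IsTopologicalRing R] [IsTopologicalRing E] in
theorem locallyCompact [LocallyCompactSpace R] : LocallyCompactSpace E :=
  B.φ.toHomeomorph.isClosedEmbedding.locallyCompactSpace

omit [IsTopologicalRing R] [IsTopologicalRing E] in
theorem noncompact [NoncompactSpace R] [Nonempty ι] : NoncompactSpace E := by
  by_contra h
  have h0 : CompactSpace E := by
    by_contra h1
    exact h (not_compactSpace_iff.1 h1)
  have h1 : CompactSpace (ι → R) := B.φ.toHomeomorph.compactSpace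
  obtain ⟨i⟩ := ‹Nonempty ι›
  have h2 : CompactSpace R := by
    have : Function.Surjective (fun v : ι → R => v i) := fun r => ⟨fun _ => r, rfl⟩
    exact this.compactSpace (continuous_apply i)
  exact (not_compactSpace_iff.2 ‹NoncompactSpace R›) h2

/-! ### determinant of a unitary element -/

omit [IsTopologicalRing R] [IsTopologicalRing E] in
/-- For `x` unitary, the left multiplication by `x` has determinant of square one. -/
theorem det_sq [Nontrivial R] (hF : Frob k A) (x : E) (hx : star x * x = 1) :
    LinearMap.det (LinearMap.mulLeft R x) * LinearMap.det (LinearMap.mulLeft R x) = 1 := by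
  classical
  obtain ⟨t, ht⟩ := hF
  set tR : E →ₗ[R] R := B.b.constr R (fun i => algebraMap k R (t (B.a i))) with htR
  have htj : ∀ y : A, tR (B.j y) = algebraMap k R (t y) := by
    intro y
    rw [B.j_eq, map_sum]
    conv_rhs => rw [← B.a.sum_repr y, map_sum, map_sum]
    refine Finset.sum_congr rfl fun i _ => ?_
    rw [map_smul, map_smul, htR, Basis.constr_basis, smul_eq_mul, smul_eq_mul, map_mul]
  let Bf : LinearMap.BilinForm R E :=
    LinearMap.mk₂ R (fun y z => tR (star y * z))
      (fun y y' z => by rw [star_add, add_mul, map_add])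
      (fun r y z => by rw [B.star_smul, smul_mul_assoc, map_smul])
      (fun y z z' => by rw [mul_add, map_add])
      (fun r y z => by rw [mul_smul_comm, map_smul])
  have hBf : ∀ y z, Bf y z = tR (star y * z) := fun y z => rfl
  have hcomp : Bf.comp (LinearMap.mulLeft R x) (LinearMap.mulLeft R x) = Bf := by
    ext y z
    rw [LinearMap.BilinForm.comp_apply, hBf, hBf, LinearMap.mulLeft_apply,
      LinearMap.mulLeft_apply, star_mul, mul_assoc, ← mul_assoc (star x), hx, one_mul]
  set X := LinearMap.toMatrix B.b B.b (LinearMap.mulLeft R x) with hX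
  set G := LinearMap.BilinForm.toMatrix B.b Bf with hG
  have hXG : Xᵀ * G * X = G := by
    rw [hX, hG, ← LinearMap.BilinForm.toMatrix_comp, hcomp]
  -- the Gram matrix over k
  set G0 : Matrix ι ι k := Matrix.of fun i l => t (star (B.a i) * B.a l) with hG0
  have hGG : G = G0.map (algebraMap k R) := by
    ext i l
    rw [hG, LinearMap.BilinForm.toMatrix_apply, hBf, B.b_apply, B.b_apply, ← B.j_star,
      ← map_mul, htj]
    rfl
  have hdet0 : G0.det ≠ 0 := by
    intro h0
    obtain ⟨v, hv, hGv⟩ := Matrix.exists_mulVec_eq_zero_iff.2 h0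
    set z : A := ∑ l, v l • B.a l with hz
    have hz0 : z ≠ 0 := by
      intro hz0
      apply hv
      funext l
      have := Fintype.linearIndependent_iff.1 B.a.linearIndependent v hz0 l
      exact this
    have h1 : ∀ i, t (star (B.a i) * z) = 0 := by
      intro i
      have := congrFun hGv i
      rw [Matrix.mulVec, dotProduct] at this
      rw [hz, Finset.mul_sum, map_sum]
      simp only [mul_smul_comm, map_smul, smul_eq_mul]
      simpa [hG0, mul_comm] using this
    have hstar : ∀ (c : k) (y : A), star (c • y) = c • star y := by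
      intro c y
      have hinj : Function.Injective B.j := by
        intro y y' hyy
        apply B.a.repr.injective
        ext i
        have h2 := B.φ_eq y i
        rw [hyy, B.φ_eq y' i] at h2
        exact ((algebraMap k R).injective h2).symm
      apply hinj
      rw [B.j_star, B.j_smul, B.star_smul, B.j_smul, B.j_star]
    have h2 : ∀ y : A, t (y * z) = 0 := by
      intro y
      have h3 : y = star (star y) := (star_star y).symm
      rw [h3, ← B.a.sum_repr (star y), star_sum, Finset.sum_mul, map_sum]
      refine Finset.sum_eq_zero fun i _ => ?_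
      rw [hstar, smul_mul_assoc, map_smul, h1, smul_zero]
    exact hz0 (ht z h2)
  have hGu : IsUnit G.det := by
    rw [hGG, ← RingHom.mapMatrix_apply, ← RingHom.map_det]
    exact (isUnit_iff_ne_zero.2 hdet0).map _
  have h1 := congrArg Matrix.det hXG
  rw [det_mul, det_mul, det_transpose] at h1
  rw [← LinearMap.det_toMatrix B.b, ← hX]
  have h2 : X.det * X.det * G.det = 1 * G.det := by
    rw [one_mul]; linear_combination h1
  exact hGu.mul_right_cancel h2

omit [IsTopologicalRing R] [IsTopologicalRing E] in
theorem j_inj [Nontrivial R] : Function.Injective B.j := by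
  intro y y' hyy
  apply B.a.repr.injective
  ext i
  have h2 := B.φ_eq y i
  rw [hyy, B.φ_eq y' i] at h2
  exact ((algebraMap k R).injective h2).symm

omit [IsTopologicalRing E] in
/-- The image of an order is discrete. -/
theorem disc {O : Subring k}
    (hOd : ∀ K : Set R, IsCompact K → {c : k | c ∈ O ∧ algebraMap k R c ∈ K}.Finite)
    {Lam : Subring A} (H : IsOrdR B.a O Lam) (K : Set E) (hK : IsCompact K) :
    {x : A | x ∈ Lam ∧ B.j x ∈ K}.Finite := by
  obtain ⟨d, hd, hup⟩ := H.up
  set f : A → (ι → k) := fun x i => d * B.a.repr x i with hf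
  have hfinj : Function.Injective f := by
    intro x y hxy
    apply B.a.repr.injective
    ext i
    have := congrFun hxy i
    exact mul_left_cancel₀ hd this
  set S : ι → Set k := fun i =>
    {c : k | c ∈ O ∧ algebraMap k R c ∈ (fun x => algebraMap k R d * (B.φ x i)) '' K} with hS
  have hSf : (Set.pi Set.univ S).Finite := Set.Finite.pi fun i =>
    hOd _ (hK.image (by fun_prop))
  refine (hSf.preimage hfinj.injOn).subset ?_
  rintro x ⟨hx, hxK⟩
  rw [Set.mem_preimage, Set.mem_univ_pi]
  intro i
  refine ⟨hup x hx i, B.j x, hxK, ?_⟩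
  simp only [hf]
  rw [B.φ_eq, ← map_mul]

omit [IsTopologicalRing E] in
/-- The image of an order is cocompact. -/
theorem coc {O : Subring k}
    (hOc : ∃ K : Set R, IsCompact K ∧ ∀ r : R, ∃ c ∈ O, r - algebraMap k R c ∈ K)
    {Lam : Subring A} (H : IsOrdR B.a O Lam) :
    ∃ K : Set E, IsCompact K ∧ ∀ x : E, ∃ a ∈ Lam, x - B.j a ∈ K := by
  obtain ⟨K, hK, hcov⟩ := hOc
  obtain ⟨d, hd, hlo⟩ := H.lo
  refine ⟨B.φ.symm '' (Set.pi Set.univ fun _ => (fun r => algebraMap k R d * r) '' K),
    (isCompact_univ_pi fun _ => hK.image (by fun_prop)).image B.φ.symm.continuous,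
    fun x => ?_⟩
  choose c hc hcK using fun i => hcov (algebraMap k R d⁻¹ * B.φ x i)
  refine ⟨∑ i, (d * c i) • B.a i, hlo c hc, ?_⟩
  refine ⟨B.φ (x - B.j (∑ i, (d * c i) • B.a i)), ?_, by simp⟩
  rw [Set.mem_univ_pi]
  intro i
  refine ⟨_, hcK i, ?_⟩
  have h1 : B.a.repr (∑ i, (d * c i) • B.a i) i = d * c i := by
    rw [Basis.repr_sum_self]
  rw [map_sub, Pi.sub_apply, B.φ_eq, h1, map_mul]
  simp only
  rw [mul_sub, ← mul_assoc, ← map_mul, mul_inv_cancel₀ hd, map_one, one_mul]

/-- Haar measure on `E` is preserved by unitary elements. -/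
theorem haar_unitary [Nontrivial R] (hR : H544.DetOne R) (hF : Frob k A)
    [LocallyCompactSpace E]
    [MeasurableSpace E] [BorelSpace E] (μ : Measure E) [μ.IsAddHaarMeasure] [μ.Regular]
    (x : E) (hx : star x * x = 1) (s : Set E) : μ ((fun z => x * z) ⁻¹' s) = μ s :=
  H544.haar_of_det hR B.φ μ (LinearMap.mulLeft R x) (B.det_sq hF x hx) s

end BCR

end Vale.Agent.P011.H74
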