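import Vale.Agent.P011.H74.PData
import Vale.Agent.P011.H261.M6BC

/-!
# `hup` and `hlim` over function fields, for a division algebra
-/

open MeasureTheory Filter Topology Set Module
open scoped ENNReal NNReal CompactlySupported

namespace Vale.Agent.P011.H74

open Vale.Agent.P011.H698 Vale.Agent.P011.H738 Vale.Agent.P011.H271 Vale.Agent.P011.H210
  Vale.Agent.P011.H976

set_option linter.unusedSectionVars false

section div

variable {k D : Type} [Field k] [GFF k] [DivisionRing D] [StarRing D] [Algebra k D]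
  [StarLinR k D] {N : ℕ} (B : Basis (Fin N) k D) (S : Finset (Place k))

/-- The denominator. -/
noncomputable def denF (g : UA D) : ℝ := (H699.den (ordO B (OSF S)) ((g : Dˣ) : D) : ℝ)

theorem isOrdR_S (hS : S.Nonempty) : IsOrdR B (OSF S) (ordO B (OSF S)) := by
  obtain ⟨d, -, hd⟩ := exists_denR B (OSF S) (OSF_den hS)
  exact (isOrdR_ordO B hd).1

theorem isOrd_SF (hS : S.Nonempty) : H544.IsOrd (bcD B (KSF S)).a (OSF S) (ordO B (OSF S)) :=
  (isOrd_iff B).2 (isOrdR_S B S hS)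

theorem starLin : H544.StarLin k D := ⟨StarLinR.star_smul'⟩

/-- **`hup`**, function fields. -/
theorem hup_ff (hS : S.Nonempty) {w0 : D} (hw : ∀ x, w0 * x = x * w0) (hne : w0 ≠ star w0)
    (K : Set (unitary (BR B (KSF S)))) (hK : IsCompact K) :
    ∃ C : ℝ, ∀ᶠ x in 𝓝[>] (1 : ℝ),
      Summable (fun y : UA D => (x - 1) * denF B S y ^ (-x) *
        K.indicator 1 (iotaU B (KSF S) y)) ∧
      ∑' y : UA D, (x - 1) * denF B S y ^ (-x) * K.indicator 1 (iotaU B (KSF S) y) ≤ C := by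
  have := starLin (k := k) (D := D)
  have := countable_A B
  have := KSF_nontrivial hS
  have := KSF_noncompact hS
  exact H261.hup_bc (bcD B (KSF S)) uA (H380.UpBC.good_KSF hS) (isOrd_SF B S hS) hw hne
    uA_injective K hK

variable {S}

/-- **`hlim`**, function fields. -/
theorem hlim_ff (q : S) {n : ℕ} (hn : 1 < n) (s : Spl B (q : Place k).comp n) {w0 : D}
    (hw : ∀ x, w0 * x = x * w0) (hne : w0 ≠ star w0)
    {Q : Type*} [Group Q] [Finite Q] (c : UA D →* Q) (T : UA D → UA D)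
    (hT : ∀ g y : UA D, T (g * y * g⁻¹) = g * T y * g⁻¹)
    (ρ : Q) (hρ : ∀ O ∈ 𝓝 (1 : unitary (BR B (KSF S))), ∃ g : UA D,
      ((g : Dˣ) : D) ∈ ordO B (OSF S) ∧ c g = ρ ∧
      ∃ o ∈ O, ∃ z, iotaU B (KSF S) g = o * jS (facS q) s z)
    (φ : C_c(unitary (BR B (KSF S)), ℝ)) (hφ : tsupport φ ⊆ X0 (facS q) s) (a a' : Q) :
    Tendsto (fun x : ℝ =>
      ∑' y : UA D, (x - 1) * denF B S y ^ (-x) *
        ({y : UA D | c y = a ∧ c (T y) = a'}.indicator 1 y * φ (iotaU B (KSF S) y)) -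
      ∑' y : UA D, (x - 1) * denF B S y ^ (-x) *
        ({y : UA D | c y = ρ * a * ρ⁻¹ ∧ c (T y) = ρ * a' * ρ⁻¹}.indicator 1 y *
          φ (iotaU B (KSF S) y))) (𝓝[>] 1) (𝓝 0) := by
  have hS : S.Nonempty := ⟨_, q.2⟩
  have := starLin (k := k) (D := D)
  have := countable_A B
  have := KSF_nontrivial hS
  have := KSF_noncompact hS
  have : Nontrivial (Fin n) := Fin.nontrivial_iff_two_le.2 hn
  obtain ⟨ϖ, hϖ, hpow⟩ := exists_pow_tendsto (q : Place k)
  exact H261.hlim_bc (bcD B (KSF S)) uA (H380.UpBC.good_KSF hS) (isOrd_SF B S hS) hw hne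
    uA_bijective c T (fun g _ y => hT g y) hϖ hpow (jS (facS q) s) (continuous_jS _ s)
    (normal_jS _ s) (isOpen_X0 _ s (isOpen_SR_comp (q : Place k) n))
    (fun p hp => split_X0 _ s hp) ρ (fun O hO => by
      obtain ⟨g, hg, hgρ, o, ho, z, hz⟩ := hρ O hO
      exact ⟨g, hg, hgρ, o, ho, z, hz⟩) φ hφ a a'

end div

section target

variable {k K D Ω : Type} [Field k] [GFF k] [Field K] [StarRing K] [DivisionRing D] [StarRing D]
  [Algebra k K] [Algebra k D] [Algebra K D] [IsScalarTower k K D] [StarModule K D] {n N : ℕ}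
  [Field Ω] [Algebra K Ω] {f : D →ₐ[K] Matrix (Fin n) (Fin n) Ω} {B : Basis (Fin N) k D}

/-- **`hlim` for a target group**, function fields, division algebras of every characteristic. -/
theorem hlim_target_ff [StarLinR k D] (hA : Anis k K D n) (hn : 1 < n) {S : Finset (Place k)}
    (q : S) {φ₀ : K →+* (q : Place k).comp} (s : Spl B (q : Place k).comp n)
    (hφ₀ : ∀ c : K, s.f (algebraMap K D c) = algebraMap _ _ (φ₀ c))
    {w0 : D} (hw : ∀ x, w0 * x = x * w0) (hne : w0 ≠ star w0)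
    {Q : Type*} [Group Q] {c : UA D →* Q} {P : Subgroup Q}
    (hT0 : Target0 (FLv f B {(q : Place k)}) c P) (T : UA D → UA D)
    (hT : ∀ g y : UA D, T (g * y * g⁻¹) = g * T y * g⁻¹) {ρ : Q} (hρ : ρ ∈ P)
    (φ : C_c(unitary (BR B (KSF S)), ℝ)) (hφ : tsupport φ ⊆ X0 (facS q) s) (a a' : Q) :
    Tendsto (fun x : ℝ =>
      ∑' y : UA D, (x - 1) * denF B S y ^ (-x) *
        ({y : UA D | c y = a ∧ c (T y) = a'}.indicator 1 y * φ (iotaU B (KSF S) y)) -
      ∑' y : UA D, (x - 1) * denF B S y ^ (-x) *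
        ({y : UA D | c y = ρ * a * ρ⁻¹ ∧ c (T y) = ρ * a' * ρ⁻¹}.indicator 1 y *
          φ (iotaU B (KSF S) y))) (𝓝[>] 1) (𝓝 0) := by
  have := hT0.fin
  have hS : S.Nonempty := ⟨_, q.2⟩
  have H := isOrdR_S B S hS
  refine hlim_ff B q hn s hw hne c T hT ρ (fun O hO => ?_) φ hφ a a'
  obtain ⟨g, hgc, -, hgL, o, ho, z, hz⟩ := exists_gam hA (by omega) q s hφ₀ H hT0 hO hρ
  exact ⟨g, ((mem_UL_iff H.star_mem).1 hgL).1, hgc, o, ho, z, hz⟩

end target

end Vale.Agent.P011.H74
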