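import Vale.Agent.P011.H74.LowGen
import Vale.Agent.P011.H271.KSF
import Vale.Agent.P011.H519.SplitPlaceK
import Mathlib.NumberTheory.ClassNumber.FunctionField

/-!
# Lower bound of the height zeta function over function fields

`k` a global function field, `S` a finite set of places containing the poles of a separating
element: the height zeta function of the symmetric elements modulo the order `ordO B (OSF S)` is at
least `c / (x - 1)`.
-/

open Module Polynomial IsDedekindDomain HeightOneSpectrum Filter Topology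

namespace Vale.Agent.P011.H74

open Vale.Agent.P011.H738 Vale.Agent.P011.H271

set_option linter.unusedSectionVars false

section places

variable {F : Type} [Field F] [Finite F] {k : Type} [Field k] [Algebra F[X] k]
  [Algebra (RatFunc F) k] [IsScalarTower F[X] (RatFunc F) k] [FiniteDimensional (RatFunc F) k]
  [Algebra.IsSeparable (RatFunc F) k]

variable (F k) in
theorem finite_classGroup : Finite (ClassGroup (OO F k)) := by
  classical
  have : Fintype F := Fintype.ofFinite F
  have h : Fintype (ClassGroup (integralClosure F[X] k)) :=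
    ClassGroup.fintypeOfAdmissibleOfFinite (RatFunc F) k
      (Polynomial.cardPowDegreeIsAdmissible :
        AbsoluteValue.IsAdmissible (Polynomial.cardPowDegree : AbsoluteValue F[X] ℤ))
  exact Finite.of_fintype _

variable [GFF k]

/-- The place of a prime. -/
noncomputable def plOf (w : HeightOneSpectrum (OO F k)) : Place k :=
  Function.surjInv toPl_surjective ⟨hosV k w, hosV_ne_top w⟩

theorem toPl_plOf (w : HeightOneSpectrum (OO F k)) :
    toPl (plOf w) = ⟨hosV k w, hosV_ne_top w⟩ :=
  Function.surjInv_eq toPl_surjective _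

theorem plOf_injective : Function.Injective (plOf : HeightOneSpectrum (OO F k) → Place k) := by
  intro w w' h
  have h1 := congrArg toPl h
  rw [toPl_plOf, toPl_plOf] at h1
  exact hosV_injective (congrArg Subtype.val h1)

theorem abv_le_iff (v : Place k) (x : k) : v.abv x ≤ 1 ↔ x ∈ (toPl v).1 := by
  rw [Pl.mem_iff, toPl_le_one]

theorem plOf_le_iff (w : HeightOneSpectrum (OO F k)) (x : k) :
    (plOf w).abv x ≤ 1 ↔ x ∈ hosV k w := by
  rw [abv_le_iff, toPl_plOf]

/-- Integers are `S`-integers, if `S` contains the poles of the variable. -/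
theorem OO_le_OSF {S : Finset (Place k)} (hS : ∀ v : Place k, 1 < v.abv (tt F : k) → v ∈ S)
    (r : OO F k) : algebraMap (OO F k) k r ∈ OSF S := by
  intro v hv
  rw [abv_le_iff]
  refine OO_le _ ?_ r
  rw [← abv_le_iff]
  exact not_lt.1 fun h => hv (hS v h)

variable {K A : Type} [Field K] [StarRing K] [Ring A] [StarRing A] [Algebra k K] [Algebra k A]
  [Algebra K A] [IsScalarTower k K A] [StarModule K A] {n N : ℕ}

theorem exists_low_str (hA : Anis k K A n) (hn : n ≠ 0) (B : Basis (Fin N) k A)
    {S : Finset (Place k)} (hS : ∀ v : Place k, 1 < v.abv (tt F : k) → v ∈ S) :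
    ∃ c : ℝ, 0 < c ∧ ∀ᶠ x : ℝ in 𝓝[>] 1, ∃ T : Finset A, (∀ s ∈ T, star s = s) ∧
      (∀ s ∈ T, ∀ t ∈ T, s - t ∈ ordO B (OSF S) → s = t) ∧
      (∀ s ∈ T, H699.den (ordO B (OSF S)) s ≠ 0) ∧
      c / (x - 1) ≤ ∑ s ∈ T, (H699.den (ordO B (OSF S)) s : ℝ) ^ (-x) := by
  classical
  have hst := H519.star_smul_of_anis hA
  have hSL : StarLinR k A := ⟨hst⟩
  have := hA.simple
  have := hA.central
  have := finite_classGroup F k
  have hE : H973.HasEuler (OO F k) := H973.hasEuler_ff F (OO F k)
  have hO := OO_le_OSF hS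
  set B₁ : Set (HeightOneSpectrum (OO F k)) := {w | plOf w ∈ S} with hB₁
  have hfin : B₁.Finite := S.finite_toSet.preimage plOf_injective.injOn
  have hint : ∀ w : HeightOneSpectrum (OO F k), w ∉ B₁ → ∀ z ∈ OSF S, z ∈ hosV k w := by
    intro w hw z hz
    rw [← plOf_le_iff]
    exact hz _ hw
  have hOO : ordA B (imR (OO F k) k) mem_imR ≤ ordA B (OSF S) hO := by
    have h1 : imR (OO F k) k ≤ OSF S := by
      rintro _ ⟨r, rfl⟩
      exact hO r
    intro x hx
    exact ordO_mono B h1 hx
  have hstO : ∀ x ∈ ordA B (imR (OO F k) k) mem_imR,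
      star x ∈ ordA B (imR (OO F k) k) mem_imR := by
    rintro x ⟨h1, h2⟩
    exact ⟨h2, by rwa [star_star]⟩
  have hsk : ∀ c : k, star (algebraMap k A c) = algebraMap k A c := fun c => by
    rw [Algebra.algebraMap_eq_smul_one, hst, star_one]
  have hne : ∃ z : K, star (algebraMap K A z) ≠ algebraMap K A z := by
    obtain ⟨z, hz⟩ := hA.star_ne
    refine ⟨z, fun h => hz ?_⟩
    have h1 : star (algebraMap K A z) = algebraMap K A (star z) := by
      rw [Algebra.algebraMap_eq_smul_one, star_smul, star_one, Algebra.algebraMap_eq_smul_one]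
    rw [h1] at h
    exact (algebraMap K A).injective h
  obtain ⟨c, hc, h⟩ := H973.exists_low_loc (K := K) hE
    (H519.quad hA.fixed hA.star_ne).2.2 hsk hne hn hA.finrank_eq
    (O := ordA B (imR (OO F k) k) mem_imR) hstO (ordA_fg B) (ordA_frac B)
    (O' := ordA B (OSF S) hO) hOO (ordA_loc B hO hint) hfin (fun t ht => ht)
  refine ⟨c, hc, ?_⟩
  filter_upwards [h] with x hx
  obtain ⟨T, h1, h2, -, h4, h5⟩ := hx
  rw [ordA_toSubring] at h4
  exact ⟨T, h1, fun s hs t ht hst => h2 s hs t ht hst, h4, h5⟩

end places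

section final

variable {k K A : Type} [Field k] [GFF k] [Field K] [StarRing K] [Ring A] [StarRing A]
  [Algebra k K] [Algebra k A] [Algebra K A] [IsScalarTower k K A] [StarModule K A] {n N : ℕ}

/-- **Lower bound of the height zeta function of the symmetric elements over function fields**, for
the order `ordO B (OSF S)` and all sufficiently large finite sets of places `S`. -/
theorem exists_low_FF (hA : Anis k K A n) (hn : n ≠ 0) (B : Basis (Fin N) k A) :
    ∃ S₀ : Finset (Place k), ∀ S : Finset (Place k), S₀ ⊆ S →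
      ∃ c : ℝ, 0 < c ∧ ∀ᶠ x : ℝ in 𝓝[>] 1, ∃ T : Finset A, (∀ s ∈ T, star s = s) ∧
        (∀ s ∈ T, ∀ t ∈ T, s - t ∈ ordO B (OSF S) → s = t) ∧
        (∀ s ∈ T, H699.den (ordO B (OSF S)) s ≠ 0) ∧
        c / (x - 1) ≤ ∑ s ∈ T, (H699.den (ordO B (OSF S)) s : ℝ) ^ (-x) := by
  obtain ⟨F, hF, hFfin, φ, h1, h2⟩ := GFF.out (k := k)
  let : Algebra (RatFunc F) k := φ.toAlgebra
  let : Algebra F[X] k := (φ.comp (algebraMap F[X] (RatFunc F))).toAlgebra
  have : IsScalarTower F[X] (RatFunc F) k := IsScalarTower.of_algebraMap_eq fun _ => rfl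
  have : FiniteDimensional (RatFunc F) k := h1
  have : Algebra.IsSeparable (RatFunc F) k := h2
  have ht : (tt F : k) ≠ 0 := by
    have h3 : (tt F : k) = φ (algebraMap F[X] (RatFunc F) X) := rfl
    rw [h3, RatFunc.algebraMap_X]
    exact (_root_.map_ne_zero φ).2 RatFunc.X_ne_zero
  refine ⟨(place_finite ht).toFinset, fun S hS => exists_low_str (F := F) hA hn B fun v hv => hS ?_⟩
  rw [Set.Finite.mem_toFinset]
  exact hv.ne'

end final

end Vale.Agent.P011.H74
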