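import Vale.Agent.P011.H271.CosetF
import Vale.Agent.P011.H929.FFc

/-!
# Elements of a normal subgroup of finite index with prescribed behaviour, function fields

`Q` is a normal subgroup of finite index of `SUA f`.  At finitely many places outside `Adiv` the
elements of `Q` approximate arbitrary elements of `SUA f`, while they stay close to one at finitely
many other places and are integral at the remaining places with the exception of one split place
`q` outside `Adiv`.  Moreover all unitary conjugates of these elements are in `Q`.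

This is applied to the elements `u z u⁻¹ w⁻¹`, which are congruent modulo `Q` to `x`, when
`z = x w`.
-/

open Module Topology Filter

set_option linter.unusedSectionVars false

namespace Vale.Agent.P011.H74.GlobF

open Vale.Agent.P011.H738 Vale.Agent.P011.H271 Vale.Agent.P011.H698 Vale.Agent.P011.H961
  Vale.Agent.P011.H271.CosetF
open Vale.Agent.P011.H182 (na Ig na_mul na_nonneg na_add_le na_sub_le na_zero na_pos na_const
  coord_le_na)

section est

variable {k D : Type} [Field k] [DivisionRing D] [Algebra k D] {N : ℕ}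
  (B : Basis (Fin N) k D)

/-- Products of elements close to given ones. -/
theorem near_prod (a : AbsoluteValue k ℝ) (g h : D) {ε : ℝ} (hε : 0 < ε) :
    ∃ δ : ℝ, 0 < δ ∧ ∀ x y : D, na B a (x - g) < δ → na B a (y - h) < δ →
      na B a (x * y - g * h) < ε := by
  obtain ⟨C, hC1, hCm⟩ := na_mul B a
  have hg := na_nonneg B a g
  have hh := na_nonneg B a h
  have hC0 : 0 < C := by linarith
  obtain ⟨W, hW⟩ : ∃ W : ℝ, W = C * (na B a h + 1) + C * na B a g + 1 := ⟨_, rfl⟩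
  have hW0 : 0 < W := by rw [hW]; positivity
  refine ⟨min 1 (ε / W), lt_min one_pos (by positivity), fun x y hx hy => ?_⟩
  have hx2 := hx.trans_le (min_le_right _ _)
  have hy1 := hy.trans_le (min_le_left _ _)
  have hy2 := hy.trans_le (min_le_right _ _)
  have e : x * y - g * h = (x - g) * y + g * (y - h) := by noncomm_ring
  have hyn : na B a y ≤ na B a h + 1 := by
    have e1 : na B a y = na B a (h + (y - h)) := by
      congr 1
      abel
    rw [e1]
    exact (na_add_le _ _ _ _).trans (by linarith)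
  have hx0 := na_nonneg B a (x - g)
  have hy0 := na_nonneg B a (y - h)
  have h1 : na B a ((x - g) * y) ≤ C * (na B a h + 1) * (ε / W) := by
    refine (hCm _ _).trans ?_
    calc C * na B a (x - g) * na B a y ≤ C * (ε / W) * (na B a h + 1) :=
          mul_le_mul (mul_le_mul_of_nonneg_left hx2.le hC0.le) hyn (na_nonneg _ _ _)
            (mul_nonneg hC0.le (by positivity))
      _ = C * (na B a h + 1) * (ε / W) := by ring
  have h2 : na B a (g * (y - h)) ≤ C * na B a g * (ε / W) :=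
    (hCm _ _).trans (mul_le_mul_of_nonneg_left hy2.le (mul_nonneg hC0.le hg))
  rw [e]
  refine (na_add_le _ _ _ _).trans_lt ?_
  have h3 : C * (na B a h + 1) * (ε / W) + C * na B a g * (ε / W) = ε - ε / W := by
    have h4 : C * (na B a h + 1) + C * na B a g = W - 1 := by rw [hW]; ring
    calc C * (na B a h + 1) * (ε / W) + C * na B a g * (ε / W)
        = (C * (na B a h + 1) + C * na B a g) * (ε / W) := by ring
      _ = (W - 1) * (ε / W) := by rw [h4]
      _ = ε - ε / W := by field_simp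
  have h5 : 0 < ε / W := by positivity
  linarith

/-- Stars of elements near one. -/
theorem near_star [StarRing D] (hst : ∀ (c : k) (x : D), star (c • x) = c • star x)
    (a : AbsoluteValue k ℝ) {ε : ℝ} (hε : 0 < ε) : ∃ ε' : ℝ, 0 < ε' ∧ ∀ x : D,
      na B a (x - 1) < ε' → na B a (star x - 1) < ε := by
  obtain ⟨C, hC1, -, hCs⟩ := na_const B a hst
  have hC0 : 0 < C := by linarith
  refine ⟨ε / C, by positivity, fun x hx => ?_⟩
  have e : star x - 1 = star (x - 1) := by rw [star_sub, star_one]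
  rw [e]
  refine (hCs _).trans_lt ?_
  rwa [lt_div_iff₀ hC0, mul_comm] at hx

/-- Conjugates of elements near one. -/
theorem near_conj (a : AbsoluteValue k ℝ) {g : D} (hg : g ≠ 0) {ε : ℝ} (hε : 0 < ε) :
    ∃ ε' : ℝ, 0 < ε' ∧ ∀ x : D, na B a (x - 1) < ε' → na B a (g * x * g⁻¹ - 1) < ε := by
  obtain ⟨C, hC1, hCm⟩ := na_mul B a
  have hC0 : 0 < C := by linarith
  have h1 := na_pos B a hg
  have h2 := na_pos B a (inv_ne_zero hg)
  refine ⟨ε / (C * (C * na B a g) * na B a g⁻¹), by positivity, fun x hx => ?_⟩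
  have e : g * x * g⁻¹ - 1 = g * (x - 1) * g⁻¹ := by
    rw [mul_sub, mul_one, sub_mul, mul_inv_cancel₀ hg]
  rw [lt_div_iff₀ (by positivity)] at hx
  rw [e]
  refine lt_of_le_of_lt ((hCm _ _).trans (mul_le_mul_of_nonneg_right
    (mul_le_mul_of_nonneg_left (hCm _ _) hC0.le) h2.le)) ?_
  calc C * (C * na B a g * na B a (x - 1)) * na B a g⁻¹ =
      na B a (x - 1) * (C * (C * na B a g) * na B a g⁻¹) := by ring
    _ < ε := hx

/-- A finite set of positive numbers has a positive lower bound. -/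
theorem exists_lower {ι : Type} {P : Set ι} (hP : P.Finite) {u : ι → ℝ} (hu : ∀ i ∈ P, 0 < u i) :
    ∃ ε : ℝ, 0 < ε ∧ ∀ i ∈ P, ε ≤ u i := by
  classical
  induction P, hP using Set.Finite.induction_on with
  | empty => exact ⟨1, one_pos, fun i hi => absurd hi (Set.notMem_empty _)⟩
  | @insert a s _ _ ih =>
    obtain ⟨m, hm, hm'⟩ := ih fun i hi => hu i (Set.mem_insert_of_mem _ hi)
    refine ⟨min (u a) m, lt_min (hu a (Set.mem_insert _ _)) hm, fun i hi => ?_⟩
    rcases hi with rfl | hi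
    · exact min_le_left _ _
    · exact (min_le_right _ _).trans (hm' i hi)

end est

section conv

variable {k D : Type} [Field k] [DivisionRing D] [StarRing D] [Algebra k D] {N : ℕ}
  {B : Basis (Fin N) k D} {v : Place k}

theorem gd_iff : H698.Gd B v ↔ H182.Gd B v.abv :=
  ⟨fun h => ⟨v.nonarch, h.one, h.mul, h.str⟩, fun h => ⟨h.one, h.mul, h.str⟩⟩

theorem sm_of_na {ε : ℝ} {x : D} (h : na B v.abv x < ε) : Sm B v ε x := fun i =>
  (coord_le_na B v.abv x i).trans_lt h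

theorem na_of_sm {ε : ℝ} (hε : 0 < ε) {x : D} (h : Sm B v (ε / (N + 1)) x) :
    na B v.abv x < ε := by
  have h1 : na B v.abv x ≤ N * (ε / (N + 1)) :=
    H182.na_le_of_coord B v.abv fun i => (h i).le
  refine h1.trans_lt ?_
  have h2 : (0 : ℝ) < N + 1 := by positivity
  rw [← mul_div_assoc, div_lt_iff₀ h2, mul_comm ε]
  nlinarith

end conv

variable {k K D Ω : Type} [Field k] [GFF k] [Field K] [StarRing K] [DivisionRing D] [StarRing D]
  [Algebra k K] [Algebra k D] [Algebra K D] [IsScalarTower k K D] [StarModule K D] {n N : ℕ}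
  [Field Ω] [Algebra K Ω] {f : D →ₐ[K] Matrix (Fin n) (Fin n) Ω} {B : Basis (Fin N) k D}

theorem glob_aux (hA : Anis k K D n) {q : Place k} (M : Subgroup (UA D)) [M.Normal]
    (hM : HasNC B q M) {T : Finset (Place k)} (hb : Big B T) (g : Place k → UA D)
    (F : Finset (Place k)) :
    (∀ v ∈ F, v ∈ T ∧ v ≠ q ∧ Mod f B v ∧ g v ∈ GA f) → ∀ ε : ℝ, 0 < ε →
    ∃ u ∈ M, (∀ v ∈ F, na B v.abv (((u : Dˣ) : D) - ((g v : Dˣ) : D)) < ε) ∧
      (∀ v ∈ T, v ∉ F → v ≠ q → na B v.abv (((u : Dˣ) : D) - 1) < ε) ∧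
      ∀ v, v ∉ T → v ≠ q → Ig B v.abv ((u : Dˣ) : D) := by
  classical
  have hst := H519.star_smul_of_anis hA
  have hcoe1 : (((1 : UA D) : Dˣ) : D) = 1 := rfl
  induction F using Finset.induction_on with
  | empty =>
    intro _ ε hε
    refine ⟨1, M.one_mem, fun v hv => absurd hv (Finset.notMem_empty v), fun v _ _ _ => ?_,
      fun v hv _ => ?_⟩
    · rw [hcoe1, sub_self, na_zero]
      exact hε
    · rw [hcoe1]
      exact (hb v hv).one
  | insert v₀ F hv₀ ih =>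
    intro hF ε hε
    obtain ⟨hv₀T, hv₀q, ⟨L, _, _, _, E, ρ, hLM⟩, hgv⟩ := hF v₀ (Finset.mem_insert_self _ _)
    have hF' : ∀ v ∈ F, v ∈ T ∧ v ≠ q ∧ Mod f B v ∧ g v ∈ GA f := fun v hv =>
      hF v (Finset.mem_insert_of_mem hv)
    choose δ1 hδ1 h1 using fun v : Place k => near_prod B v.abv ((g v : Dˣ) : D) 1 hε
    choose δ2 hδ2 h2 using fun v : Place k => near_prod B v.abv 1 ((g v : Dˣ) : D) hε
    choose δ3 hδ3 h3 using fun v : Place k => near_prod B v.abv 1 1 hε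
    obtain ⟨δ, hδ, hδ'⟩ := exists_lower T.finite_toSet
      (u := fun v => min (δ1 v) (min (δ2 v) (δ3 v)))
      fun v _ => lt_min (hδ1 v) (lt_min (hδ2 v) (hδ3 v))
    have hδ1' : ∀ v ∈ T, δ ≤ δ1 v := fun v hv => (hδ' v hv).trans (min_le_left _ _)
    have hδ2' : ∀ v ∈ T, δ ≤ δ2 v := fun v hv => (hδ' v hv).trans ((min_le_right _ _).trans
      (min_le_left _ _))
    have hδ3' : ∀ v ∈ T, δ ≤ δ3 v := fun v hv => (hδ' v hv).trans ((min_le_right _ _).trans
      (min_le_right _ _))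
    obtain ⟨u, huM, hu1, hu2, hu4⟩ := ih hF' δ hδ
    -- the margin at the new place
    obtain ⟨δ5, hδ5, h5⟩ := near_prod B v₀.abv ((g v₀ : Dˣ) : D) 1 hδ
    have hN : (0 : ℝ) < N + 1 := by positivity
    obtain ⟨ν, hνM, ⟨hν1, -, hν3⟩, hν⟩ := approx' hLM hA hst hv₀q M hM ((T.erase q).erase v₀)
      (fun h => (Finset.mem_erase.mp (Finset.mem_of_mem_erase h)).1 rfl)
      (Finset.notMem_erase _ _)
      (fun w => {x | Sm B w (δ / (N + 1)) (el (MonoidHom.id (UA D)) x - 1)})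
      (fun w => ball_mem B _ w (div_pos hδ hN)) (g v₀)⁻¹ ((GA f).inv_mem hgv)
      {x | Sm B v₀ (δ5 / (N + 1)) (el (MonoidHom.id (UA D)) x - 1)}
      (ball_mem B _ v₀ (div_pos hδ5 hN))
    have hxv : na B v₀.abv (((ν : Dˣ) : D) - ((g v₀ : Dˣ) : D)) < δ := by
      have h6 : na B v₀.abv (((((g v₀)⁻¹ * ν : UA D) : Dˣ) : D) - 1) < δ5 := na_of_sm hδ5 hν
      have h7 := h5 ((g v₀ : Dˣ) : D) _ (by rw [sub_self, na_zero]; exact hδ5) h6
      have e : ((g v₀ : Dˣ) : D) * ((((g v₀)⁻¹ * ν : UA D) : Dˣ) : D) = ((ν : Dˣ) : D) := by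
        have e1 : g v₀ * ((g v₀)⁻¹ * ν) = ν := mul_inv_cancel_left _ _
        conv_rhs => rw [← e1]
        rfl
      rwa [e, mul_one] at h7
    have hx1 : ∀ v ∈ T, v ≠ v₀ → v ≠ q → na B v.abv (((ν : Dˣ) : D) - 1) < δ := fun v hv hv0 hvq =>
      na_of_sm hδ (hν1 v (Finset.mem_erase.mpr ⟨hv0, Finset.mem_erase.mpr ⟨hvq, hv⟩⟩))
    have hx2 : ∀ v, v ∉ T → v ≠ q → Bd B v 1 ((ν : Dˣ) : D) := by
      intro v hv hvq
      have h6 := hν3 v (fun h => hv (Finset.mem_of_mem_erase (Finset.mem_of_mem_erase h))) (by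
        rw [Set.mem_insert_iff, Set.mem_singleton_iff, not_or]
        exact ⟨hvq, fun h => hv (h ▸ hv₀T)⟩)
      rw [levF_Kint] at h6
      exact (mem_kintF B _ (hb v hv)).mp h6
    have hmul : (((u * ν : UA D) : Dˣ) : D) = ((u : Dˣ) : D) * ((ν : Dˣ) : D) := rfl
    refine ⟨u * ν, M.mul_mem huM hνM, fun v hv => ?_, fun v hv hvF hvq => ?_,
      fun v hv hvq => ?_⟩
    · rw [hmul]
      by_cases hvv : v = v₀
      · subst hvv
        have h5 := h2 v _ _ ((hu2 v hv₀T hv₀ hv₀q).trans_le (hδ2' v hv₀T))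
          (hxv.trans_le (hδ2' v hv₀T))
        rwa [one_mul] at h5
      · have hvF : v ∈ F := (Finset.mem_insert.mp hv).resolve_left hvv
        obtain ⟨hvT, hvq, -⟩ := hF' v hvF
        have h5 := h1 v _ _ ((hu1 v hvF).trans_le (hδ1' v hvT))
          ((hx1 v hvT hvv hvq).trans_le (hδ1' v hvT))
        rwa [mul_one] at h5
    · rw [Finset.mem_insert, not_or] at hvF
      rw [hmul]
      have h5 := h3 v _ _ ((hu2 v hv hvF.2 hvq).trans_le (hδ3' v hv))
        ((hx1 v hv hvF.1 hvq).trans_le (hδ3' v hv))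
      rwa [mul_one] at h5
    · rw [hmul]
      exact (gd_iff.mp (hb v hv)).mul' (hu4 v hv hvq) (hx2 v hv hvq)

/-- Conjugation by a unitary element. -/
def cj (f : D →ₐ[K] Matrix (Fin n) (Fin n) Ω) (z : Dˣ) (hz : (z : D) * star (z : D) = 1) :
    SUA f →* SUA f where
  toFun g := ⟨z * (g : Dˣ) * z⁻¹, by
    have hsz : star (z : D) = ((z⁻¹ : Dˣ) : D) := by
      rw [← Units.mul_right_inj z, hz, Units.mul_inv]
    have hsz' : star ((z⁻¹ : Dˣ) : D) = (z : D) := by rw [← hsz, star_star]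
    refine ⟨?_, ?_⟩
    · rw [Units.val_mul, Units.val_mul, star_mul, star_mul, hsz', hsz]
      have h1 : ((g : Dˣ) : D) * star ((g : Dˣ) : D) = 1 := g.2.1
      calc (z : D) * ((g : Dˣ) : D) * ((z⁻¹ : Dˣ) : D) * ((z : D) * (star ((g : Dˣ) : D) *
            ((z⁻¹ : Dˣ) : D))) = (z : D) * (((g : Dˣ) : D) * (((z⁻¹ : Dˣ) : D) * (z : D)) *
            star ((g : Dˣ) : D)) * ((z⁻¹ : Dˣ) : D) := by simp only [mul_assoc]
        _ = 1 := by rw [Units.inv_mul, mul_one, h1, mul_one, Units.mul_inv]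
    · rw [Units.val_mul, Units.val_mul, map_mul, map_mul, Matrix.det_mul, Matrix.det_mul,
        mul_comm (f (z : D)).det, mul_assoc, ← Matrix.det_mul, ← map_mul, Units.mul_inv, map_one,
        Matrix.det_one, mul_one]
      exact g.2.2⟩
  map_one' := by
    apply Subtype.ext
    simp
  map_mul' a b := by
    apply Subtype.ext
    simp only [Subgroup.coe_mul]
    group

theorem coe_cj (z : Dˣ) (hz : (z : D) * star (z : D) = 1) (g : SUA f) :
    ((cj f z hz g : Dˣ) : D) = (z : D) * ((g : Dˣ) : D) * (z : D)⁻¹ := by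
  have h1 : ((cj f z hz g : SUA f) : Dˣ) = z * (g : Dˣ) * z⁻¹ := rfl
  rw [h1, Units.val_mul, Units.val_mul, Units.val_inv_eq_inv_val]

/-- **Prescribed behaviour at finitely many places outside `Adiv`**, simultaneously for all
unitary conjugates. -/
theorem glob (hk : IsGlobalFunctionField k) (hA : Anis k K D n) (hn : 3 ≤ n) (hp : n.Prime)
    (f : D →ₐ[K] Matrix (Fin n) (Fin n) Ω) (B : Basis (Fin N) k D) {Q : Subgroup (SUA f)}
    [hQ : Q.Normal] (hi : Q.index ≠ 0) {q : Place k} (φ : K →ₐ[k] q.comp) (hq : q ∉ Adiv k K D)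
    {T S₁ : Set (Place k)} (hT : T.Finite) (hb : ∀ v, ¬ H182.Gd B v.abv → v ∈ T)
    (hS₁ : S₁.Finite) (hS₁T : ∀ v ∈ S₁, v ∉ T ∧ v ≠ q ∧ v ∉ Adiv k K D)
    (g : Place k → SUA f) {ε : ℝ} (hε : 0 < ε) : ∃ u : SUA f,
      (∀ (z : Dˣ) (hz : (z : D) * star (z : D) = 1), cj f z hz u ∈ Q) ∧
      (∀ v ∈ S₁, na B v.abv (((u : Dˣ) : D) - ((g v : Dˣ) : D)) < ε) ∧
      (∀ v ∈ T, v ≠ q → na B v.abv (((u : Dˣ) : D) - 1) < ε) ∧
      ∀ v, v ∉ T → v ∉ S₁ → v ≠ q → Ig B v.abv ((u : Dˣ) : D) := by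
  classical
  have hcen := hA.central
  have hsim := hA.simple
  have hn0 : n ≠ 0 := by omega
  have : FiniteDimensional K D := FiniteDimensional.of_finrank_pos (by
    rw [hA.finrank_eq]
    exact pow_pos hp.pos 2)
  let _ : Algebra K q.comp := (φ : K →+* q.comp).toAlgebra
  obtain ⟨ρ⟩ := H73.exists_split_prime (E := q.comp) hp hA.finrank_eq fun h => hq ⟨φ, h⟩
  have hφ : ∀ c : K, (ρ : D →+* Matrix (Fin n) (Fin n) q.comp) (algebraMap K D c) =
      algebraMap q.comp _ (φ c) := fun c => ρ.commutes c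
  have hspan := H519.span_swap hA.finrank_eq hn0 hA.star_ne (φ : K →+* q.comp) _ hφ
  let e : GA f ≃* SUA f := eGA f
  have hQf : (Q.comap (e : GA f →* SUA f)).FiniteIndex := ⟨by
    rw [Subgroup.index_comap_of_surjective _ e.surjective]
    exact hi⟩
  obtain ⟨M, hMn, hMG, hMQ, hMnc⟩ := exists_core hk hA (by omega) hφ hspan f B
    (Q.comap (e : GA f →* SUA f))
  obtain ⟨T', hT'd⟩ : ∃ T' : Finset (Place k), T' = hT.toFinset ∪ hS₁.toFinset := ⟨_, rfl⟩
  have hT' : ∀ v, v ∈ T' ↔ v ∈ T ∨ v ∈ S₁ := fun v => by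
    rw [hT'd, Finset.mem_union, Set.Finite.mem_toFinset, Set.Finite.mem_toFinset]
  have hbig : Big B T' := by
    intro v hv
    rw [gd_iff]
    by_contra hcon
    exact hv ((hT' v).mpr (Or.inl (hb v hcon)))
  obtain ⟨u, huM, hu1, hu2, hu3⟩ := glob_aux (f := f) hA M hMnc hbig
    (fun v => ((e.symm (g v) : GA f) : UA D)) hS₁.toFinset (by
      intro v hv
      rw [Set.Finite.mem_toFinset] at hv
      exact ⟨(hT' v).mpr (Or.inr hv), (hS₁T v hv).2.1,
        mod_of_prime hk hA hn hp f B (hS₁T v hv).2.2, (e.symm (g v)).2⟩) ε hε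
  have hgc : ∀ v, ((((e.symm (g v) : GA f) : UA D) : Dˣ) : D) = ((g v : Dˣ) : D) := by
    intro v
    have h1 := eGA_coe f (e.symm (g v))
    have h2 : eGA f (e.symm (g v)) = g v := e.apply_symm_apply _
    rw [h2] at h1
    exact congrArg Units.val h1.symm
  obtain ⟨u', hu'⟩ : ∃ u' : GA f, u' = ⟨u, hMG huM⟩ := ⟨_, rfl⟩
  have hcu : ((e u' : Dˣ) : D) = ((u : Dˣ) : D) := by rw [hu']; rfl
  refine ⟨e u', fun z hz => ?_, fun v hv => ?_, fun v hv hvq => ?_, fun v hv hv1 hvq => ?_⟩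
  · have hzu : z ∈ UA D := hz
    have h1 : (⟨z, hzu⟩ : UA D) * u * (⟨z, hzu⟩ : UA D)⁻¹ ∈ M := hMn.conj_mem u huM _
    have h2 := hMQ ⟨_, hMG h1⟩ h1
    have h3 : cj f z hz (e u') = e ⟨_, hMG h1⟩ := by
      apply Subtype.ext
      rw [hu']
      rfl
    rw [h3]
    exact h2
  · rw [hcu, ← hgc v]
    exact hu1 v (hS₁.mem_toFinset.mpr hv)
  · rw [hcu]
    refine hu2 v ((hT' v).mpr (Or.inl hv)) (fun h => ?_) hvq
    exact (hS₁T v (hS₁.mem_toFinset.mp h)).1 hv
  · rw [hcu]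
    refine hu3 v (fun h => ?_) hvq
    rcases (hT' v).mp h with h | h
    exacts [hv h, hv1 h]

/-- **The move.**  `x` is congruent modulo `Q` to an element `x' = u (x w) u⁻¹ w⁻¹`, where `u` is
close to given elements `g v` at finitely many places outside `Adiv`, `u` is close to one at the
places of `T`, and integral at the other places. -/
theorem move (hk : IsGlobalFunctionField k) (hA : Anis k K D n) (hn : 3 ≤ n) (hp : n.Prime)
    (f : D →ₐ[K] Matrix (Fin n) (Fin n) Ω) (B : Basis (Fin N) k D) {Q : Subgroup (SUA f)}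
    [hQ : Q.Normal] (hi : Q.index ≠ 0) {q : Place k} (φ : K →ₐ[k] q.comp) (hq : q ∉ Adiv k K D)
    {T S₁ : Set (Place k)} (hT : T.Finite) (hb : ∀ v, ¬ H182.Gd B v.abv → v ∈ T)
    (hS₁ : S₁.Finite) (hS₁T : ∀ v ∈ S₁, v ∉ T ∧ v ≠ q ∧ v ∉ Adiv k K D)
    (g : Place k → SUA f) (x : SUA f) {w : D} (hw : w * star w = 1) {ε : ℝ}
    (hε : 0 < ε) : ∃ u x' : SUA f,
      ((x' : Dˣ) : D) = ((u : Dˣ) : D) * (((x : Dˣ) : D) * w) * ((u : Dˣ) : D)⁻¹ * w⁻¹ ∧
      x⁻¹ * x' ∈ Q ∧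
      (∀ v ∈ S₁, na B v.abv (((u : Dˣ) : D) - ((g v : Dˣ) : D)) < ε) ∧
      (∀ v ∈ T, v ≠ q → na B v.abv (((u : Dˣ) : D) - 1) < ε ∧
        na B v.abv (((x' : Dˣ) : D) - ((x : Dˣ) : D)) < ε) ∧
      ∀ v, v ∉ T → v ∉ S₁ → v ≠ q → Ig B v.abv ((u : Dˣ) : D) ∧
        Ig B v.abv ((u : Dˣ) : D)⁻¹ := by
  have hst := H519.star_smul_of_anis hA
  have hw0 : w ≠ 0 := left_ne_zero_of_mul_eq_one hw
  have hx0 : ((x : Dˣ) : D) ≠ 0 := Units.ne_zero _
  obtain ⟨z, hzd⟩ : ∃ z : Dˣ, (z : D) = ((x : Dˣ) : D) * w :=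
    ⟨Units.mk0 _ (mul_ne_zero hx0 hw0), rfl⟩
  have hx1 : ((x : Dˣ) : D) * star ((x : Dˣ) : D) = 1 := x.2.1
  have hz : (z : D) * star (z : D) = 1 := by
    rw [hzd, star_mul]
    calc ((x : Dˣ) : D) * w * (star w * star ((x : Dˣ) : D)) =
        ((x : Dˣ) : D) * (w * star w) * star ((x : Dˣ) : D) := by simp only [mul_assoc]
      _ = 1 := by rw [hw, mul_one, hx1]
  have hz0 : (z : D) ≠ 0 := Units.ne_zero _
  -- margins
  have hmar : ∀ a : AbsoluteValue k ℝ, ∃ δ : ℝ, 0 < δ ∧ ∀ u : SUA f,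
      na B a (((u : Dˣ) : D) - 1) < δ → na B a (((u : Dˣ) : D) *
        ((z : D) * star ((u : Dˣ) : D) * (z : D)⁻¹) * ((x : Dˣ) : D) - ((x : Dˣ) : D)) < ε := by
    intro a
    obtain ⟨δ1, hδ1, h1⟩ := near_prod B a 1 ((x : Dˣ) : D) hε
    obtain ⟨δ2, hδ2, h2⟩ := near_prod B a 1 1 hδ1
    obtain ⟨δ3, hδ3, h3⟩ := near_conj B a hz0 hδ2
    obtain ⟨δ4, hδ4, h4⟩ := near_star B hst a hδ3
    refine ⟨min δ2 δ4, lt_min hδ2 hδ4, fun u hu => ?_⟩
    have h6 := h2 _ _ (hu.trans_le (min_le_left _ _))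
      (h3 _ (h4 _ (hu.trans_le (min_le_right _ _))))
    rw [mul_one] at h6
    have h5 := h1 _ ((x : Dˣ) : D) h6 (by rw [sub_self, na_zero]; exact hδ1)
    rwa [one_mul] at h5
  choose δ hδ hδm using hmar
  obtain ⟨e1, he1, hle1⟩ := exists_lower hT (u := fun v => δ v.abv) fun v _ => hδ _
  have hη : 0 < min ε e1 := lt_min hε he1
  obtain ⟨u, huc, hu1, hu2, hu4⟩ := glob hk hA hn hp f B hi φ hq hT hb hS₁ hS₁T g hη
  have huz := huc z hz
  have huQ : u ∈ Q := by
    have h1 := huc 1 (by rw [Units.val_one, star_one, mul_one])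
    have h2 : cj f (1 : Dˣ) (by rw [Units.val_one, star_one, mul_one]) u = u := by
      apply Subtype.ext
      change 1 * (u : Dˣ) * 1⁻¹ = (u : Dˣ)
      rw [one_mul, inv_one, mul_one]
    rwa [h2] at h1
  have hu0 : ((u : Dˣ) : D) ≠ 0 := Units.ne_zero _
  have hsu : star ((u : Dˣ) : D) = ((u : Dˣ) : D)⁻¹ :=
    (inv_eq_of_mul_eq_one_right u.2.1).symm
  obtain ⟨x', hx'⟩ : ∃ x' : SUA f, x' = u * (cj f z hz u)⁻¹ * x := ⟨_, rfl⟩
  have hinv : ∀ y : SUA f, (((y⁻¹ : SUA f) : Dˣ) : D) = ((y : Dˣ) : D)⁻¹ := fun y => by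
    rw [Subgroup.coe_inv, Units.val_inv_eq_inv_val]
  have hmul : ∀ y y' : SUA f, (((y * y' : SUA f) : Dˣ) : D) = ((y : Dˣ) : D) * ((y' : Dˣ) : D) :=
    fun _ _ => rfl
  have hx'c : ((x' : Dˣ) : D) = ((u : Dˣ) : D) *
      ((z : D) * star ((u : Dˣ) : D) * (z : D)⁻¹) * ((x : Dˣ) : D) := by
    rw [hx', hmul, hmul, hinv, coe_cj, hsu, mul_inv_rev, mul_inv_rev, inv_inv,
      ← mul_assoc (z : D)]
  refine ⟨u, x', ?_, ?_, fun v hv => (hu1 v hv).trans_le (min_le_left _ _), fun v hv hvq =>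
    ⟨(hu2 v hv hvq).trans_le (min_le_left _ _), ?_⟩, fun v hv hv1 hvq => ⟨hu4 v hv hv1 hvq, ?_⟩⟩
  · rw [hx'c, hsu, ← hzd]
    have e : (z : D)⁻¹ * ((x : Dˣ) : D) = w⁻¹ := by
      rw [hzd, mul_inv_rev, mul_assoc, inv_mul_cancel₀ hx0, mul_one]
    simp only [mul_assoc]
    rw [e]
  · rw [hx']
    have h1 : u * (cj f z hz u)⁻¹ ∈ Q := Q.mul_mem huQ (Q.inv_mem huz)
    have h2 := hQ.conj_mem _ h1 x⁻¹
    rw [inv_inv] at h2
    rwa [← mul_assoc]
  · rw [hx'c]
    refine hδm _ u ((hu2 v hv hvq).trans_le ?_)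
    exact (min_le_right _ _).trans (hle1 v hv)
  · have hgd : H182.Gd B v.abv := by
      by_contra hcon
      exact hv (hb v hcon)
    rw [← hsu]
    exact hgd.star hst (hu4 v hv hv1 hvq)

end Vale.Agent.P011.H74.GlobF
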