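import Vale.Agent.P011.H74.OneDet

/-!
# One split place: cocompactness of the special unitary group
-/

open Module Matrix Topology Filter

namespace Vale.Agent.P011.H74

open Vale.Agent.P011.H738 Vale.Agent.P011.H271

set_option linter.unusedSectionVars false

/-- Discreteness, for a set with bounded denominators. -/
theorem BCR.disc_of_up {k R A E ι : Type*} [Field k] [CommRing R] [TopologicalSpace R]
    [IsTopologicalRing R] [Algebra k R] [Ring A] [StarRing A] [Algebra k A] [Ring E] [StarRing E]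
    [TopologicalSpace E] [Algebra R E] [Fintype ι] [DecidableEq ι]
    (B : BCR k R A E ι) {O : Subring k}
    (hOd : ∀ K : Set R, IsCompact K → {c : k | c ∈ O ∧ algebraMap k R c ∈ K}.Finite)
    {d : k} (hd : d ≠ 0) (K : Set E) (hK : IsCompact K) :
    {x : A | (∀ i, d * B.a.repr x i ∈ O) ∧ B.j x ∈ K}.Finite := by
  set f : A → (ι → k) := fun x i => d * B.a.repr x i with hf
  have hfinj : Function.Injective f := by
    intro x y hxy
    apply B.a.repr.injective
    ext i
    have := congrFun hxy i
    exact mul_left_cancel₀ hd this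
  set S : ι → Set k := fun i =>
    {c : k | c ∈ O ∧ algebraMap k R c ∈ (fun x => algebraMap k R d * (B.φ x i)) '' K} with hS
  have hSf : (Set.pi Set.univ S).Finite := Set.Finite.pi fun i =>
    hOd _ (hK.image (by fun_prop))
  refine (hSf.preimage hfinj.injOn).subset ?_
  rintro x ⟨hx, hxK⟩
  rw [Set.mem_preimage, Set.mem_univ_pi]
  intro i
  refine ⟨hx i, B.j x, hxK, ?_⟩
  simp only [hf]
  rw [B.φ_eq, ← map_mul]

section centre

variable {k K : Type} [Field k] [Field K] [StarRing K] [Algebra k K]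

/-- The centre, as an algebra with involution of degree one. -/
theorem anis_centre (hfix : ∀ x : K, star x = x ↔ x ∈ Set.range (algebraMap k K))
    (hne : ∃ x : K, star x ≠ x) : Anis k K K 1 where
  fixed := hfix
  star_ne := hne
  central := inferInstance
  simple := inferInstance
  finrank_eq := by rw [Module.finrank_self, one_pow]
  anisotropic := by
    intro x hx
    rcases mul_eq_zero.1 hx with h | h
    · exact star_eq_zero.1 h
    · exact h

variable [GFF k] {q : Place k}

/-- The elements of `K` with bounded denominators outside `q` and bounded at `q` are finitely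
many. -/
theorem centre_finite (hfix : ∀ x : K, star x = x ↔ x ∈ Set.range (algebraMap k K))
    (hne : ∃ x : K, star x ≠ x) (φ : K →ₐ[k] q.comp) {M : ℕ} (BK : Basis (Fin M) k K)
    {d : k} (hd : d ≠ 0) (R : ℝ) :
    {z : K | (∀ i, d * BK.repr z i ∈ OSF {q}) ∧ ‖φ z‖ ≤ R ∧ ‖φ (star z)‖ ≤ R}.Finite := by
  have hA := anis_centre hfix hne
  let f : K →+* Matrix (Fin 1) (Fin 1) q.comp :=
    (algebraMap q.comp (Matrix (Fin 1) (Fin 1) q.comp)).comp φ.toRingHom
  have hf : ∀ c : k, f (algebraMap k K c) = algebraMap q.comp _ (algebraMap k q.comp c) := by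
    intro c
    change algebraMap q.comp _ (φ (algebraMap k K c)) = _
    rw [φ.commutes]
  have hspan := H519.span_swap (K := K) (B := K) (n := 1) hA.finrank_eq one_ne_zero hne
    (φ : K →+* q.comp) f (fun c => rfl)
  obtain ⟨b', hb'⟩ := H519.basis_swap hA hf hspan BK
  have hcomp : IsCompact ((fun p : q.comp × q.comp =>
      Sw.mk (algebraMap q.comp (Matrix (Fin 1) (Fin 1) q.comp) p.1)
        ((algebraMap q.comp (Matrix (Fin 1) (Fin 1) q.comp) p.2))ᵀ) ''
      (Metric.closedBall 0 R ×ˢ Metric.closedBall 0 R)) := by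
    refine ((isCompact_closedBall _ _).prod (isCompact_closedBall _ _)).image ?_
    have hc : Continuous fun x : q.comp => algebraMap q.comp (Matrix (Fin 1) (Fin 1) q.comp) x := by
      simp only [Algebra.algebraMap_eq_smul_one]
      exact continuous_id.smul continuous_const
    exact Sw.continuous_mk (hc.comp continuous_fst) (hc.comp continuous_snd).matrix_transpose
  refine ((bcrSw f BK (H519.star_smul_of_anis hA) hf b' hb').disc_of_up (comp_disc q) hd _
    hcomp).subset ?_
  rintro z ⟨h1, h2, h3⟩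
  refine ⟨h1, (φ z, φ (star z)), ⟨?_, ?_⟩, rfl⟩
  · rwa [mem_closedBall_zero_iff]
  · rwa [mem_closedBall_zero_iff]

end centre

section main

variable {k K A : Type} [Field k] [GFF k] [Field K] [StarRing K] [Ring A] [StarRing A]
  [Algebra k K] [Algebra k A] [Algebra K A] [IsScalarTower k K A] [StarModule K A] {n : ℕ}
  (hA : Anis k K A n) (hn : n ≠ 0) {q : Place k} {φ : K →ₐ[k] q.comp}
  {f : A →+* Matrix (Fin n) (Fin n) q.comp}
  (hφ : ∀ c : K, f (algebraMap K A c) = algebraMap q.comp _ (φ c))
  (hspan : Submodule.span q.comp (Set.range fun x : A => (f x, (f (star x)).transpose)) = ⊤)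
  {N : ℕ} (B : Basis (Fin N) k A)

include hA hn hφ hspan

omit [GFF k] in
theorem det_fst (w : A) :
    φ (LinearMap.det (LinearMap.mulLeft K w)) = (f w).det ^ n := by
  refine det_base hA.finrank_eq hn (φ : K →+* q.comp) f hφ ?_ w
  have h1 := congrArg (Submodule.map (LinearMap.fst q.comp (Matrix (Fin n) (Fin n) q.comp)
    (Matrix (Fin n) (Fin n) q.comp))) hspan
  rw [Submodule.map_span, Submodule.map_top,
    LinearMap.range_eq_top.2 (Prod.fst_surjective), ← Set.range_comp] at h1
  exact h1

omit [GFF k] in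
theorem det_snd (w : A) :
    φ (star (LinearMap.det (LinearMap.mulLeft K w))) = (f (star w)).det ^ n := by
  have h1 := det_base hA.finrank_eq hn ((φ : K →+* q.comp).comp (starRingEnd K))
    (H519.transp f) (fun c => by
      change (f (star (algebraMap K A c))).transpose = algebraMap _ _ (φ (star c))
      have h1 : star (algebraMap K A c) = algebraMap K A (star c) := by
        rw [Algebra.algebraMap_eq_smul_one, star_smul, star_one, ← Algebra.algebraMap_eq_smul_one]
      rw [h1, hφ, Matrix.algebraMap_eq_diagonal, Matrix.diagonal_transpose]) (by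
      have h1 := congrArg (Submodule.map (LinearMap.snd q.comp (Matrix (Fin n) (Fin n) q.comp)
        (Matrix (Fin n) (Fin n) q.comp))) hspan
      rw [Submodule.map_span, Submodule.map_top,
        LinearMap.range_eq_top.2 (Prod.snd_surjective), ← Set.range_comp] at h1
      exact h1) w
  change φ (star (LinearMap.det (LinearMap.mulLeft K w))) = ((f (star w)).transpose).det ^ n at h1
  rwa [Matrix.det_transpose] at h1

/-- The determinants of the unitary elements of an order which are bounded, with their inverses,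
are finitely many. -/
theorem det_finite {Lam : Subring A} (H : IsOrdR B (OSF {q}) Lam) (R : ℝ) :
    {t : q.comp | ‖t‖ ≤ R ∧ ‖t⁻¹‖ ≤ R ∧ ∃ γ ∈ UL Lam, (f (γ : A)).det = t}.Finite := by
  classical
  obtain ⟨hfdK, -, -⟩ := H519.quad hA.fixed hA.star_ne
  have hfd : FiniteDimensional K A := by
    refine Module.finite_of_finrank_pos ?_
    rw [hA.finrank_eq]
    positivity
  have hAK := anis_centre hA.fixed hA.star_ne
  have hSL : StarLinR k K := ⟨H519.star_smul_of_anis hAK⟩
  have hq : ({q} : Finset (Place k)).Nonempty := ⟨q, Finset.mem_singleton_self q⟩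
  let BK := Module.finBasis k K
  obtain ⟨d0, -, hd0⟩ := exists_denR BK (OSF {q}) (OSF_den hq)
  obtain ⟨HK, -⟩ := isOrdR_ordO BK hd0
  obtain ⟨d, hd, hdet⟩ := det_den (K := K) (OSF_den hq) H HK fun c hc => smul_one_mem_ordO BK hc
  have hfin := centre_finite hA.fixed hA.star_ne φ BK hd (max 1 R ^ n)
  set Z := {z : K | (∀ i, d * BK.repr z i ∈ OSF {q}) ∧ ‖φ z‖ ≤ max 1 R ^ n ∧
    ‖φ (star z)‖ ≤ max 1 R ^ n} with hZ
  refine (hfin.biUnion (t := fun z => {t : q.comp | t ^ n = φ z}) fun z _ => ?_).subset ?_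
  · have h1 : {t : q.comp | t ^ n = φ z} ⊆ ((Polynomial.nthRoots n (φ z)).toFinset : Set q.comp) := by
      intro t ht
      rw [Finset.mem_coe, Multiset.mem_toFinset, Polynomial.mem_nthRoots (Nat.pos_of_ne_zero hn)]
      exact ht
    exact (Finset.finite_toSet _).subset h1
  · rintro t ⟨h1, h2, γ, hγ, rfl⟩
    have h3 := det_fst hA hn hφ hspan (γ : A)
    have h4 := det_snd hA hn hφ hspan (γ : A)
    have h5 : (f (star (γ : A))).det = ((f (γ : A)).det)⁻¹ := by
      refine eq_inv_of_mul_eq_one_right ?_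
      rw [← Matrix.det_mul, ← map_mul, hγ.2.2, map_one, Matrix.det_one]
    refine Set.mem_biUnion (x := LinearMap.det (LinearMap.mulLeft K (γ : A)))
      ⟨fun i => hdet _ hγ.1 i, ?_, ?_⟩ h3.symm
    · rw [h3, norm_pow]
      exact pow_le_pow_left₀ (norm_nonneg _) (h1.trans (le_max_right _ _)) _
    · rw [h4, norm_pow, h5]
      exact pow_le_pow_left₀ (norm_nonneg _) (h2.trans (le_max_right _ _)) _

/-- `SL_n(k_q) = D SU(Lam)`. -/
theorem one_SL {Lam : Subring A} (H : IsOrdR B (OSF {q}) Lam)
    (hOL : ∀ c ∈ OSF {q}, c • (1 : A) ∈ Lam) :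
    ∃ D : Set (GL (Fin n) q.comp), IsCompact D ∧ ∀ g : GL (Fin n) q.comp,
      (g : Matrix (Fin n) (Fin n) q.comp).det = 1 → ∃ γ : UL Lam, (f (γ : Aˣ)).det = 1 ∧
      g * Units.map (f : A →* Matrix (Fin n) (Fin n) q.comp) γ ∈ D := by
  have hf : ∀ c : k, f (algebraMap k A c) = algebraMap q.comp _ (algebraMap k q.comp c) := by
    intro c
    rw [IsScalarTower.algebraMap_apply k K A, hφ, φ.commutes]
  obtain ⟨D, hD, h⟩ := one_GL hA hf hspan B H hOL
  -- bounds for the determinants of `D`
  have hc : Continuous fun g : GL (Fin n) q.comp =>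
      max ‖(g : Matrix (Fin n) (Fin n) q.comp).det‖
        ‖((g⁻¹ : GL (Fin n) q.comp) : Matrix (Fin n) (Fin n) q.comp).det‖ := by
    refine Continuous.max ?_ ?_
    · exact (Continuous.matrix_det Units.continuous_val).norm
    · exact (Continuous.matrix_det (Units.continuous_val.comp continuous_inv)).norm
  obtain ⟨R, hR⟩ := (hD.image hc).bddAbove
  have hR1 : ∀ g ∈ D, ‖(g : Matrix (Fin n) (Fin n) q.comp).det‖ ≤ R := fun g hg =>
    (le_max_left _ _).trans (hR ⟨g, hg, rfl⟩)
  have hR2 : ∀ g ∈ D, ‖((g : Matrix (Fin n) (Fin n) q.comp).det)⁻¹‖ ≤ R := fun g hg => by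
    have h1 : ((g : Matrix (Fin n) (Fin n) q.comp).det)⁻¹ =
        ((g⁻¹ : GL (Fin n) q.comp) : Matrix (Fin n) (Fin n) q.comp).det := by
      rw [eq_comm]
      refine eq_inv_of_mul_eq_one_right ?_
      rw [← Matrix.det_mul, ← Units.val_mul, mul_inv_cancel, Units.val_one, Matrix.det_one]
    rw [h1]
    exact (le_max_right _ _).trans (hR ⟨g, hg, rfl⟩)
  have hfin := det_finite hA hn hφ hspan B H R
  obtain ⟨D', hD', h'⟩ := compact_ker
    ((Units.map (f : A →* Matrix (Fin n) (Fin n) q.comp)).comp (UL Lam).subtype)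
    (Matrix.GeneralLinearGroup.det : GL (Fin n) q.comp →* q.compˣ) hD h (by
      refine Set.Finite.of_finite_image (f := fun t : q.compˣ => (t : q.comp)) (hfin.subset ?_)
        (fun t _ t' _ h => Units.ext h)
      rintro _ ⟨t, ⟨⟨g, hg, rfl⟩, γ, hγ⟩, rfl⟩
      refine ⟨hR1 g hg, hR2 g hg, γ, γ.2, ?_⟩
      have h1 := congrArg (fun t : q.compˣ => (t : q.comp)) hγ
      exact h1)
  refine ⟨D', hD', fun g hg => ?_⟩
  obtain ⟨γ, hγ, hgD⟩ := h' g (Units.ext hg)
  exact ⟨γ, congrArg (fun t : q.compˣ => (t : q.comp)) hγ, hgD⟩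

end main

end Vale.Agent.P011.H74
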