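import Vale.Agent.P011.H74.BridgeFF
import Vale.Agent.P011.H210.SplitReg
import Vale.Agent.P011.H271.QuadF
import Vale.Agent.P011.H976.Solv
import Vale.Agent.P011.H380.UpFF
import Vale.Agent.P011.H966.LettersBC

/-!
# The data of the conjugation law at a split place, over function fields

`jS : SL_n(F) → unitary (BR B R)`, the open set `X0` of the elements which are split regular at the
place, and the elements of the level with given colour.
-/

open Module TensorProduct Topology Matrix Filter

namespace Vale.Agent.P011.H74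

open Vale.Agent.P011.H698 Vale.Agent.P011.H738 Vale.Agent.P011.H271 Vale.Agent.P011.H210
  Vale.Agent.P011.H976

set_option linter.unusedSectionVars false

section main

variable {k A ι R F : Type*} [Field k] [Ring A] [StarRing A] [Algebra k A] [StarLinR k A]
  [CommRing R] [TopologicalSpace R] [IsTopologicalRing R] [Algebra k R]
  [Field F] [TopologicalSpace F] [IsTopologicalRing F] [Algebra k F] [Fintype ι]
  [DecidableEq ι] {B : Basis ι k A} (D : Fac k R F) {n : ℕ} (s : Spl B F n)

/-- The subgroup `SL_n(F)`. -/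
noncomputable def jS : SpecialLinearGroup (Fin n) F →* unitary (BR B R) :=
  (jG D s).comp SpecialLinearGroup.toGL

theorem jS_apply (z : SpecialLinearGroup (Fin n) F) :
    jS D s z = jG D s (SpecialLinearGroup.toGL z) := rfl

theorem continuous_toGL_SL :
    Continuous (SpecialLinearGroup.toGL : SpecialLinearGroup (Fin n) F →* GL (Fin n) F) := by
  rw [Units.continuous_iff]
  constructor
  · exact continuous_subtype_val
  · have h : (fun z : SpecialLinearGroup (Fin n) F =>
        (((SpecialLinearGroup.toGL z)⁻¹ : GL (Fin n) F) : Matrix (Fin n) (Fin n) F)) =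
        fun z : SpecialLinearGroup (Fin n) F => (z : Matrix (Fin n) (Fin n) F).adjugate := by
      funext z
      rw [← map_inv]
      rfl
    rw [h]
    exact (continuous_subtype_val).matrix_adjugate

theorem continuous_jS : Continuous (jS D s) :=
  (continuous_jG D s).comp continuous_toGL_SL

/-- A matrix of determinant one. -/
theorem exists_SL {g : GL (Fin n) F} (hg : (g : Matrix (Fin n) (Fin n) F).det = 1) :
    ∃ z : SpecialLinearGroup (Fin n) F, SpecialLinearGroup.toGL z = g :=
  ⟨⟨(g : Matrix (Fin n) (Fin n) F), hg⟩, Units.ext rfl⟩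

theorem normal_jS : (jS D s).range.Normal := by
  constructor
  rintro _ ⟨z, rfl⟩ y
  obtain ⟨g, hg, hgy⟩ := conj_SL D s y (g := SpecialLinearGroup.toGL z) z.2
  obtain ⟨z', rfl⟩ := exists_SL hg
  exact ⟨z', hgy.symm⟩

/-- The elements of the unitary group which are split regular at the place. -/
def X0 : Set (unitary (BR B R)) :=
  {p | ((pr0 D s p : GL (Fin n) F) : Matrix (Fin n) (Fin n) F) ∈ SR (Fin n) F}

theorem mem_X0 {p : unitary (BR B R)} :
    p ∈ X0 D s ↔ ((pr0 D s p : GL (Fin n) F) : Matrix (Fin n) (Fin n) F) ∈ SR (Fin n) F := Iff.rfl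

theorem isOpen_X0 (h : IsOpen (SR (Fin n) F)) : IsOpen (X0 D s) :=
  h.preimage (Units.continuous_val.comp (continuous_pr0 D s))

/-- The torus of a split regular element commutes with it. -/
theorem split_X0 {p : unitary (BR B R)} (hp : p ∈ X0 D s) :
    ∃ h : Matrix (Fin n) (Fin n) F, IsUnit h.det ∧
      ∀ (z : SpecialLinearGroup (Fin n) F) (a : Fin n → F),
        (z : Matrix (Fin n) (Fin n) F) = h * diagonal a * h⁻¹ → Commute (jS D s z) p := by
  obtain ⟨h, a, -, hpa⟩ := hp
  refine ⟨(h : Matrix (Fin n) (Fin n) F), (Matrix.isUnit_iff_isUnit_det _).1 h.isUnit,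
    fun z b hz => ?_⟩
  refine (commute_jG D s ?_).symm
  rw [Commute, SemiconjBy]
  apply Units.ext
  have h2 : (h : Matrix (Fin n) (Fin n) F)⁻¹ = ((h⁻¹ : (Matrix (Fin n) (Fin n) F)ˣ) :
      Matrix (Fin n) (Fin n) F) := by
    rw [Matrix.coe_units_inv]
  have h1 : ((SpecialLinearGroup.toGL z : GL (Fin n) F) : Matrix (Fin n) (Fin n) F) =
      (h : Matrix (Fin n) (Fin n) F) * diagonal b * ((h⁻¹ : (Matrix (Fin n) (Fin n) F)ˣ) :
        Matrix (Fin n) (Fin n) F) := by
    rw [← h2]
    exact hz
  rw [Units.val_mul, Units.val_mul, hpa, h1]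
  have h3 : ∀ a b : Fin n → F, (h : Matrix (Fin n) (Fin n) F) * diagonal a *
      ((h⁻¹ : (Matrix (Fin n) (Fin n) F)ˣ) : Matrix (Fin n) (Fin n) F) *
      ((h : Matrix (Fin n) (Fin n) F) * diagonal b *
      ((h⁻¹ : (Matrix (Fin n) (Fin n) F)ˣ) : Matrix (Fin n) (Fin n) F)) =
      (h : Matrix (Fin n) (Fin n) F) * diagonal (a * b) *
      ((h⁻¹ : (Matrix (Fin n) (Fin n) F)ˣ) : Matrix (Fin n) (Fin n) F) := by
    intro a b
    have h4 : ((h⁻¹ : (Matrix (Fin n) (Fin n) F)ˣ) : Matrix (Fin n) (Fin n) F) *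
      (h : Matrix (Fin n) (Fin n) F) = 1 := Units.inv_mul h
    calc _ = (h : Matrix (Fin n) (Fin n) F) * diagonal a *
          (((h⁻¹ : (Matrix (Fin n) (Fin n) F)ˣ) : Matrix (Fin n) (Fin n) F) *
          (h : Matrix (Fin n) (Fin n) F)) * diagonal b *
          ((h⁻¹ : (Matrix (Fin n) (Fin n) F)ˣ) : Matrix (Fin n) (Fin n) F) := by
          simp only [mul_assoc]
      _ = _ := by
          rw [h4, mul_one, mul_assoc (h : Matrix (Fin n) (Fin n) F), diagonal_mul_diagonal]
          rfl
  rw [h3, h3, mul_comm]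

end main

section div

variable {k A ι : Type*} [Field k] [DivisionRing A] [StarRing A] [Algebra k A] [StarLinR k A]
  [Fintype ι] [DecidableEq ι] (B : Basis ι k A) (R : Type*) [CommRing R] [TopologicalSpace R]
  [IsTopologicalRing R] [Algebra k R]

/-- For a division algebra: the base change in the letters of `H544`. -/
noncomputable def bcD : H544.BC k R A (BR B R) ι where
  a := B
  φ := (bcrT B R).φ
  j := (bcrT B R).j
  j_smul := (bcrT B R).j_smul
  j_star := (bcrT B R).j_star
  φ_j := (bcrT B R).φ_j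
  star_smul := (bcrT B R).star_smul

omit [DecidableEq ι] in
theorem isOrd_iff {O : Subring k} {Lam : Subring A} :
    H544.IsOrd B O Lam ↔ IsOrdR B O Lam :=
  ⟨fun h => ⟨h.star_mem, h.up, h.lo⟩, fun h => ⟨h.star_mem, h.up, h.lo⟩⟩

end div

section arith

variable {A : Type} [Ring A] [StarRing A]

/-- The unitary elements of `A`. -/
def uA : UA A →* unitary A where
  toFun g := ⟨((g : Aˣ) : A), Unitary.mem_iff.2 ⟨ua_star_mul g, ua_mul_star g⟩⟩
  map_one' := rfl
  map_mul' _ _ := rfl

theorem coe_uA (g : UA A) : ((uA g : unitary A) : A) = ((g : Aˣ) : A) := rfl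

theorem uA_injective : Function.Injective (uA (A := A)) := by
  intro g h hgh
  exact Subtype.ext (Units.ext (congrArg Subtype.val hgh))

theorem uA_surjective : Function.Surjective (uA (A := A)) := by
  intro u
  refine ⟨⟨⟨(u : A), star (u : A), Unitary.mul_star_self_of_mem u.2,
    Unitary.star_mul_self_of_mem u.2⟩, Unitary.mul_star_self_of_mem u.2⟩, ?_⟩
  exact Subtype.ext rfl

theorem uA_bijective : Function.Bijective (uA (A := A)) := ⟨uA_injective, uA_surjective⟩

end arith

section jU

variable {k ι : Type*} {A : Type} [Field k] [DivisionRing A] [StarRing A] [Algebra k A]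
  [StarLinR k A] [Fintype ι] [DecidableEq ι] (B : Basis ι k A) (R : Type*) [CommRing R]
  [TopologicalSpace R] [IsTopologicalRing R] [Algebra k R]

theorem jU_uA [H544.StarLin k A] (g : UA A) :
    H380.UpBC.jU (bcD B R) (uA g) = iotaU B R g := Subtype.ext rfl

end jU

section place

variable {k : Type} [Field k] [GFF k] (q : Place k)

theorem isOpen_SR_comp (n : ℕ) : IsOpen (SR (Fin n) q.comp) := by
  let := nnfPlace q
  exact isOpen_SR

theorem sigmaCompact_comp : SigmaCompactSpace q.comp := inferInstance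

/-- A contracting element of the completion. -/
theorem exists_pow_tendsto : ∃ w : q.comp, w ≠ 0 ∧
    ∀ x : q.comp, Tendsto (fun m : ℕ => x * w ^ m) atTop (𝓝 0) := by
  obtain ⟨x, hx⟩ := q.normalized.2.1
  have hx1 : 1 < q.abv x := by
    rw [hx]
    exact_mod_cast one_lt_qq q
  have hn : ‖algebraMap k q.comp x‖ = q.abv x := norm_alg q x
  have hw : ‖(algebraMap k q.comp x)⁻¹‖ < 1 := by
    rw [norm_inv, hn]
    exact inv_lt_one_of_one_lt₀ hx1
  refine ⟨(algebraMap k q.comp x)⁻¹, ?_, fun y => ?_⟩
  · intro h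
    rw [inv_eq_zero] at h
    rw [h, norm_zero] at hn
    rw [← hn] at hx1
    exact absurd hx1 (not_lt.2 zero_le_one)
  · have h1 := (tendsto_pow_atTop_nhds_zero_of_norm_lt_one hw).const_mul y
    rwa [mul_zero] at h1

end place

section gam

variable {k K A Ω : Type} [Field k] [GFF k] [Field K] [StarRing K] [Ring A] [StarRing A]
  [Algebra k K] [Algebra k A] [Algebra K A] [IsScalarTower k K A] [StarModule K A] {n N : ℕ}
  [Field Ω] [Algebra K Ω] {f : A →ₐ[K] Matrix (Fin n) (Fin n) Ω} {B : Basis (Fin N) k A}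

/-- **The elements needed for the conjugation law**: every `r` in the target group is the colour of
an element of the unitary group of the order which is close to `SL_n(k_q)`. -/
theorem exists_gam [StarLinR k A] (hA : Anis k K A n) (hn : n ≠ 0) {S : Finset (Place k)} (q : S)
    {φ : K →+* (q : Place k).comp} (s : Spl B (q : Place k).comp n)
    (hφ : ∀ c : K, s.f (algebraMap K A c) = algebraMap _ _ (φ c))
    {Lam : Subring A} (H : IsOrdR B (OSF S) Lam)
    {E : Type*} [Group E] {c : UA A →* E} {R : Subgroup E}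
    (hT : Target0 (FLv f B {(q : Place k)}) c R) {O : Set (unitary (BR B (KSF S)))}
    (hO : O ∈ 𝓝 (1 : unitary (BR B (KSF S)))) {r : E} (hr : r ∈ R) :
    ∃ g : UA A, c g = r ∧ g ∈ GA f ∧ (g : Aˣ) ∈ UL Lam ∧
      ∃ o ∈ O, ∃ z : SpecialLinearGroup (Fin n) (q : Place k).comp,
        iotaU B (KSF S) g = o * jS (facS q) s z := by
  obtain ⟨L, hL, h⟩ := bridge_FF (f := f) hA hn q s hφ H hO
  obtain ⟨g, hg, hgr⟩ := hT.full L hL r hr
  obtain ⟨h1, h2, h3, h4⟩ := h g hg
  obtain ⟨z, hz⟩ := exists_SL h3
  refine ⟨g, hgr, h1, h2, _, h4, z, ?_⟩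
  rw [jS_apply, hz, inv_mul_cancel_right]

end gam

end Vale.Agent.P011.H74
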