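import Vale.Agent.P011.H74.TopR
import Vale.Agent.P011.H271.KSF
import Mathlib.Algebra.Polynomial.Cardinal

/-!
# Cocompactness over function fields

`k` a global function field, `A` a finite dimensional simple `k`-algebra with an anisotropic
`k`-linear involution, `S` a nonempty finite set of places.
-/

open Module TensorProduct Topology Filter Polynomial

namespace Vale.Agent.P011.H74

open Vale.Agent.P011.H738 Vale.Agent.P011.H271

set_option linter.unusedSectionVars false
set_option linter.style.haveILetI false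

section base

theorem countable_GFF (k : Type) [Field k] [h : GFF k] : Countable k := by
  obtain ⟨F, _, _, φ, h1, -⟩ := h.out
  letI := φ.toAlgebra
  have : Module.Finite (RatFunc F) k := h1
  have h2 : Countable (RatFunc F) := by
    have h3 : Countable F[X] := by
      rw [← Cardinal.mk_le_aleph0_iff]
      refine Polynomial.cardinalMk_le_max.trans (max_le ?_ le_rfl)
      exact Cardinal.mk_le_aleph0_iff.2 inferInstance
    refine Function.Surjective.countable (f := fun p : F[X] × F[X] =>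
      (algebraMap F[X] (RatFunc F) p.1) / (algebraMap F[X] (RatFunc F) p.2)) ?_
    intro x
    obtain ⟨n, d, -, rfl⟩ := IsFractionRing.div_surjective (A := F[X]) x
    exact ⟨(n, d), rfl⟩
  have h4 : Countable (Fin (Module.finrank (RatFunc F) k) → RatFunc F) := inferInstance
  exact (Module.finBasis (RatFunc F) k).equivFun.toEquiv.countable_iff.2 h4

variable {k : Type} [Field k] [GFF k]

theorem place_pole (q : Place k) :
    ∃ f : k, 1 < q.abv f ∧ ∀ v : Place k, v ≠ q → v.abv f ≤ 1 := by
  obtain ⟨f, h1, h2⟩ := exists_pole (toPl q)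
  refine ⟨f, ?_, fun v hv => ?_⟩
  · by_contra h
    exact absurd ((toPl_le_one q f).2 (not_lt.1 h)) (not_le.2 h1)
  · exact (toPl_le_one v f).1 (h2 _ fun h => hv (toPl_injective h))

theorem abv_add_eq (v : Place k) {x y : k} (h : v.abv y < v.abv x) :
    v.abv (x + y) = v.abv x := by
  refine le_antisymm ((v.nonarch x y).trans (max_le le_rfl h.le)) ?_
  have h1 : x = (x + y) + (-y) := by ring
  by_contra h2
  have h3 : v.abv x ≤ max (v.abv (x + y)) (v.abv (-y)) := by
    conv_lhs => rw [h1]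
    exact v.nonarch _ _
  rw [v.abv.map_neg] at h3
  exact absurd h3 (not_le.2 (max_lt (not_le.1 h2) h))

theorem abv_sum_le (v : Place k) {κ : Type*} (s : Finset κ) (f : κ → k) {c : ℝ} (hc : 0 ≤ c)
    (h : ∀ i ∈ s, v.abv (f i) ≤ c) : v.abv (∑ i ∈ s, f i) ≤ c := by
  classical
  induction s using Finset.induction_on with
  | empty => simpa using hc
  | insert i s hi ih =>
    rw [Finset.sum_insert hi]
    exact (v.nonarch _ _).trans (max_le (h i (Finset.mem_insert_self _ _))
      (ih fun j hj => h j (Finset.mem_insert_of_mem hj)))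

/-- An `S`-integer with poles at every place of `S`. -/
theorem exists_expanding (S : Finset (Place k)) :
    ∃ t ∈ OSF S, ∀ v ∈ S, 1 < v.abv t := by
  classical
  choose f hf1 hf2 using fun q : Place k => place_pole q
  refine ⟨∑ v ∈ S, f v, fun w hw => ?_, fun v hv => ?_⟩
  · refine abv_sum_le w S f zero_le_one fun v hv => hf2 v w ?_
    rintro rfl
    exact hw hv
  · rw [← Finset.add_sum_erase S f hv, abv_add_eq]
    · exact hf1 v
    · refine lt_of_le_of_lt (abv_sum_le v _ f zero_le_one fun u hu => hf2 u v ?_) (hf1 v)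
      exact (Finset.mem_erase.1 hu).1.symm

variable {S : Finset (Place k)}

/-- The unit ball of `k_S`. -/
def ballS (S : Finset (Place k)) : AddSubgroup (KSF S) where
  carrier := {r | ∀ v : S, ‖r v‖ ≤ 1}
  add_mem' := by
    intro x y hx hy v
    exact (IsUltrametricDist.norm_add_le_max _ _).trans (max_le (hx v) (hy v))
  zero_mem' := by
    intro v
    rw [Pi.zero_apply, norm_zero]
    exact zero_le_one
  neg_mem' := by
    intro x hx v
    rw [Pi.neg_apply, norm_neg]
    exact hx v

theorem mem_ballS {r : KSF S} : r ∈ ballS S ↔ ∀ v : S, ‖r v‖ ≤ 1 := Iff.rfl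

theorem ballS_eq : (ballS S : Set (KSF S)) =
    Set.pi Set.univ fun v : S => Metric.closedBall (0 : (v : Place k).comp) 1 := by
  ext r
  rw [SetLike.mem_coe, mem_ballS, Set.mem_univ_pi]
  simp only [mem_closedBall_zero_iff]

theorem ballS_open : IsOpen (ballS S : Set (KSF S)) := by
  rw [ballS_eq]
  exact isOpen_set_pi Set.finite_univ fun v _ => IsUltrametricDist.isOpen_closedBall _ one_ne_zero

theorem ballS_compact : IsCompact (ballS S : Set (KSF S)) := by
  rw [ballS_eq]
  exact isCompact_univ_pi fun v => isCompact_closedBall _ _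

theorem alg_apply (x : k) (v : S) :
    algebraMap k (KSF S) x v = algebraMap k (v : Place k).comp x := rfl

theorem norm_alg_inv_pow_mul (t : k) (j : ℕ) (r : KSF S) (v : S) :
    ‖(algebraMap k (KSF S) t⁻¹ ^ j * r) v‖ = ((v : Place k).abv t)⁻¹ ^ j * ‖r v‖ := by
  rw [Pi.mul_apply, Pi.pow_apply, alg_apply, norm_mul, norm_pow, norm_alg, map_inv₀]

theorem expand_KSF (hS : S.Nonempty) : Expand k (KSF S) (OSF S) := by
  obtain ⟨t, ht, htS⟩ := exists_expanding S
  have hinv : ∀ v : S, ((v : Place k).abv t)⁻¹ < 1 := fun v =>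
    inv_lt_one_of_one_lt₀ (htS v v.2)
  have hinv0 : ∀ v : S, 0 < ((v : Place k).abv t)⁻¹ := fun v =>
    inv_pos.2 (lt_trans one_pos (htS v v.2))
  have hsmall : ∀ (ε : ℝ), 0 < ε → ∃ j : ℕ, ∀ v : S, ((v : Place k).abv t)⁻¹ ^ j ≤ ε := by
    intro ε hε
    choose j hj using fun v : S => exists_pow_lt_of_lt_one hε (hinv v)
    refine ⟨Finset.univ.sup j, fun v => le_trans ?_ (hj v).le⟩
    exact pow_le_pow_of_le_one (hinv0 v).le (hinv v).le (Finset.le_sup (Finset.mem_univ v))
  refine ⟨ballS S, t, ballS_open, ballS_compact, ht, ?_, fun r hr v => ?_, fun r => ?_,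
    fun U hU => ?_⟩
  · rintro rfl
    obtain ⟨v, hv⟩ := hS
    have := htS v hv
    rw [map_zero] at this
    exact absurd this (not_lt.2 zero_le_one)
  · have h1 := norm_alg_inv_pow_mul t 1 r v
    rw [pow_one, pow_one] at h1
    rw [h1]
    exact mul_le_one₀ (hinv v).le (norm_nonneg _) (hr v)
  · obtain ⟨j, hj⟩ := hsmall (∑ v : S, ‖r v‖ + 1)⁻¹
      (inv_pos.2 (add_pos_of_nonneg_of_pos (Finset.sum_nonneg fun _ _ => norm_nonneg _) one_pos))
    refine ⟨j, fun v => ?_⟩
    rw [norm_alg_inv_pow_mul]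
    have h1 : ‖r v‖ ≤ ∑ v : S, ‖r v‖ + 1 := by
      refine (Finset.single_le_sum (f := fun v : S => ‖r v‖) (fun _ _ => norm_nonneg _)
        (Finset.mem_univ v)).trans ?_
      linarith
    calc _ ≤ (∑ v : S, ‖r v‖ + 1)⁻¹ * (∑ v : S, ‖r v‖ + 1) :=
          mul_le_mul (hj v) h1 (norm_nonneg _) (inv_nonneg.2 ((norm_nonneg _).trans h1))
      _ = 1 := by
        rw [inv_mul_cancel₀]
        exact (add_pos_of_nonneg_of_pos (Finset.sum_nonneg fun _ _ => norm_nonneg _) one_pos).ne'
  · rw [nhds_pi, Filter.mem_pi'] at hU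
    obtain ⟨I, U', hU', hI⟩ := hU
    have h1 : ∀ v : S, ∃ ε : ℝ, 0 < ε ∧ Metric.closedBall (0 : (v : Place k).comp) ε ⊆ U' v :=
      fun v => Metric.nhds_basis_closedBall.mem_iff.1 (hU' v)
    choose ε hε hεU using h1
    obtain ⟨ε', hε', hε''⟩ : ∃ ε' : ℝ, 0 < ε' ∧ ∀ v : S, ε' ≤ ε v := by
      by_cases hne : Nonempty S
      · obtain ⟨v0, hv0⟩ := Finite.exists_min ε
        exact ⟨ε v0, hε v0, hv0⟩
      · exact ⟨1, one_pos, fun v => absurd ⟨v⟩ hne⟩
    obtain ⟨j, hj⟩ := hsmall ε' hε'
    refine ⟨j, fun r hr => hI fun v _ => hεU v ?_⟩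
    rw [mem_closedBall_zero_iff, norm_alg_inv_pow_mul]
    calc _ ≤ ε' * 1 := mul_le_mul (hj v) (hr v) (norm_nonneg _) hε'.le
      _ ≤ ε v := by rw [mul_one]; exact hε'' v

theorem eventually_isUnit_KSF : ∀ᶠ r in 𝓝 (1 : KSF S), IsUnit r := by
  have h1 : ∀ v : S, ∀ᶠ r in 𝓝 (1 : KSF S), r v ≠ 0 := by
    intro v
    have h2 : IsOpen {r : KSF S | r v ≠ 0} := isOpen_ne.preimage (continuous_apply v)
    exact h2.mem_nhds (by simp)
  have h3 := Filter.eventually_all.2 h1
  refine h3.mono fun r hr => ?_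
  rw [Pi.isUnit_iff]
  exact fun v => isUnit_iff_ne_zero.2 (hr v)

end base

section alg

variable {k A : Type} [Field k] [GFF k] [Ring A] [StarRing A] [Algebra k A] [StarLinR k A]
  {N : ℕ} (B : Basis (Fin N) k A)

include B in
theorem countable_A : Countable A := by
  have := countable_GFF k
  exact B.equivFun.toEquiv.countable_iff.2 inferInstance

/-- **Cocompactness over function fields.** -/
theorem coc_E [IsSimpleRing A] (haniso : ∀ x : A, star x * x = 0 → x = 0)
    {S : Finset (Place k)} (hS : S.Nonempty) {Lam : Subring A} (H : IsOrdR B (OSF S) Lam)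
    (hOL : ∀ c ∈ OSF S, c • (1 : A) ∈ Lam) :
    ∃ C : Set (BR B (KSF S)), IsCompact C ∧ ∀ x : BR B (KSF S), star x * x = 1 → x * star x = 1 →
      ∃ w ∈ Lam, star w * w = 1 ∧ w * star w = 1 ∧ x * (bcrT B (KSF S)).j w ∈ C := by
  have := countable_A B
  have := KSF_nontrivial hS
  have : FiniteDimensional k A := Module.Finite.of_basis B
  exact (bcrT B (KSF S)).unitary_cocompact_aniso (KSF_detOne S) frob_of_simple haniso
    eventually_isUnit_KSF (OSF_disc) (OSF_coc hS) (OSF_den hS) (expand_KSF hS) H hOL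

end alg

end Vale.Agent.P011.H74
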