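import Vale.Agent.P011.H74.Iso
import Vale.Agent.P011.H698.LevFF

/-!
# The unitary group of the base change with a split factor

`G = unitary (BR B R)`, `F` a factor of `R` at which the algebra splits: `pr0 : G → GL_n(F)`,
`jG : GL_n(F) → G`.
-/

open Module TensorProduct Topology Matrix

namespace Vale.Agent.P011.H74

open Vale.Agent.P011.H698

set_option linter.unusedSectionVars false

/-- The algebra splits over `F`. -/
structure Spl {k A ι : Type*} [Field k] [Ring A] [StarRing A] [Algebra k A] (B : Basis ι k A)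
    (F : Type*) [Field F] [Algebra k F] (n : ℕ) where
  /-- the splitting -/
  f : A →+* Matrix (Fin n) (Fin n) F
  hf : ∀ c : k, f (algebraMap k A c) = algebraMap F _ (algebraMap k F c)
  /-- the basis of `M_n(F) × M_n(F)` -/
  b' : Basis ι F (Matrix (Fin n) (Fin n) F × Matrix (Fin n) (Fin n) F)
  hb : ∀ i, b' i = (f (B i), (f (star (B i)))ᵀ)

section main

variable {k A ι R F : Type*} [Field k] [Ring A] [StarRing A] [Algebra k A] [StarLinR k A]
  [CommRing R] [TopologicalSpace R] [IsTopologicalRing R] [Algebra k R]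
  [Field F] [TopologicalSpace F] [IsTopologicalRing F] [Algebra k F] [Fintype ι]
  [DecidableEq ι] {B : Basis ι k A} (D : Fac k R F) {n : ℕ} (s : Spl B F n)

/-- The base change at the split place. -/
noncomputable def Spl.bcr : BCR k F A (Sw n F) ι :=
  bcrSw s.f B StarLinR.star_smul' s.hf s.b' s.hb

theorem Spl.ha : (bcrT B F).a = s.bcr.a := rfl

/-- `unitary (BR B F) = GL_n(F)`. -/
noncomputable def toGL : unitary (BR B F) →* GL (Fin n) F :=
  (Sw.uGL (n := n) (F := F)).toMonoidHom.comp (BCR.isoU (bcrT B F) s.bcr s.ha)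

/-- `GL_n(F) = unitary (BR B F)`. -/
noncomputable def ofGLU : GL (Fin n) F →* unitary (BR B F) :=
  (BCR.isoU s.bcr (bcrT B F) s.ha.symm).comp (Sw.uGL (n := n) (F := F)).symm.toMonoidHom

theorem ofGLU_toGL (x : unitary (BR B F)) : ofGLU s (toGL s x) = x := by
  have h1 : ofGLU s (toGL s x) = BCR.isoU s.bcr (bcrT B F) s.ha.symm
      (Sw.uGL.symm (Sw.uGL (BCR.isoU (bcrT B F) s.bcr s.ha x))) := rfl
  rw [h1, MulEquiv.symm_apply_apply, BCR.isoU_isoU]

theorem toGL_ofGLU (g : GL (Fin n) F) : toGL s (ofGLU s g) = g := by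
  have h1 : toGL s (ofGLU s g) = Sw.uGL (BCR.isoU (bcrT B F) s.bcr s.ha
      (BCR.isoU s.bcr (bcrT B F) s.ha.symm (Sw.uGL.symm g))) := rfl
  rw [h1, BCR.isoU_isoU s.bcr (bcrT B F) s.ha.symm, MulEquiv.apply_symm_apply]

theorem continuous_toGL : Continuous (toGL s) :=
  Sw.continuous_uGL.comp (BCR.continuous_isoU _ _ s.ha)

theorem continuous_ofGLU : Continuous (ofGLU s) :=
  (BCR.continuous_isoU _ _ s.ha.symm).comp Sw.continuous_uGL_symm

/-- The component at the split place. -/
noncomputable def pr0 : unitary (BR B R) →* GL (Fin n) F := (toGL s).comp (PU B D)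

/-- The subgroup `GL_n(F)`. -/
noncomputable def jG : GL (Fin n) F →* unitary (BR B R) := (JU B D).comp (ofGLU s)

theorem pr0_jG (g : GL (Fin n) F) : pr0 D s (jG D s g) = g := by
  change toGL s (PU B D (JU B D (ofGLU s g))) = g
  rw [PU_JU, toGL_ofGLU]

theorem continuous_pr0 : Continuous (pr0 D s) :=
  (continuous_toGL s).comp (continuous_PU B D)

theorem continuous_jG : Continuous (jG D s) :=
  (continuous_JU B D).comp (continuous_ofGLU s)

theorem conj_jG (y : unitary (BR B R)) (g : GL (Fin n) F) :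
    y * jG D s g * y⁻¹ = jG D s (pr0 D s y * g * (pr0 D s y)⁻¹) := by
  change y * JU B D (ofGLU s g) * y⁻¹ =
    JU B D (ofGLU s (toGL s (PU B D y) * g * (toGL s (PU B D y))⁻¹))
  rw [conj_JU, map_mul (ofGLU s), map_mul (ofGLU s), map_inv (ofGLU s), ofGLU_toGL]

/-- The image of `SL_n(F)` is normal. -/
theorem conj_SL (y : unitary (BR B R)) {g : GL (Fin n) F}
    (hg : (g : Matrix (Fin n) (Fin n) F).det = 1) :
    ∃ g' : GL (Fin n) F, (g' : Matrix (Fin n) (Fin n) F).det = 1 ∧
      y * jG D s g * y⁻¹ = jG D s g' := by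
  refine ⟨_, ?_, conj_jG D s y g⟩
  rw [Units.val_mul, Units.val_mul, Matrix.det_mul, Matrix.det_mul, hg, mul_one,
    ← Matrix.det_mul, ← Units.val_mul, mul_inv_cancel, Units.val_one, Matrix.det_one]

/-- An element whose component at the split place commutes with `w` commutes with `jG w`. -/
theorem commute_jG {y : unitary (BR B R)} {w : GL (Fin n) F} (h : Commute (pr0 D s y) w) :
    Commute y (jG D s w) := by
  have h1 := conj_jG D s y w
  rw [h.eq, mul_inv_cancel_right] at h1
  rw [mul_inv_eq_iff_eq_mul] at h1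
  exact h1

/-- The part off the split place. -/
theorem off_eq (x : unitary (BR B R)) :
    ((x * (jG D s (pr0 D s x))⁻¹ : unitary (BR B R)) : BR B R) =
      1 + (((x : BR B R) - 1) - Ij B D (Pj B D ((x : BR B R) - 1))) := by
  have h1 : jG D s (pr0 D s x) = JU B D (PU B D x) := by
    change JU B D (ofGLU s (toGL s (PU B D x))) = _
    rw [ofGLU_toGL]
  rw [h1, ← map_inv, ← map_inv]
  have h2 : ((x * JU B D (PU B D x⁻¹) : unitary (BR B R)) : BR B R) =
      (x : BR B R) * (1 + Ij B D (Pj B D ((x⁻¹ : unitary (BR B R)) : BR B R) - 1)) := rfl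
  have h3 : Pj B D (x : BR B R) * Pj B D ((x⁻¹ : unitary (BR B R)) : BR B R) = 1 := by
    rw [← map_mul, ← Submonoid.coe_mul, mul_inv_cancel]
    exact map_one _
  have h4 : Pj B D ((x : BR B R) - 1) = Pj B D (x : BR B R) - 1 := by rw [map_sub, map_one]
  rw [h2, mul_add, mul_one, mul_Ij, mul_sub, h3, mul_one, h4, map_sub (Ij B D),
    map_sub (Ij B D)]
  abel

/-- **Elements close to one off the split place.** -/
theorem off_near {O : Set (unitary (BR B R))} (hO : O ∈ 𝓝 (1 : unitary (BR B R))) :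
    ∃ U ∈ 𝓝 (0 : R), ∀ x : unitary (BR B R),
      (∀ l, eqF B R ((x : BR B R) - 1) l - D.i (D.p (eqF B R ((x : BR B R) - 1) l)) ∈ U) →
      x * (jG D s (pr0 D s x))⁻¹ ∈ O := by
  -- a neighbourhood of one in `BR B R`
  obtain ⟨V, hV, hVO⟩ := mem_nhds_subtype _ _ _ |>.1 hO
  have hV' : (fun y : BR B R => 1 + y) ⁻¹' V ∈ 𝓝 (0 : BR B R) := by
    have hc : Continuous fun y : BR B R => 1 + y := by fun_prop
    refine hc.continuousAt.preimage_mem_nhds ?_
    rw [add_zero]
    exact hV
  have h1 : (bcrT B R).φ.symm ⁻¹' ((fun y : BR B R => 1 + y) ⁻¹' V) ∈ 𝓝 (0 : ι → R) := by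
    have h2 := (bcrT B R).φ.symm.continuous.continuousAt (x := (0 : ι → R))
    rw [ContinuousAt, map_zero] at h2
    exact h2 hV'
  rw [nhds_pi, Filter.mem_pi'] at h1
  obtain ⟨I, U', hU', hI⟩ := h1
  refine ⟨⋂ i, U' i, Filter.iInter_mem.2 hU', fun x hx => hVO ?_⟩
  rw [Set.mem_preimage, off_eq]
  have h3 : (bcrT B R).φ (((x : BR B R) - 1) - Ij B D (Pj B D ((x : BR B R) - 1))) ∈
      (bcrT B R).φ.symm ⁻¹' ((fun y : BR B R => 1 + y) ⁻¹' V) := by
    apply hI
    intro l _
    have h4 : (bcrT B R).φ (((x : BR B R) - 1) - Ij B D (Pj B D ((x : BR B R) - 1))) l =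
        eqF B R ((x : BR B R) - 1) l - D.i (D.p (eqF B R ((x : BR B R) - 1) l)) := by
      change eqF B R (((x : BR B R) - 1) - Ij B D (Pj B D ((x : BR B R) - 1))) l = _
      rw [map_sub (eqF B R), Pi.sub_apply, eqF_Ij, eqF_Pj]
    rw [h4]
    exact Set.mem_iInter.1 (hx l) l
  rw [Set.mem_preimage, ContinuousLinearEquiv.symm_apply_apply] at h3
  exact h3

section arith

variable {A : Type} [Ring A] [StarRing A] [Algebra k A] [StarLinR k A] {B : Basis ι k A}

/-- The unitary elements of `A` in the unitary group of the base change. -/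
noncomputable def iotaU (B : Basis ι k A) (R : Type*) [CommRing R] [TopologicalSpace R]
    [Algebra k R] : UA A →* unitary (BR B R) where
  toFun g := ⟨(bcrT B R).j ((g : Aˣ) : A), by
    rw [Unitary.mem_iff, ← (bcrT B R).j_star, ← map_mul, ← map_mul, ua_mul_star, ua_star_mul,
      map_one]
    exact ⟨rfl, rfl⟩⟩
  map_one' := Subtype.ext (map_one _)
  map_mul' x y := Subtype.ext (map_mul _ _ _)

theorem iotaU_coe (g : UA A) :
    ((iotaU B R g : unitary (BR B R)) : BR B R) = (bcrT B R).j ((g : Aˣ) : A) := rfl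

theorem eqF_iotaU (g : UA A) (l : ι) :
    eqF B R ((iotaU B R g : unitary (BR B R)) : BR B R) l =
      algebraMap k R (B.repr ((g : Aˣ) : A) l) :=
  (bcrT B R).φ_eq _ _

theorem eqF_iotaU_sub (g : UA A) (l : ι) :
    eqF B R (((iotaU B R g : unitary (BR B R)) : BR B R) - 1) l =
      algebraMap k R (B.repr (((g : Aˣ) : A) - 1) l) := by
  have h1 : ((iotaU B R g : unitary (BR B R)) : BR B R) - 1 =
      (bcrT B R).j (((g : Aˣ) : A) - 1) := by
    rw [map_sub, map_one]
    rfl
  rw [h1]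
  exact (bcrT B R).φ_eq _ _

theorem pr0_iotaU (s : Spl B F n) (g : UA A) :
    ((pr0 D s (iotaU B R g) : GL (Fin n) F) : Matrix (Fin n) (Fin n) F) =
      s.f ((g : Aˣ) : A) := by
  have h1 : ((pr0 D s (iotaU B R g) : GL (Fin n) F) : Matrix (Fin n) (Fin n) F) =
      (BCR.iso (bcrT B F) s.bcr (Pj B D ((bcrT B R).j ((g : Aˣ) : A)))).X := rfl
  have h2 : Pj B D ((bcrT B R).j ((g : Aˣ) : A)) = (bcrT B F).j ((g : Aˣ) : A) := by
    change Pj B D (tm B 1 _) = tm B 1 _
    rw [Pj_tm, map_one]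
  rw [h1, h2, BCR.iso_j (bcrT B F) s.bcr rfl]
  rfl

end arith

end main

end Vale.Agent.P011.H74
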