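import Vale.Agent.P011.H74.LocCommF
import Vale.Agent.P011.Hey.H63.Hensel

/-!
# Stability of the eigenvalue of the commutator lemma
-/

set_option linter.unusedSectionVars false

open Matrix Topology Filter

namespace Vale.Agent.P011.H74.LCF

open Vale.Agent.P011.H521.LC

section defs

variable {K : Type*} [Field K] [StarRing K]

/-- A hyperbolic eigenvalue which is not fixed by the involution. -/
def GoodEig (X : Matrix (Fin 3) (Fin 3) K) : Prop :=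
  ∃ (θ : K) (f : Fin 3 → K), f ≠ 0 ∧ θ * star θ ≠ 1 ∧ star θ ≠ θ ∧ X *ᵥ f = θ • f

/-- The second coefficient of the characteristic polynomial. -/
def e2 (X : Matrix (Fin 3) (Fin 3) K) : K :=
  X 0 0 * X 1 1 - X 0 1 * X 1 0 + (X 0 0 * X 2 2 - X 0 2 * X 2 0) +
    (X 1 1 * X 2 2 - X 1 2 * X 2 1)

/-- The first coefficient. -/
def e1 (X : Matrix (Fin 3) (Fin 3) K) : K := X 0 0 + X 1 1 + X 2 2

theorem det_sub (X : Matrix (Fin 3) (Fin 3) K) (t : K) :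
    (X - t • (1 : Matrix (Fin 3) (Fin 3) K)).det =
      -(t ^ 3 - e1 X * t ^ 2 + e2 X * t - X.det) := by
  rw [Matrix.det_fin_three, Matrix.det_fin_three, e1, e2]
  simp only [Matrix.sub_apply, Matrix.smul_apply, Matrix.one_apply, smul_eq_mul, if_true,
    Fin.isValue, mul_one, mul_zero, sub_zero, reduceIte, (by decide : (0 : Fin 3) ≠ 1),
    (by decide : (0 : Fin 3) ≠ 2), (by decide : (1 : Fin 3) ≠ 0), (by decide : (1 : Fin 3) ≠ 2),
    (by decide : (2 : Fin 3) ≠ 0), (by decide : (2 : Fin 3) ≠ 1)]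
  ring

theorem charEq_of_eigen {X : Matrix (Fin 3) (Fin 3) K} (hdet : X.det = 1) {θ : K}
    {f : Fin 3 → K} (hf0 : f ≠ 0) (h : X *ᵥ f = θ • f) :
    θ ^ 3 - e1 X * θ ^ 2 + e2 X * θ - 1 = 0 := by
  have h1 : (X - θ • (1 : Matrix (Fin 3) (Fin 3) K)).det = 0 := by
    rw [← Matrix.exists_mulVec_eq_zero_iff]
    exact ⟨f, hf0, by rw [sub_mulVec, smul_mulVec, one_mulVec, h, sub_self]⟩
  rw [det_sub, hdet] at h1
  linear_combination -h1

variable {H : Matrix (Fin 3) (Fin 3) K}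

/-- The eigenvalue is a simple root. -/
theorem simple_of_good (hH : Hᴴ = H) (hd : H.det ≠ 0) {X : Matrix (Fin 3) (Fin 3) K}
    (hX : Xᴴ * H * X = H) (hdet : X.det = 1) {θ : K} {f : Fin 3 → K} (hf0 : f ≠ 0)
    (h1 : θ * star θ ≠ 1) (h : X *ᵥ f = θ • f) :
    3 * θ ^ 2 - 2 * e1 X * θ + e2 X ≠ 0 := by
  obtain ⟨hθ, -, F, hF, -, hEF⟩ := exists_opposite hH hd hX h hf0 h1
  have hF0 : F ≠ 0 := by
    rintro rfl
    simp [hf] at hEF
  have hsθ : star θ ≠ 0 := by simpa using hθ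
  obtain ⟨φ, hφ⟩ : ∃ φ, φ = (star θ)⁻¹ := ⟨_, rfl⟩
  rw [← hφ] at hF
  have hφs : φ * star θ = 1 := by rw [hφ, inv_mul_cancel₀ hsθ]
  have hne : θ - φ ≠ 0 := by
    intro h0
    apply h1
    rw [sub_eq_zero.1 h0]
    exact hφs ▸ (by rw [sub_eq_zero.1 h0])
  have hPθ := charEq_of_eigen hdet hf0 h
  have hPφ := charEq_of_eigen hdet hF0 hF
  intro h0
  have h2 : θ ^ 2 + θ * φ + φ ^ 2 - e1 X * (θ + φ) + e2 X = 0 := by
    have h3 : (θ - φ) * (θ ^ 2 + θ * φ + φ ^ 2 - e1 X * (θ + φ) + e2 X) = 0 := by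
      linear_combination hPθ - hPφ
    exact (mul_eq_zero.1 h3).resolve_left hne
  have h4 : e1 X = 2 * θ + φ := by
    have h3 : (θ - φ) * (2 * θ + φ - e1 X) = 0 := by linear_combination h0 - h2
    exact (sub_eq_zero.1 ((mul_eq_zero.1 h3).resolve_left hne)).symm
  have h5 : e2 X = θ ^ 2 + 2 * θ * φ := by rw [h4] at h2; linear_combination h2
  have h6 : θ ^ 2 * φ = 1 := by
    rw [h4, h5] at hPθ
    linear_combination hPθ
  have h7 : star θ = θ ^ 2 := by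
    have h8 : φ * star θ = φ * θ ^ 2 := by rw [hφs, mul_comm φ, h6]
    have hφ0 : φ ≠ 0 := by
      intro h9
      rw [h9, zero_mul] at hφs
      exact zero_ne_one hφs
    exact mul_left_cancel₀ hφ0 h8
  have h9 : θ = θ ^ 4 := by
    conv_lhs => rw [← star_star θ, h7, star_pow, h7]
    ring
  have h10 : θ ^ 3 = 1 := by
    have h11 : θ * (θ ^ 3 - 1) = 0 := by linear_combination -h9
    exact sub_eq_zero.1 ((mul_eq_zero.1 h11).resolve_left hθ)
  apply h1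
  rw [h7]
  linear_combination h10

end defs

section stable

variable {L : Type*} [NontriviallyNormedField L] [CompleteSpace L] [IsUltrametricDist L]

/-- A root of a cubic polynomial near an approximate simple root. -/
theorem root_near {c0 c1 c2 l : L} (hl : l ≠ 0) (h0 : ‖c0‖ < ‖c1‖ * ‖l‖)
    (h2 : ‖c2‖ * ‖l‖ ≤ ‖c1‖) (h3 : ‖l‖ ^ 2 ≤ ‖c1‖) :
    ∃ y : L, ‖y‖ < ‖l‖ ∧ c0 + c1 * y + c2 * y ^ 2 + y ^ 3 = 0 := by
  have hl0 : 0 < ‖l‖ := norm_pos_iff.2 hl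
  have hc1 : 0 < ‖c1‖ := lt_of_lt_of_le (by positivity) h3
  have hc10 : c1 ≠ 0 := norm_pos_iff.1 hc1
  have ha0 : ‖c0 / (c1 * l)‖ < 1 := by
    rw [norm_div, norm_mul, div_lt_one (by positivity)]
    exact h0
  have ha2 : ‖c2 * l / c1‖ ≤ 1 := by
    rw [norm_div, norm_mul, div_le_one hc1]
    exact h2
  have ha3 : ‖l ^ 2 / c1‖ ≤ 1 := by
    rw [norm_div, norm_pow, div_le_one hc1]
    exact h3
  let a0 : Hey.H63.OK L := ⟨c0 / (c1 * l), ha0.le⟩
  let a2 : Hey.H63.OK L := ⟨c2 * l / c1, ha2⟩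
  let a3 : Hey.H63.OK L := ⟨l ^ 2 / c1, ha3⟩
  let P : Polynomial (Hey.H63.OK L) := Polynomial.C a0 + Polynomial.X +
    Polynomial.C a2 * Polynomial.X ^ 2 + Polynomial.C a3 * Polynomial.X ^ 3
  have hP0 : P.coeff 0 = a0 := by simp [P]
  have hP1 : P.coeff 1 = 1 := by
    simp [P, Polynomial.coeff_X_pow, Polynomial.coeff_C]
  obtain ⟨z, hz, hev⟩ := Hey.H63.hensel P (by rw [hP0]; exact ha0)
    (by rw [hP1, OneMemClass.coe_one, norm_one])
  refine ⟨l * z, ?_, ?_⟩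
  · rw [norm_mul]
    calc ‖l‖ * ‖(z : L)‖ < ‖l‖ * 1 := by gcongr
      _ = ‖l‖ := mul_one _
  · have h4 : (((P.eval z : Hey.H63.OK L)) : L) = 0 := by rw [hev]; rfl
    have h5 : (((P.eval z : Hey.H63.OK L)) : L) =
        c0 / (c1 * l) + z + c2 * l / c1 * (z : L) ^ 2 + l ^ 2 / c1 * (z : L) ^ 3 := by
      simp [P, a0, a2, a3]
    rw [h5] at h4
    have h6 : c0 + c1 * (l * z) + c2 * (l * z) ^ 2 + (l * z) ^ 3 =
        c1 * l * (c0 / (c1 * l) + z + c2 * l / c1 * (z : L) ^ 2 + l ^ 2 / c1 * (z : L) ^ 3) := by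
      field_simp
    rw [h6, h4, mul_zero]

variable [StarRing L]

/-- **Stability.** -/
theorem GoodEig.eventually (hst : ∀ x : L, ‖star x‖ = ‖x‖) {H : Matrix (Fin 3) (Fin 3) L}
    (hH : Hᴴ = H) (hd : H.det ≠ 0) {X : Matrix (Fin 3) (Fin 3) L}
    (hX : Xᴴ * H * X = H) (hdet : X.det = 1) (hg : GoodEig X) :
    ∀ᶠ X1 in 𝓝 X, X1.det = 1 → GoodEig X1 := by
  obtain ⟨θ, f, hf0, h1, h2, hXf⟩ := hg
  have hcs : Continuous (star : L → L) := by
    have h1 : Isometry (star : L → L) := Isometry.of_dist_eq fun x y => by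
      rw [dist_eq_norm, dist_eq_norm, ← star_sub, hst]
    exact h1.continuous
  have hs := simple_of_good hH hd hX hdet hf0 h1 hXf
  have hr := charEq_of_eigen hdet hf0 hXf
  -- the coefficients as functions of the matrix
  obtain ⟨c0, hc0⟩ : ∃ c0 : Matrix (Fin 3) (Fin 3) L → L,
      c0 = fun X => θ ^ 3 - e1 X * θ ^ 2 + e2 X * θ - 1 := ⟨_, rfl⟩
  obtain ⟨c1, hc1⟩ : ∃ c1 : Matrix (Fin 3) (Fin 3) L → L,
      c1 = fun X => 3 * θ ^ 2 - 2 * e1 X * θ + e2 X := ⟨_, rfl⟩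
  obtain ⟨c2, hc2⟩ : ∃ c2 : Matrix (Fin 3) (Fin 3) L → L,
      c2 = fun X => 3 * θ - e1 X := ⟨_, rfl⟩
  have he1 : Continuous (e1 : Matrix (Fin 3) (Fin 3) L → L) := by unfold e1; fun_prop
  have he2 : Continuous (e2 : Matrix (Fin 3) (Fin 3) L → L) := by unfold e2; fun_prop
  have k0 : Continuous c0 := by rw [hc0]; fun_prop
  have k1 : Continuous c1 := by rw [hc1]; fun_prop
  have k2 : Continuous c2 := by rw [hc2]; fun_prop
  have v0 : c0 X = 0 := by rw [hc0]; exact hr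
  have v1 : c1 X ≠ 0 := by rw [hc1]; exact hs
  -- the admissible eigenvalues
  have hO : {t : L | t * star t ≠ 1 ∧ star t ≠ t} ∈ 𝓝 θ := by
    refine IsOpen.mem_nhds ?_ ⟨h1, h2⟩
    exact (isOpen_ne_fun (continuous_id.mul hcs) continuous_const).inter
      (isOpen_ne_fun hcs continuous_id)
  obtain ⟨ε, hε, hεO⟩ := Metric.mem_nhds_iff.1 hO
  have hn1 : 0 < ‖c1 X‖ := norm_pos_iff.2 v1
  -- the radius
  obtain ⟨r, hr0, hr⟩ : ∃ r : ℝ, 0 < r ∧ ∀ l : L, ‖l‖ < r → ‖l‖ < ε ∧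
      (‖c2 X‖ + 1) * ‖l‖ < ‖c1 X‖ ∧ ‖l‖ ^ 2 < ‖c1 X‖ := by
    have h3 : ∀ᶠ l : L in 𝓝 0, ‖l‖ < ε ∧ (‖c2 X‖ + 1) * ‖l‖ < ‖c1 X‖ ∧ ‖l‖ ^ 2 < ‖c1 X‖ := by
      have q1 : ContinuousAt (fun l : L => ‖l‖) 0 := continuous_norm.continuousAt
      have q2 : ContinuousAt (fun l : L => (‖c2 X‖ + 1) * ‖l‖) 0 := by fun_prop
      have q3 : ContinuousAt (fun l : L => ‖l‖ ^ 2) 0 := by fun_prop
      refine (q1.eventually_lt continuousAt_const (by simpa using hε)).and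
        ((q2.eventually_lt continuousAt_const (by simpa using hn1)).and
          (q3.eventually_lt continuousAt_const (by simpa using hn1)))
    obtain ⟨r, hr0, hr⟩ := Metric.eventually_nhds_iff.1 h3
    exact ⟨r, hr0, fun l hl => hr (by rwa [dist_zero_right])⟩
  obtain ⟨l, hl0, hlr⟩ := NormedField.exists_norm_lt L hr0
  obtain ⟨hl1, hl2, hl3⟩ := hr l hlr
  have hl : l ≠ 0 := norm_pos_iff.1 hl0
  have b0 : ∀ᶠ X1 in 𝓝 X, ‖c0 X1‖ < ‖c1 X‖ * ‖l‖ := by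
    have q : ContinuousAt (fun Y => ‖c0 Y‖) X := (continuous_norm.comp k0).continuousAt
    refine q.eventually_lt continuousAt_const ?_
    rw [v0, norm_zero]
    positivity
  have b1 : ∀ᶠ X1 in 𝓝 X, ‖c1 X1 - c1 X‖ < ‖c1 X‖ := by
    have q : ContinuousAt (fun Y => ‖c1 Y - c1 X‖) X :=
      (continuous_norm.comp (k1.sub continuous_const)).continuousAt
    refine q.eventually_lt continuousAt_const ?_
    rw [sub_self, norm_zero]
    exact hn1
  have b2 : ∀ᶠ X1 in 𝓝 X, ‖c2 X1‖ < ‖c2 X‖ + 1 := by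
    have q : ContinuousAt (fun Y => ‖c2 Y‖) X := (continuous_norm.comp k2).continuousAt
    refine q.eventually_lt continuousAt_const ?_
    linarith
  filter_upwards [b0, b1, b2] with X1 b0 b1 b2 hdet1
  have hn : ‖c1 X1‖ = ‖c1 X‖ := by
    have e : c1 X1 = (c1 X1 - c1 X) + c1 X := by ring
    rw [e]
    exact IsUltrametricDist.norm_add_eq_max_of_norm_ne_norm b1.ne |>.trans
      (max_eq_right b1.le)
  obtain ⟨y, hy, hyr⟩ := root_near (c0 := c0 X1) (c1 := c1 X1) (c2 := c2 X1) hl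
    (by rw [hn]; exact b0) (by
      rw [hn]
      calc ‖c2 X1‖ * ‖l‖ ≤ (‖c2 X‖ + 1) * ‖l‖ := by gcongr
        _ ≤ _ := hl2.le) (by rw [hn]; exact hl3.le)
  have hθ1 : (X1 - (θ + y) • (1 : Matrix (Fin 3) (Fin 3) L)).det = 0 := by
    rw [det_sub, hdet1]
    rw [hc0, hc1, hc2] at hyr
    simp only at hyr
    linear_combination -hyr
  obtain ⟨f1, hf1, hf1'⟩ := Matrix.exists_mulVec_eq_zero_iff.2 hθ1
  have hmem : θ + y ∈ {t : L | t * star t ≠ 1 ∧ star t ≠ t} := by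
    apply hεO
    rw [Metric.mem_ball, dist_eq_norm, add_sub_cancel_left]
    exact hy.trans hl1
  refine ⟨θ + y, f1, hf1, hmem.1, hmem.2, ?_⟩
  rw [sub_mulVec, smul_mulVec, one_mulVec, sub_eq_zero] at hf1'
  exact hf1'

end stable

end Vale.Agent.P011.H74.LCF
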