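import Vale.Agent.P011.H521.LocComm

/-!
# The local commutator lemma with the nonspecial condition

helper521's `exists_pair` and `exists_comm`, with one more conclusion:
`W (X - 1) W` is not a multiple of `X⁻¹ - 1`.  Every characteristic.
-/

set_option linter.unusedSectionVars false

open Matrix

namespace Vale.Agent.P011.H74.LCF

open Vale.Agent.P011.H521.LC

variable {K : Type*} [Field K] [StarRing K] {H : Matrix (Fin 3) (Fin 3) K}

/-- the trace condition on hyperbolic pairs -/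
theorem exists_pair' (hH : Hᴴ = H) (hd : H.det ≠ 0) {X : Matrix (Fin 3) (Fin 3) K}
    (hX : Xᴴ * H * X = H) {θ : K} {E : Fin 3 → K} (hE : X *ᵥ E = θ • E) (hE0 : E ≠ 0)
    (h1 : θ * star θ ≠ 1) (h2 : star θ ≠ θ) :
    ∃ a b : Fin 3 → K, hf H a a = 0 ∧ hf H b b = 0 ∧ hf H a b = 1 ∧ hf H (X *ᵥ a) b = 1 ∧
      ∀ c : K, X *ᵥ a - a ≠ c • b := by
  obtain ⟨hθ, hEE, F, hF, hFF, hEF⟩ := exists_opposite hH hd hX hE hE0 h1
  have hsθ : star θ ≠ 0 := by simpa using hθ
  have hFE : hf H F E = 1 := by rw [← star_hf hH, hEF, star_one]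
  obtain ⟨M, hME, hMF, hP⟩ := exists_basis hH hEE hFF hEF one_ne_zero
  have hEM : hf H E M = 0 := by rw [← star_hf hH, hME, star_zero]
  have hFM : hf H F M = 0 := by rw [← star_hf hH, hMF, star_zero]
  set η := hf H M M with hη
  have hsη : star η = η := star_hf hH M M
  have hη0 : η ≠ 0 := by
    intro h0
    have g := gram_adapted hH hEE hFF hEF hME hMF
    rw [← hη, h0] at g
    have h3 := congrArg Matrix.det g
    rw [det_mul, det_mul, det_conjTranspose, Matrix.det_fin_three (!![_, _, _; _, _, _; _, _, _])]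
      at h3
    simp at h3
    rcases h3 with h3 | h3
    · rcases h3 with h3 | h3
      · exact hP (by simpa using h3)
      · exact hd h3
    · exact hP (by simpa using h3)
  set y := (θ - 1) * (θ⁻¹ - 1) with hy
  have hsy : star y = (star θ - 1) * ((star θ)⁻¹ - 1) := by
    rw [hy, star_mul', star_sub, star_sub, star_one, star_inv₀]
  have hyy : y - star y ≠ 0 := by
    have h3 : y - star y = (star θ - θ) * (θ * star θ - 1) / (θ * star θ) := by
      rw [hsy, hy]; field_simp; ring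
    rw [h3]
    exact div_ne_zero (mul_ne_zero (sub_ne_zero.2 h2) (sub_ne_zero.2 h1)) (mul_ne_zero hθ hsθ)
  set r := -(η * (y - star y))⁻¹ with hr
  have hsr : star r = -r := by
    rw [hr, star_neg, star_inv₀, star_mul', star_sub, star_star, hsη, ← neg_sub y, mul_neg,
      inv_neg]
  have hr0 : r ≠ 0 := by
    rw [hr, neg_ne_zero]; exact inv_ne_zero (mul_ne_zero hη0 hyy)
  have hrη : r * (η * (y - star y)) = -1 := by
    rw [hr, neg_mul, inv_mul_cancel₀ (mul_ne_zero hη0 hyy)]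
  set a := θ - 1 with ha
  set b := r * ((star θ)⁻¹ - 1) with hb
  have hsa : star a = star θ - 1 := by rw [ha, star_sub, star_one]
  have hsb : star b = -r * (θ⁻¹ - 1) := by
    rw [hb, star_mul', hsr, star_sub, star_inv₀, star_star, star_one]
  set f0 := E + r • F with hf0
  set e0' := η⁻¹ • M + (star a • E - star b • F) with he0
  have hXf0 : X *ᵥ f0 = f0 + (a • E + b • F) := by
    rw [hf0, mulVec_add, mulVec_smul, hE, hF, ha, hb, sub_smul, one_smul, mul_sub, sub_smul,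
      mul_one, smul_smul]
    abel
  have i1 : hf H f0 f0 = 0 := by
    rw [hf0, hf_add_left, hf_add_right, hf_add_right, hf_smul_left, hf_smul_right, hf_smul_left,
      hf_smul_right, hEE, hEF, hFE, hFF, hsr]
    ring
  have i2 : hf H e0' e0' = 0 := by
    rw [he0]
    simp only [hf_add_left, hf_sub_left, hf_smul_left, hf_add_right, hf_sub_right, hf_smul_right,
      hEE, hEF, hFE, hFF, hME, hMF, hEM, hFM, ← hη, star_star, star_inv₀, hsη]
    rw [hsa, hsb, ha, hb]
    have h3 : -r * (y - star y) = η⁻¹ := by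
      field_simp
      linear_combination (-1 : K) * hrη
    rw [hy, hsy] at h3
    have h4 : η⁻¹ * (η⁻¹ * η) = η⁻¹ := by rw [inv_mul_cancel₀ hη0, mul_one]
    linear_combination h4 + (-1 : K) * h3
  have i3 : hf H f0 e0' = r * (θ - (star θ)⁻¹) := by
    rw [hf0, he0]
    simp only [hf_add_left, hf_smul_left, hf_add_right, hf_sub_right, hf_smul_right,
      hEE, hEF, hFE, hFF, hEM, hFM, star_star]
    rw [ha, hb]
    ring
  have i4 : hf H (a • E + b • F) e0' = 0 := by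
    rw [he0]
    simp only [hf_add_left, hf_smul_left, hf_add_right, hf_sub_right, hf_smul_right,
      hEE, hEF, hFE, hFF, hEM, hFM, star_star]
    ring
  set D0 := hf H f0 e0' with hD0
  have hD : D0 ≠ 0 := by
    rw [i3]
    refine mul_ne_zero hr0 (sub_ne_zero.2 fun h => h1 ?_)
    nth_rewrite 1 [h]
    exact inv_mul_cancel₀ hsθ
  refine ⟨f0, (star D0)⁻¹ • e0', i1, ?_, ?_, ?_, ?_⟩
  · rw [hf_smul_left, hf_smul_right, i2, mul_zero, mul_zero]
  · rw [hf_smul_right, star_inv₀, star_star, ← hD0, inv_mul_cancel₀ hD]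
  · rw [hXf0, hf_smul_right, hf_add_left, i4, add_zero, star_inv₀, star_star, ← hD0,
      inv_mul_cancel₀ hD]
  · intro c hc
    rw [hXf0, add_sub_cancel_left] at hc
    have j1 : hf H (a • E + b • F) M = 0 := by
      rw [hf_add_left, hf_smul_left, hf_smul_left, hEM, hFM, mul_zero, mul_zero, add_zero]
    have j2 : hf H e0' M = 1 := by
      rw [he0, hf_add_left, hf_sub_left, hf_smul_left, hf_smul_left, hf_smul_left, hEM, hFM,
        ← hη, mul_zero, mul_zero, sub_zero, add_zero, inv_mul_cancel₀ hη0]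
    have hsD : (star D0)⁻¹ ≠ 0 := inv_ne_zero (star_ne_zero.2 hD)
    have j3 : c = 0 := by
      rw [hc, hf_smul_left, hf_smul_left, j2, mul_one] at j1
      exact (mul_eq_zero.1 j1).resolve_right hsD
    rw [j3, zero_smul] at hc
    have j4 : hf H (a • E + b • F) F = 0 := by rw [hc, hf_zero_left]
    rw [hf_add_left, hf_smul_left, hf_smul_left, hEF, hFF, mul_one, mul_zero, add_zero, ha,
      sub_eq_zero] at j4
    exact h2 (by rw [j4, star_one])

/-- The nonspecial condition. -/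
theorem nonspec (hH : Hᴴ = H) (hd : H.det ≠ 0) {X W : Matrix (Fin 3) (Fin 3) K}
    (hX : Xᴴ * H * X = H) (hXdet : X.det = 1) (hW : Wᴴ * H * W = H) (hWdet : W.det = 1)
    {s : K} (hs : star s = s) (hs0 : s ≠ 0) (hs4 : s ^ 4 ≠ 1) {a b : Fin 3 → K}
    (hWa : W *ᵥ a = s • a) (hbb : hf H b b = 0) (hb : (X * W) *ᵥ b = s⁻¹ • b) (hb0 : b ≠ 0)
    (hnot : ∀ c : K, X *ᵥ a - a ≠ c • b) (e : K) : W * (X - 1) * W ≠ e • (X⁻¹ - 1) := by
  intro he
  have hs1 : s * s ≠ 1 := by
    intro h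
    apply hs4
    calc s ^ 4 = (s * s) * (s * s) := by ring
      _ = 1 := by rw [h, one_mul]
  have hXu : IsUnit X.det := by rw [hXdet]; exact isUnit_one
  have hWu : IsUnit W.det := by rw [hWdet]; exact isUnit_one
  have hHu : IsUnit H := (Matrix.isUnit_iff_isUnit_det H).2 (isUnit_iff_ne_zero.2 hd)
  have hXX : X * X⁻¹ = 1 := Matrix.mul_nonsing_inv _ hXu
  have hXX' : X⁻¹ * X = 1 := Matrix.nonsing_inv_mul _ hXu
  have hWW : W * W⁻¹ = 1 := Matrix.mul_nonsing_inv _ hWu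
  have hWW' : W⁻¹ * W = 1 := Matrix.nonsing_inv_mul _ hWu
  -- the matrices are different
  have hX1 : X⁻¹ - 1 ≠ 0 := by
    intro h
    have h3 : X = 1 := by
      rw [sub_eq_zero] at h
      rw [h, Matrix.mul_one] at hXX
      exact hXX
    exact hnot 0 (by rw [h3, one_mulVec, sub_self, zero_smul])
  -- the adjoint
  have a1 : Xᴴ * H = H * X⁻¹ := by
    calc Xᴴ * H = Xᴴ * H * (X * X⁻¹) := by rw [hXX, Matrix.mul_one]
      _ = Xᴴ * H * X * X⁻¹ := by rw [Matrix.mul_assoc (Xᴴ * H)]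
      _ = H * X⁻¹ := by rw [hX]
  have a2 : Wᴴ * H = H * W⁻¹ := by
    calc Wᴴ * H = Wᴴ * H * (W * W⁻¹) := by rw [hWW, Matrix.mul_one]
      _ = Wᴴ * H * W * W⁻¹ := by rw [Matrix.mul_assoc (Wᴴ * H)]
      _ = H * W⁻¹ := by rw [hW]
  have a3 : (X⁻¹)ᴴ * H = H * X := by
    have h3 := isU_inv hd hX
    calc (X⁻¹)ᴴ * H = (X⁻¹)ᴴ * H * (X⁻¹ * X) := by rw [hXX', Matrix.mul_one]
      _ = (X⁻¹)ᴴ * H * X⁻¹ * X := by rw [Matrix.mul_assoc ((X⁻¹)ᴴ * H)]
      _ = H * X := by rw [h3]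
  have h4 := congrArg conjTranspose he
  rw [conjTranspose_mul, conjTranspose_mul, conjTranspose_sub, conjTranspose_one,
    conjTranspose_smul, conjTranspose_sub, conjTranspose_one] at h4
  have h5 : H * (W⁻¹ * (X⁻¹ - 1) * W⁻¹) = H * (star e • (X - 1)) := by
    calc H * (W⁻¹ * (X⁻¹ - 1) * W⁻¹) = Wᴴ * H * (X⁻¹ - 1) * W⁻¹ := by
          rw [a2]; simp only [Matrix.mul_assoc]
      _ = Wᴴ * ((Xᴴ - 1) * H) * W⁻¹ := by
          rw [Matrix.sub_mul, a1, Matrix.one_mul]
          simp only [Matrix.mul_assoc, Matrix.mul_sub, Matrix.sub_mul, Matrix.mul_one]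
      _ = Wᴴ * (Xᴴ - 1) * (Wᴴ * H) := by rw [a2]; simp only [Matrix.mul_assoc]
      _ = (Wᴴ * ((Xᴴ - 1) * Wᴴ)) * H := by simp only [Matrix.mul_assoc]
      _ = (star e • ((X⁻¹)ᴴ - 1)) * H := by rw [h4]
      _ = H * (star e • (X - 1)) := by
          rw [Matrix.smul_mul, Matrix.sub_mul, a3, Matrix.one_mul, Matrix.mul_smul,
            Matrix.mul_sub, Matrix.mul_one]
  have h6 := hHu.mul_left_cancel h5
  have h7 : X⁻¹ - 1 = (star e * e) • (X⁻¹ - 1) := by
    calc X⁻¹ - 1 = W * (W⁻¹ * (X⁻¹ - 1) * W⁻¹) * W := by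
          rw [← Matrix.mul_assoc, ← Matrix.mul_assoc, hWW, Matrix.one_mul, Matrix.mul_assoc, hWW',
            Matrix.mul_one]
      _ = star e • (W * (X - 1) * W) := by
          rw [h6, Matrix.mul_smul, Matrix.smul_mul]
      _ = _ := by rw [he, smul_smul]
  have h8 : star e * e = 1 := by
    have h9 : (1 - star e * e) • (X⁻¹ - 1) = 0 := by
      rw [sub_smul, one_smul, ← h7, sub_self]
    exact (sub_eq_zero.1 ((smul_eq_zero.1 h9).resolve_right hX1)).symm
  -- the eigenvector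
  obtain ⟨v, hv⟩ : ∃ v, v = X *ᵥ a - a := ⟨_, rfl⟩
  have hv0 : v ≠ 0 := by
    intro h
    exact hnot 0 (by rw [← hv, h, zero_smul])
  have h10 : (X * W) *ᵥ v = (-e * s⁻¹) • v := by
    have h11 : s • (W *ᵥ v) = e • (X⁻¹ *ᵥ a - a) := by
      have h12 := congrArg (fun Q => Q *ᵥ a) he
      rw [← mulVec_mulVec, ← mulVec_mulVec, hWa, mulVec_smul, mulVec_smul, sub_mulVec,
        one_mulVec, smul_mulVec, sub_mulVec, one_mulVec, ← hv] at h12
      exact h12
    have h13 : s • ((X * W) *ᵥ v) = -(e • v) := by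
      rw [← mulVec_mulVec, ← mulVec_smul, h11, mulVec_smul, mulVec_sub, mulVec_mulVec, hXX,
        one_mulVec, hv, ← smul_neg, neg_sub]
    calc (X * W) *ᵥ v = s⁻¹ • (s • ((X * W) *ᵥ v)) := by
          rw [smul_smul, inv_mul_cancel₀ hs0, one_smul]
      _ = _ := by
          rw [h13, smul_neg, smul_smul, neg_mul, neg_smul, mul_comm]
  have hY : (X * W)ᴴ * H * (X * W) = H := isU_mul hX hW
  have hss : star s⁻¹ = s⁻¹ := by rw [star_inv₀, hs]
  have hvv : hf H v v = 0 := by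
    have h11 := hf_mulVec hY v v
    rw [h10, hf_smul_left, hf_smul_right, star_mul', star_neg, hss] at h11
    have h12 : (s⁻¹ * s⁻¹ - 1) * hf H v v = 0 := by
      linear_combination h11 - (s⁻¹ * s⁻¹ * hf H v v) * h8
    refine (mul_eq_zero.1 h12).resolve_left ?_
    intro h13
    apply hs1
    rw [sub_eq_zero] at h13
    field_simp at h13
    linear_combination -h13
  have hvb : hf H v b = 0 := by
    have h11 := hf_mulVec hY v b
    rw [h10, hb, hf_smul_left, hf_smul_right, hss] at h11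
    have h12 : (-e * s⁻¹ * s⁻¹ - 1) * hf H v b = 0 := by
      linear_combination h11
    refine (mul_eq_zero.1 h12).resolve_left ?_
    intro h13
    apply hs4
    have h14 : e = -(s * s) := by
      field_simp at h13
      linear_combination -h13
    rw [h14, star_neg, star_mul', hs] at h8
    linear_combination h8
  obtain ⟨c, hc⟩ := dep_of_orth hH hd hbb hvv (by rw [← star_hf hH, hvb, star_zero]) hb0
  exact hnot c (by rw [← hv, hc])

/-- **THE LOCAL COMMUTATOR LEMMA.** -/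
theorem exists_comm' (hH : Hᴴ = H) (hd : H.det ≠ 0) {X : Matrix (Fin 3) (Fin 3) K}
    (hX : Xᴴ * H * X = H) (hXdet : X.det = 1) {θ : K} {E : Fin 3 → K} (hE : X *ᵥ E = θ • E)
    (hE0 : E ≠ 0) (h1 : θ * star θ ≠ 1) (h2 : star θ ≠ θ) {s : K} (hs : star s = s)
    (hs0 : s ≠ 0) (hs4 : s ^ 4 ≠ 1) :
    ∃ G W : Matrix (Fin 3) (Fin 3) K, Gᴴ * H * G = H ∧ G.det = 1 ∧ Wᴴ * H * W = H ∧
      W.det = 1 ∧ X * W * G = G * W ∧
      (∃ a b : Fin 3 → K, hf H a a = 0 ∧ hf H b b = 0 ∧ hf H a b = 1 ∧ W *ᵥ a = s • a ∧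
        W *ᵥ b = s⁻¹ • b) ∧ ∀ e : K, W * (X - 1) * W ≠ e • (X⁻¹ - 1) := by
  have hs1 : s * s ≠ 1 := by
    intro h
    apply hs4
    calc s ^ 4 = (s * s) * (s * s) := by ring
      _ = 1 := by rw [h, one_mul]
  obtain ⟨a, b, haa, hbb, hab, hXab, hnot⟩ := exists_pair' hH hd hX hE hE0 h1 h2
  have hXu : IsUnit X.det := by rw [hXdet]; exact isUnit_one
  set c := X⁻¹ *ᵥ b with hc
  have hXc : X *ᵥ c = b := by
    rw [hc, mulVec_mulVec, Matrix.mul_nonsing_inv _ hXu, one_mulVec]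
  have hss : star s⁻¹ = s⁻¹ := by rw [star_inv₀, hs]
  have hcc : hf H c c = 0 := by rw [← hf_mulVec hX, hXc, hbb]
  have hac : hf H a c = 1 := by rw [← hf_mulVec hX, hXc, hXab]
  obtain ⟨W, hW, hWdet, hWa, hWb⟩ := witt (a := a) (b := b) (a' := s • a) (b' := s⁻¹ • c) hH
    haa hbb (by rw [hf_smul_left, hf_smul_right, haa, mul_zero, mul_zero])
    (by rw [hf_smul_left, hf_smul_right, hcc, mul_zero, mul_zero])
    (by rw [hf_smul_left, hf_smul_right, hac, hab, hss, mul_one, mul_inv_cancel₀ hs0])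
    (by rw [hab]; exact one_ne_zero)
  -- the product
  have hXW : (X * W)ᴴ * H * (X * W) = H := by
    rw [conjTranspose_mul]
    calc Wᴴ * Xᴴ * H * (X * W) = Wᴴ * (Xᴴ * H * X) * W := by simp only [Matrix.mul_assoc]
      _ = H := by rw [hX, hW]
  have hXWdet : (X * W).det = 1 := by rw [det_mul, hXdet, hWdet, one_mul]
  have hXWb : (X * W) *ᵥ b = s⁻¹ • b := by
    rw [← mulVec_mulVec, hWb, mulVec_smul, hXc]
  have ha0 : a ≠ 0 := by
    intro h; rw [h, hf_zero_left] at hab; exact zero_ne_one hab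
  have hb0 : b ≠ 0 := by
    intro h
    rw [h] at hab
    simp [hf] at hab
  obtain ⟨-, -, b1, hb1, hb1b1, hab1⟩ := exists_opposite hH hd hW hWa ha0 (by rw [hs]; exact hs1)
  rw [hs] at hb1
  have hs1' : s⁻¹ * star s⁻¹ ≠ 1 := by
    rw [hss, ← mul_inv]
    intro h
    exact hs1 (inv_eq_one.1 h)
  obtain ⟨-, -, a2, ha2, ha2a2, hba2⟩ := exists_opposite hH hd hXW hXWb hb0 hs1'
  rw [hss, inv_inv] at ha2
  have ha2b : hf H a2 b = 1 := by rw [← star_hf hH, hba2, star_one]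
  obtain ⟨G, hG, hGdet, hGW⟩ := conj_of_eigen hH hW hWdet hXW hXWdet hs0 haa hb1b1 ha2a2 hbb
    hab1 ha2b hWa hb1 ha2 hXWb
  exact ⟨G, W, hG, hGdet, hW, hWdet, hGW, ⟨a, b1, haa, hb1b1, hab1, hWa, hb1⟩,
    nonspec hH hd hX hXdet hW hWdet hs hs0 hs4 hWa hbb hXWb hb0 hnot⟩

end Vale.Agent.P011.H74.LCF
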