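import Vale.Agent.P011.H401.Peirce

/-!
# Anisotropic involutions of odd degree over global function fields

`exists_two` : an algebra with anisotropic involution of the second kind over a global function
field, which is not a division algebra, is of degree `2 m`, `D` a division algebra of degree `m`.
`isUnit_of_odd` : in odd degree it is a division algebra.
-/

open Module

set_option linter.unusedSectionVars false

namespace Vale.Agent.P011.H74

open Vale.Agent.P011.H738 (Anis)

variable {k K A : Type} [Field k] [Field K] [StarRing K] [Ring A] [StarRing A]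
  [Algebra k K] [Algebra k A] [Algebra K A] [IsScalarTower k K A] [StarModule K A] {n : ℕ}

/-- The corner `e A e`. -/
def corner (K : Type) [Field K] {A : Type} [Ring A] [Algebra K A] (e : A) : Submodule K A where
  carrier := {x | e * x = x ∧ x * e = x}
  add_mem' {x y} hx hy := ⟨by rw [mul_add, hx.1, hy.1], by rw [add_mul, hx.2, hy.2]⟩
  zero_mem' := ⟨mul_zero _, zero_mul _⟩
  smul_mem' c x hx := ⟨by rw [mul_smul_comm, hx.1], by rw [smul_mul_assoc, hx.2]⟩

theorem mem_corner {e x : A} : x ∈ corner K e ↔ e * x = x ∧ x * e = x := Iff.rfl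

/-- The decomposition of `A` by two matrix units. -/
noncomputable def peirce {e u v : A} (he : e * e = e) (hu : e * u = u) (hu' : u * e = 0)
    (hv : e * v = 0) (hv' : v * e = v) (huv : u * v = e) (hvu : v * u = 1 - e) :
    A ≃ₗ[K] (corner K e × corner K e) × (corner K e × corner K e) where
  toFun x := ((⟨e * x * e, by rw [← mul_assoc, ← mul_assoc, he], by rw [mul_assoc, he]⟩,
      ⟨e * x * v, by rw [← mul_assoc, ← mul_assoc, he], by rw [mul_assoc, hv']⟩),
    (⟨u * x * e, by rw [← mul_assoc, ← mul_assoc, hu], by rw [mul_assoc, he]⟩,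
      ⟨u * x * v, by rw [← mul_assoc, ← mul_assoc, hu], by rw [mul_assoc, hv']⟩))
  map_add' x y := by
    refine Prod.ext (Prod.ext ?_ ?_) (Prod.ext ?_ ?_) <;> apply Subtype.ext <;>
      simp only [Prod.fst_add, Prod.snd_add, Submodule.coe_add, mul_add, add_mul]
  map_smul' c x := by
    refine Prod.ext (Prod.ext ?_ ?_) (Prod.ext ?_ ?_) <;> apply Subtype.ext <;>
      simp only [Prod.smul_fst, Prod.smul_snd, Submodule.coe_smul, mul_smul_comm, smul_mul_assoc,
        RingHom.id_apply]
  invFun y := (y.1.1 : A) + y.1.2 * u + v * y.2.1 + v * y.2.2 * u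
  left_inv x := by
    change e * x * e + e * x * v * u + v * (u * x * e) + v * (u * x * v) * u = x
    have h1 : e * x * v * u = e * x * (1 - e) := by rw [mul_assoc, hvu]
    have h2 : v * (u * x * e) = (1 - e) * x * e := by
      rw [← hvu]; simp only [mul_assoc]
    have h3 : v * (u * x * v) * u = (1 - e) * x * (1 - e) := by
      rw [← hvu]; simp only [mul_assoc]
    rw [h1, h2, h3]
    noncomm_ring
  right_inv y := by
    obtain ⟨⟨⟨a, ha1, ha2⟩, ⟨b, hb1, hb2⟩⟩, ⟨⟨c, hc1, hc2⟩, ⟨d, hd1, hd2⟩⟩⟩ := y
    have hbu : b * u * e = 0 := by rw [mul_assoc, hu', mul_zero]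
    have hav : a * v = 0 := by rw [← ha2, mul_assoc, hv, mul_zero]
    have hcv : c * v = 0 := by rw [← hc2, mul_assoc, hv, mul_zero]
    have hua : u * a = 0 := by rw [← ha1, ← mul_assoc, hu', zero_mul]
    have hub : u * b = 0 := by rw [← hb1, ← mul_assoc, hu', zero_mul]
    have hbuv : b * u * v = b := by rw [mul_assoc, huv, hb2]
    have hevc : ∀ z : A, e * (v * z) = 0 := fun z => by rw [← mul_assoc, hv, zero_mul]
    have huvc : u * (v * c) = c := by rw [← mul_assoc, huv, hc1]
    have huvd : u * (v * d * u) = d * u := by rw [← mul_assoc, ← mul_assoc, huv, hd1]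
    have hdue : d * u * e = 0 := by rw [mul_assoc, hu', mul_zero]
    have hduv : d * u * v = d := by rw [mul_assoc, huv, hd2]
    refine Prod.ext (Prod.ext ?_ ?_) (Prod.ext ?_ ?_) <;> apply Subtype.ext
    · change e * (a + b * u + v * c + v * d * u) * e = a
      rw [mul_add, mul_add, mul_add, ha1, hevc, mul_assoc v, hevc, ← mul_assoc, hb1, add_zero,
        add_zero, add_mul, ha2, hbu, add_zero]
    · change e * (a + b * u + v * c + v * d * u) * v = b
      rw [mul_add, mul_add, mul_add, ha1, hevc, mul_assoc v, hevc, ← mul_assoc, hb1, add_zero,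
        add_zero, add_mul, hav, hbuv, zero_add]
    · change u * (a + b * u + v * c + v * d * u) * e = c
      rw [mul_add, mul_add, mul_add, hua, huvc, huvd, ← mul_assoc, hub, zero_mul, zero_add,
        zero_add, add_mul, hc2, hdue, add_zero]
    · change u * (a + b * u + v * c + v * d * u) * v = d
      rw [mul_add, mul_add, mul_add, hua, huvc, huvd, ← mul_assoc, hub, zero_mul, zero_add,
        zero_add, add_mul, hcv, hduv, zero_add]

variable [H271.GFF k]

/-- An anisotropic algebra which is not a division algebra has dimension `4` times the dimension of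
a corner. -/
theorem exists_corner (hA : Anis k K A n) (hn : n ≠ 0) (hdiv : ∃ x : A, x ≠ 0 ∧ ¬ IsUnit x) :
    ∃ e : A, n ^ 2 = 4 * finrank K (corner K e) := by
  have : FiniteDimensional K A := by
    apply Module.finite_of_finrank_pos
    rw [hA.finrank_eq]
    positivity
  obtain ⟨e, u, v, he, -, hu, hu', hv, hv', huv, hvu, -⟩ := H401.exists_peirce hA hn hdiv
  refine ⟨e, ?_⟩
  rw [← hA.finrank_eq, (peirce (K := K) he hu hu' hv hv' huv hvu).finrank_eq, finrank_prod,
    finrank_prod]
  ring

/-- **In odd degree an anisotropic algebra over a global function field is a division algebra.** -/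
theorem isUnit_of_odd (hA : Anis k K A n) (hn : Odd n) {x : A} (hx : x ≠ 0) : IsUnit x := by
  by_contra h
  obtain ⟨e, he⟩ := exists_corner hA (by rintro rfl; exact absurd hn (by decide)) ⟨x, hx, h⟩
  have h1 : Odd (n ^ 2) := hn.pow
  rw [he] at h1
  exact absurd h1 (by
    rw [Nat.not_odd_iff_even]
    exact ⟨2 * finrank K (corner K e), by ring⟩)

end Vale.Agent.P011.H74
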