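import Vale.Agent.P011.H74.T3FFb
import Vale.Agent.P011.H74.OddDiv
import Vale.Agent.P011.H271.GF

/-!
# The conjecture for all anisotropic outer forms of degree three over global function fields
-/

open Module TensorProduct Topology

set_option linter.unusedSectionVars false

namespace Vale.Agent.P011.H74

open Vale.Agent.P011.H738 (Place SUA Anis IsGlobalFunctionField)
open Vale.Agent.P011.H732F (GK HA IsDiagonal IsOpenPreimage Adiv)

variable {k K A Ω : Type} [Field k] [Field K] [StarRing K] [Ring A] [StarRing A]
  [Algebra k K] [Algebra k A] [Algebra K A] [IsScalarTower k K A] [StarModule K A]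
  [Field Ω] [Algebra K Ω]

/-- **The conjecture for all anisotropic outer forms of degree three** over a global function
field of characteristic at least five. -/
theorem conj_three_ff_ring (hk : IsGlobalFunctionField k) (hA : Anis k K A 3) (h2 : (2 : k) ≠ 0)
    (h3 : (3 : k) ≠ 0) (f : A →ₐ[K] Matrix (Fin 3) (Fin 3) Ω) :
    ∃ δ : GK f →* HA A 3 (Adiv k K A), IsDiagonal δ ∧ DenseRange δ ∧
      ∀ M : Subgroup (GK f), M.Normal → M.index ≠ 0 → IsOpenPreimage δ M := by
  have hgff : H271.GFF k := H271.gff_of_isGlobal hk
  have hsim := hA.simple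
  let _ : DivisionRing A := DivisionRing.ofIsUnitOrEqZero fun x => by
    by_cases hx : x = 0
    · exact Or.inr hx
    · exact Or.inl (isUnit_of_odd hA (by decide) hx)
  exact conj_three_ff hk hA h2 h3 f

end Vale.Agent.P011.H74
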