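import Vale.Agent.P011.H321.AvoidA

/-!
# A parameter with prescribed sizes for which two pairs of polynomials have no common small value

The statement needed for doubling: `E1`, `E2`, `E3` are the elementary symmetric functions of a
pencil, `T` is small at finitely many places, large at finitely many others and integral elsewhere.
-/

open Polynomial IsDedekindDomain HeightOneSpectrum WithZero

set_option linter.unusedSectionVars false

namespace Vale.Agent.P011.H74.ExT

section val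

variable {K Γ : Type*} [Field K] [LinearOrderedCommGroupWithZero Γ] (v : Valuation K Γ)

/-- Values of a polynomial at integral arguments are bounded. -/
theorem exists_bound (f : K[X]) : ∃ M : Γ, 1 ≤ M ∧ ∀ T : K, v T ≤ 1 → v (f.eval T) ≤ M := by
  induction f using Polynomial.induction_on' with
  | add p q hp hq =>
    obtain ⟨M, hM, h1⟩ := hp
    obtain ⟨M', hM', h2⟩ := hq
    refine ⟨max M M', hM.trans (le_max_left _ _), fun T hT => ?_⟩
    rw [eval_add]
    exact (v.map_add _ _).trans (max_le_max (h1 T hT) (h2 T hT))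
  | monomial n a =>
    refine ⟨max 1 (v a), le_max_left _ _, fun T hT => ?_⟩
    rw [eval_monomial, map_mul, map_pow]
    calc v a * v T ^ n ≤ v a * 1 := mul_le_mul_right (pow_le_one' hT n) _
      _ ≤ _ := by rw [mul_one]; exact le_max_right _ _

/-- Integral polynomials have integral values at integral arguments. -/
theorem eval_le_one {f : K[X]} (hf : ∀ n, v (f.coeff n) ≤ 1) {T : K} (hT : v T ≤ 1) :
    v (f.eval T) ≤ 1 := by
  rw [eval_eq_sum_range]
  refine v.map_sum_le fun i _ => ?_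
  rw [map_mul, map_pow]
  exact mul_le_one' (hf i) (pow_le_one' hT i)

/-- Continuity at zero. -/
theorem exists_near_zero (f : K[X]) : ∃ δ : Γ, δ ≠ 0 ∧ δ ≤ 1 ∧ ∀ T : K, v T < δ →
    v (f.eval T - f.eval 0) < 1 := by
  obtain ⟨M, hM, h⟩ := exists_bound v f.divX
  have hM0 : M ≠ 0 := (zero_lt_one.trans_le hM).ne'
  refine ⟨M⁻¹, inv_ne_zero hM0, inv_le_one_of_one_le₀ hM, fun T hT => ?_⟩
  have hT1 : v T ≤ 1 := hT.le.trans (inv_le_one_of_one_le₀ hM)
  have e : f.eval T - f.eval 0 = f.divX.eval T * T := by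
    have h1 := congrArg (eval T) (divX_mul_X_add f)
    rw [eval_add, eval_mul, eval_X, eval_C] at h1
    rw [← h1, ← coeff_zero_eq_eval_zero]
    ring
  rw [e, map_mul]
  calc v (f.divX.eval T) * v T ≤ M * v T := mul_le_mul_left (h T hT1) _
    _ < M * M⁻¹ := mul_lt_mul_of_pos_left hT (zero_lt_iff.mpr hM0)
    _ = 1 := mul_inv_cancel₀ hM0

end val

variable {R K : Type*} [CommRing R] [IsDedekindDomain R] [Field K] [Algebra R K]
  [IsFractionRing R K]

theorem finite_coeff (f : K[X]) :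
    {v : HeightOneSpectrum R | ¬ ∀ n, v.valuation K (f.coeff n) ≤ 1}.Finite := by
  have h : (⋃ n ∈ f.support, {v : HeightOneSpectrum R | v.valuation K (f.coeff n) ≠ 1}).Finite :=
    Set.Finite.biUnion f.support.finite_toSet fun n hn =>
      H321.Avoid.hos_finite (Polynomial.mem_support_iff.mp hn)
  refine h.subset fun v hv => ?_
  rw [Set.mem_ofPred_eq] at hv
  push Not at hv
  obtain ⟨n, hn⟩ := hv
  refine Set.mem_biUnion (x := n) ?_ ?_
  · rw [Finset.mem_coe, Polynomial.mem_support_iff]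
    intro h0
    rw [h0, map_zero] at hn
    exact absurd hn (not_lt.mpr zero_le_one)
  · exact hn.ne'

/-- The values of `f` and `g` at an integral argument are not both small, if the coefficients of
a Bezout relation are integral. -/
theorem not_both {Γ : Type*} [LinearOrderedCommGroupWithZero Γ] (v : Valuation K Γ)
    {f g a b : K[X]} (h : a * f + b * g = 1) (ha : ∀ n, v (a.coeff n) ≤ 1)
    (hb : ∀ n, v (b.coeff n) ≤ 1) {T : K} (hT : v T ≤ 1) :
    ¬ (v (f.eval T) < 1 ∧ v (g.eval T) < 1) := by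
  rintro ⟨h1, h2⟩
  have h3 := congrArg (fun p => v (p.eval T)) h
  rw [eval_add, eval_mul, eval_mul, eval_one, map_one] at h3
  have h4 : v (a.eval T * f.eval T + b.eval T * g.eval T) < 1 := by
    refine v.map_add_lt ?_ ?_
    · rw [map_mul]
      exact (mul_le_of_le_one_left' (eval_le_one v ha hT)).trans_lt h1
    · rw [map_mul]
      exact (mul_le_of_le_one_left' (eval_le_one v hb hT)).trans_lt h2
  exact lt_irrefl _ (h3 ▸ h4)

/-- **The parameter.** -/
theorem exists_T (E1 E2 E3 : K[X]) (h1 : IsCoprime (E1 ^ 2 - 3 * E2) (E1 * E2 - 9 * E3))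
    (h2 : IsCoprime E2 E3) {S Sg : Set (HeightOneSpectrum R)} (hS : S.Finite) (hSg : Sg.Finite)
    (hE : ∀ v ∉ S, v.valuation K (E1.eval 0) ≤ 1 ∧ v.valuation K (E2.eval 0) ≤ 1 ∧
      v.valuation K (E3.eval 0) = 1 ∧
      ¬ (v.valuation K (E1.eval 0 ^ 2 - 3 * E2.eval 0) < 1 ∧
        v.valuation K (E1.eval 0 * E2.eval 0 - 9 * E3.eval 0) < 1))
    (τ τ' : HeightOneSpectrum R → ℤᵐ⁰) (hτ : ∀ v, τ v ≠ 0) :
    ∃ T : K, T ≠ 0 ∧ (∀ v ∈ S, v ∉ Sg → v.valuation K T < τ v) ∧
      (∀ v ∈ Sg, τ' v < v.valuation K T) ∧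
      ∀ v, v ∉ S → v ∉ Sg → v.valuation K T ≤ 1 ∧
        v.valuation K (E1.eval T) ≤ 1 ∧ v.valuation K (E2.eval T) ≤ 1 ∧
        v.valuation K (E3.eval T) ≤ 1 ∧
        ¬ (v.valuation K (E1.eval T ^ 2 - 3 * E2.eval T) < 1 ∧
          v.valuation K (E1.eval T * E2.eval T - 9 * E3.eval T) < 1) ∧
        ¬ (v.valuation K (E2.eval T) < 1 ∧ v.valuation K (E3.eval T) < 1) := by
  classical
  rcases isEmpty_or_nonempty (HeightOneSpectrum R) with hemp | ⟨⟨v1⟩⟩
  · exact ⟨1, one_ne_zero, fun v => isEmptyElim v, fun v => isEmptyElim v, fun v => isEmptyElim v⟩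
  obtain ⟨a, b, hab⟩ := h1
  obtain ⟨a', b', hab'⟩ := h2
  -- the bad places
  obtain ⟨S', hS'd⟩ : ∃ S' : Set (HeightOneSpectrum R), S' = ((((({v | ¬ ∀ n, v.valuation K
      (E1.coeff n) ≤ 1} ∪ {v | ¬ ∀ n, v.valuation K (E2.coeff n) ≤ 1}) ∪
      {v | ¬ ∀ n, v.valuation K (E3.coeff n) ≤ 1}) ∪ {v | ¬ ∀ n, v.valuation K (a.coeff n) ≤ 1}) ∪
      {v | ¬ ∀ n, v.valuation K (b.coeff n) ≤ 1}) ∪
      {v | ¬ ∀ n, v.valuation K (a'.coeff n) ≤ 1}) ∪
      {v | ¬ ∀ n, v.valuation K (b'.coeff n) ≤ 1} := ⟨_, rfl⟩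
  have hS'f : S'.Finite := by
    rw [hS'd]
    exact ((((((finite_coeff E1).union (finite_coeff E2)).union (finite_coeff E3)).union
      (finite_coeff a)).union (finite_coeff b)).union (finite_coeff a')).union (finite_coeff b')
  have hS' : ∀ v ∉ S', (∀ n, v.valuation K (E1.coeff n) ≤ 1) ∧
      (∀ n, v.valuation K (E2.coeff n) ≤ 1) ∧ (∀ n, v.valuation K (E3.coeff n) ≤ 1) ∧
      (∀ n, v.valuation K (a.coeff n) ≤ 1) ∧ (∀ n, v.valuation K (b.coeff n) ≤ 1) ∧
      (∀ n, v.valuation K (a'.coeff n) ≤ 1) ∧ (∀ n, v.valuation K (b'.coeff n) ≤ 1) := by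
    intro v hv
    rw [hS'd] at hv
    simp only [Set.mem_union, Set.mem_ofPred_eq, not_or, not_not] at hv
    obtain ⟨⟨⟨⟨⟨⟨g1, g2⟩, g3⟩, g4⟩, g5⟩, g6⟩, g7⟩ := hv
    exact ⟨g1, g2, g3, g4, g5, g6, g7⟩
  -- margins
  choose δ1 hδ1 hδ1' hn1 using fun v : HeightOneSpectrum R => exists_near_zero (v.valuation K) E1
  choose δ2 hδ2 hδ2' hn2 using fun v : HeightOneSpectrum R => exists_near_zero (v.valuation K) E2
  choose δ3 hδ3 hδ3' hn3 using fun v : HeightOneSpectrum R => exists_near_zero (v.valuation K) E3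
  choose δ4 hδ4 hδ4' hn4 using fun v : HeightOneSpectrum R =>
    exists_near_zero (v.valuation K) (E1 ^ 2 - 3 * E2)
  choose δ5 hδ5 hδ5' hn5 using fun v : HeightOneSpectrum R =>
    exists_near_zero (v.valuation K) (E1 * E2 - 9 * E3)
  obtain ⟨δ, hδd⟩ : ∃ δ : HeightOneSpectrum R → ℤᵐ⁰, δ = fun v =>
      min (τ v) (min (δ1 v) (min (δ2 v) (min (δ3 v) (min (δ4 v) (δ5 v))))) := ⟨_, rfl⟩
  have hmin : ∀ {x y : ℤᵐ⁰}, x ≠ 0 → y ≠ 0 → min x y ≠ 0 := fun {x y} hx hy => by
    rcases min_choice x y with h | h <;> rw [h] <;> assumption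
  have hδ : ∀ v, δ v ≠ 0 := fun v => by
    rw [hδd]
    exact hmin (hτ v) (hmin (hδ1 v) (hmin (hδ2 v) (hmin (hδ3 v) (hmin (hδ4 v) (hδ5 v)))))
  -- elements of given size
  have hsm : ∀ v : HeightOneSpectrum R, ∃ x : K, x ≠ 0 ∧ v.valuation K x < δ v := by
    intro v
    obtain ⟨c, hc0, hc⟩ := H321.Avoid.exists_small K {v} δ fun w _ => hδ w
    exact ⟨algebraMap R K c, (map_ne_zero_iff _ (IsFractionRing.injective R K)).mpr hc0,
      hc v (Finset.mem_singleton_self v)⟩
  have hbg : ∀ v : HeightOneSpectrum R, ∃ x : K, x ≠ 0 ∧ τ' v < v.valuation K x := by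
    intro v
    rcases eq_or_ne (τ' v) 0 with h0 | h0
    · exact ⟨1, one_ne_zero, by rw [h0, map_one]; exact zero_lt_one⟩
    · obtain ⟨c, hc0, hc⟩ := H321.Avoid.exists_small K {v} (fun w => if w = v then (τ' v)⁻¹ else 1)
        fun w _ => by
          split_ifs
          · exact inv_ne_zero h0
          · exact one_ne_zero
      have hc1 := hc v (Finset.mem_singleton_self v)
      rw [if_pos rfl] at hc1
      have hcK : algebraMap R K c ≠ 0 := (map_ne_zero_iff _ (IsFractionRing.injective R K)).mpr hc0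
      refine ⟨(algebraMap R K c)⁻¹, inv_ne_zero hcK, ?_⟩
      rw [map_inv₀]
      have h3 : 0 < v.valuation K (algebraMap R K c) :=
        zero_lt_iff.mpr ((Valuation.ne_zero_iff _).mpr hcK)
      rwa [lt_inv_comm₀ (zero_lt_iff.mpr h0) h3]
  choose xs hxs0 hxs using hsm
  choose xb hxb0 hxb using hbg
  obtain ⟨x, hxd⟩ : ∃ x : HeightOneSpectrum R → K, x = fun v => if v ∈ Sg then xb v else xs v :=
    ⟨_, rfl⟩
  have hx0 : ∀ v, x v ≠ 0 := fun v => by
    rw [hxd]
    dsimp only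
    split_ifs
    · exact hxb0 v
    · exact hxs0 v
  have hxSg : ∀ v ∈ Sg, x v = xb v := fun v hv => by rw [hxd]; exact if_pos hv
  have hxnSg : ∀ v ∉ Sg, x v = xs v := fun v hv => by rw [hxd]; exact if_neg hv
  obtain ⟨F, hFd⟩ : ∃ F : Finset (HeightOneSpectrum R),
      F = insert v1 (hS.toFinset ∪ hSg.toFinset ∪ hS'f.toFinset) := ⟨_, rfl⟩
  obtain ⟨T, hT1, hT2⟩ := H321.Avoid.approx F x (fun v => v.valuation K (x v)) fun v _ =>
    (Valuation.ne_zero_iff _).mpr (hx0 v)
  have hTF : ∀ v ∈ F, v.valuation K T = v.valuation K (x v) := by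
    intro v hv
    have e : T = x v + (T - x v) := by ring
    rw [e]
    exact Valuation.map_add_eq_of_lt_left _ (hT1 v hv)
  have hFS : ∀ v ∈ S, v ∈ F := fun v hv => by
    rw [hFd, Finset.mem_insert, Finset.mem_union, Finset.mem_union, hS.mem_toFinset]
    exact Or.inr (Or.inl (Or.inl hv))
  have hFSg : ∀ v ∈ Sg, v ∈ F := fun v hv => by
    rw [hFd, Finset.mem_insert, Finset.mem_union, Finset.mem_union, hSg.mem_toFinset]
    exact Or.inr (Or.inl (Or.inr hv))
  have hFS' : ∀ v ∈ S', v ∈ F := fun v hv => by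
    rw [hFd, Finset.mem_insert, Finset.mem_union, hS'f.mem_toFinset]
    exact Or.inr (Or.inr hv)
  have hFv1 : v1 ∈ F := by
    rw [hFd]
    exact Finset.mem_insert_self _ _
  have hsmall : ∀ v ∈ F, v ∉ Sg → v.valuation K T < δ v := by
    intro v hv hvg
    rw [hTF v hv, hxnSg v hvg]
    exact hxs v
  refine ⟨T, ?_, fun v hv hvg => ?_, fun v hv => ?_, fun v hv hvg => ?_⟩
  · rintro rfl
    have h3 := hTF v1 hFv1
    rw [map_zero] at h3
    exact (Valuation.ne_zero_iff _).mpr (hx0 v1) h3.symm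
  · refine (hsmall v (hFS v hv) hvg).trans_le ?_
    rw [hδd]
    exact min_le_left _ _
  · rw [hTF v (hFSg v hv), hxSg v hv]
    exact hxb v
  · by_cases hvF : v ∈ F
    · have h3 := hsmall v hvF hvg
      rw [hδd] at h3
      dsimp only at h3
      rw [lt_min_iff, lt_min_iff, lt_min_iff, lt_min_iff, lt_min_iff] at h3
      obtain ⟨-, g1, g2, g3, g4, g5⟩ := h3
      obtain ⟨e1, e2, e3, e4⟩ := hE v hv
      have k1 := hn1 v T g1
      have k2 := hn2 v T g2
      have k3 := hn3 v T g3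
      have k4 := hn4 v T g4
      have k5 := hn5 v T g5
      have hle : ∀ {p q : K}, v.valuation K (p - q) < 1 → v.valuation K q ≤ 1 →
          v.valuation K p ≤ 1 := fun {p q} h h' => by
        have e : p = (p - q) + q := by ring
        rw [e]
        exact (Valuation.map_add _ _ _).trans (max_le h.le h')
      have hlt : ∀ {p q : K}, v.valuation K (p - q) < 1 → v.valuation K p < 1 →
          v.valuation K q < 1 := fun {p q} h h' => by
        have e : q = p - (p - q) := by ring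
        rw [e]
        exact (Valuation.map_sub _ _ _).trans_lt (max_lt h' h)
      refine ⟨g1.le.trans (hδ1' v), hle k1 e1, hle k2 e2, hle k3 e3.le, fun h => ?_, fun h => ?_⟩
      · apply e4
        simp only [eval_sub, eval_mul, eval_pow, eval_ofNat] at k4 k5
        exact ⟨hlt k4 h.1, hlt k5 h.2⟩
      · exact absurd e3 (hlt k3 h.2).ne
    · have hTi := hT2 v hvF
      obtain ⟨g1, g2, g3, g4, g5, g6, g7⟩ := hS' v fun h => hvF (hFS' v h)
      refine ⟨hTi, eval_le_one _ g1 hTi, eval_le_one _ g2 hTi, eval_le_one _ g3 hTi, ?_, ?_⟩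
      · have h3 := not_both (v.valuation K) hab g4 g5 hTi
        simp only [eval_sub, eval_mul, eval_pow, eval_ofNat] at h3
        exact h3
      · exact not_both (v.valuation K) hab' g6 g7 hTi

end Vale.Agent.P011.H74.ExT
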