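import Vale.Agent.P011.H74.GTop
import Vale.Agent.P011.H74.CocK
import Vale.Agent.P011.H698.FG

/-!
# The levels in the unitary group of the base change, over function fields

`S` a finite set of places of the function field `k`, `q` in `S` a place where the algebra splits:
the elements of a small level (helper698's `FLv f B {q}`) are `S`-integral, and in
`unitary (BR B (KSF S))` they are close to one up to the subgroup `SL_n(k_q)`.
-/

open Module TensorProduct Topology Matrix

namespace Vale.Agent.P011.H74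

open Vale.Agent.P011.H738 Vale.Agent.P011.H271 Vale.Agent.P011.H698

set_option linter.unusedSectionVars false

section fac

variable {k : Type} [Field k] {S : Finset (Place k)}

/-- The factor `k_q` of `k_S`. -/
noncomputable def facS (q : S) : Fac k (KSF S) (q : Place k).comp where
  p := Pi.evalAlgHom k (fun v : S => (v : Place k).comp) q
  i := by
    classical
    exact LinearMap.single k (fun v : S => (v : Place k).comp) q
  p_cont := continuous_apply q
  i_cont := by
    classical
    exact continuous_single (A := fun v : S => (v : Place k).comp) q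
  p_i x := by
    classical
    exact Pi.single_eq_same (M := fun v : S => (v : Place k).comp) q x
  mul_i r x := by
    classical
    funext v
    change r v * (Pi.single q x : KSF S) v = (Pi.single q (r q * x) : KSF S) v
    by_cases h : v = q
    · subst h
      rw [Pi.single_eq_same, Pi.single_eq_same]
    · rw [Pi.single_eq_of_ne h, Pi.single_eq_of_ne h, mul_zero]

theorem facS_p (q : S) (r : KSF S) : (facS q).p r = r q := rfl

theorem facS_sub_self (q : S) (r : KSF S) : (r - (facS q).i ((facS q).p r)) q = 0 := by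
  classical
  change r q - (Pi.single q (r q) : KSF S) q = _
  rw [Pi.single_eq_same, sub_self]

theorem facS_sub_ne (q : S) (r : KSF S) {v : S} (h : v ≠ q) :
    (r - (facS q).i ((facS q).p r)) v = r v := by
  classical
  change r v - (Pi.single q (r q) : KSF S) v = _
  rw [Pi.single_eq_of_ne h, sub_zero]

/-- A neighbourhood of zero in `k_S` contains a box. -/
theorem exists_box [GFF k] {U : Set (KSF S)} (hU : U ∈ 𝓝 (0 : KSF S)) :
    ∃ ε : ℝ, 0 < ε ∧ ∀ r : KSF S, (∀ v, ‖r v‖ < ε) → r ∈ U := by
  rw [nhds_pi, Filter.mem_pi'] at hU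
  obtain ⟨I, U', hU', hI⟩ := hU
  have h1 : ∀ v : S, ∃ ε : ℝ, 0 < ε ∧ Metric.ball (0 : (v : Place k).comp) ε ⊆ U' v :=
    fun v => Metric.nhds_basis_ball.mem_iff.1 (hU' v)
  choose ε hε hεU using h1
  obtain ⟨ε', hε', hε''⟩ : ∃ ε' : ℝ, 0 < ε' ∧ ∀ v : S, ε' ≤ ε v := by
    by_cases hne : Nonempty S
    · obtain ⟨v0, hv0⟩ := Finite.exists_min ε
      exact ⟨ε v0, hε v0, hv0⟩
    · exact ⟨1, one_pos, fun v => absurd ⟨v⟩ hne⟩
  refine ⟨ε', hε', fun r hr => hI fun v _ => hεU v ?_⟩
  rw [mem_ball_zero_iff]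
  exact (hr v).trans_le (hε'' v)

end fac

section main

variable {k K A Ω : Type} [Field k] [GFF k] [Field K] [StarRing K] [Ring A] [StarRing A]
  [Algebra k K] [Algebra k A] [Algebra K A] [IsScalarTower k K A] [StarModule K A] {n N : ℕ}
  [Field Ω] [Algebra K Ω] {f : A →ₐ[K] Matrix (Fin n) (Fin n) Ω} {B : Basis (Fin N) k A}

/-- The split data at a place, from helper519's theorem. -/
noncomputable def mkSpl (hA : Anis k K A n) {F : Type*} [Field F] [Algebra k F]
    {g : A →+* Matrix (Fin n) (Fin n) F}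
    (hg : ∀ c : k, g (algebraMap k A c) = algebraMap F _ (algebraMap k F c))
    (hspan : Submodule.span F (Set.range fun x : A => (g x, (g (star x)).transpose)) = ⊤)
    (B : Basis (Fin N) k A) : Spl B F n where
  f := g
  hf := hg
  b' := (H519.basis_swap hA hg hspan B).choose
  hb := (H519.basis_swap hA hg hspan B).choose_spec

/-- A small level consists of integral elements. -/
theorem lv_le_order {S : Finset (Place k)} {q : Place k} (hq : q ∈ S) {Lam : Subring A}
    (H : IsOrdR B (OSF S) Lam) :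
    ∃ T : Finset (Place k), Big B T ∧ ∃ ε : ℝ, 0 < ε ∧ ε ≤ 1 ∧ ∀ x ∈ Lv B {q} T ε, x ∈ Lam := by
  classical
  obtain ⟨d, hd, hlo⟩ := H.lo
  obtain ⟨T, hT1, hT⟩ := exists_big B (place_finite hd).toFinset
  obtain ⟨ε, hε, hε1, hεT⟩ : ∃ ε : ℝ, 0 < ε ∧ ε ≤ 1 ∧ ∀ v ∈ T, ε ≤ v.abv d := by
    refine ⟨∏ v ∈ T, min 1 (v.abv d), Finset.prod_pos fun v _ => lt_min one_pos (v.abv.pos hd),
      Finset.prod_le_one (fun v _ => le_min zero_le_one (v.abv.nonneg _))
        (fun v _ => min_le_left _ _), fun v hv => ?_⟩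
    rw [← Finset.mul_prod_erase T _ hv]
    refine (mul_le_of_le_one_right (le_min zero_le_one (v.abv.nonneg _)) ?_).trans
      (min_le_right _ _)
    exact Finset.prod_le_one (fun v _ => le_min zero_le_one (v.abv.nonneg _))
        (fun v _ => min_le_left _ _)
  refine ⟨T, hT, ε, hε, hε1, ?_⟩
  rintro x ⟨hx1, hx2⟩
  have h1 : x - 1 = ∑ i, (d * (d⁻¹ * B.repr (x - 1) i)) • B i := by
    conv_lhs => rw [← B.sum_repr (x - 1)]
    exact Finset.sum_congr rfl fun i _ => by rw [mul_inv_cancel_left₀ hd]
  have h2 : x - 1 ∈ Lam := by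
    rw [h1]
    refine hlo _ fun i v hv => ?_
    have hvq : v ∉ ({q} : Set (Place k)) := fun h => hv (by
      rw [Set.mem_singleton_iff] at h
      rw [h]
      exact hq)
    rw [map_mul, map_inv₀, inv_mul_le_iff₀ (v.abv.pos hd), mul_one]
    by_cases hvT : v ∈ T
    · exact ((hx1 v hvT hvq) i).le.trans (hεT v hvT)
    · have h3 : v.abv d = 1 := by
        by_contra hcon
        exact hvT (hT1 ((place_finite hd).mem_toFinset.mpr hcon))
      rw [h3]
      exact ((hx2 v hvT hvq).sub (hT v hvT).one) i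
  have h3 := Lam.add_mem h2 Lam.one_mem
  rwa [sub_add_cancel] at h3

/-- **The bridge.**  Every neighbourhood of one in the unitary group of `k_S ⊗ A` contains the
elements of a level, up to `SL_n(k_q)`; they are integral. -/
theorem bridge_FF [StarLinR k A] (hA : Anis k K A n) (hn : n ≠ 0) {S : Finset (Place k)} (q : S)
    {φ : K →+* (q : Place k).comp} (s : Spl B (q : Place k).comp n)
    (hφ : ∀ c : K, s.f (algebraMap K A c) = algebraMap _ _ (φ c))
    {Lam : Subring A} (H : IsOrdR B (OSF S) Lam)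
    {O : Set (unitary (BR B (KSF S)))} (hO : O ∈ 𝓝 (1 : unitary (BR B (KSF S)))) :
    ∃ L ∈ FLv f B {(q : Place k)}, ∀ u ∈ L, u ∈ GA f ∧ (u : Aˣ) ∈ UL Lam ∧
      ((pr0 (facS q) s (iotaU B (KSF S) u) : GL (Fin n) (q : Place k).comp) :
        Matrix (Fin n) (Fin n) (q : Place k).comp).det = 1 ∧
      iotaU B (KSF S) u * (jG (facS q) s (pr0 (facS q) s (iotaU B (KSF S) u)))⁻¹ ∈ O := by
  classical
  obtain ⟨U, hU, hUO⟩ := off_near (facS q) s hO
  obtain ⟨ε, hε, hεU⟩ := exists_box hU
  obtain ⟨T, hT, ε', hε', hε1, hLam⟩ := lv_le_order q.2 H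
  have hbig : Big B (T ∪ S) := hT.mono Finset.subset_union_left
  refine ⟨_, level_mem (f := f) (S := {(q : Place k)}) hbig (ε := min ε ε') (lt_min hε hε')
    ((min_le_right _ _).trans hε1), ?_⟩
  rintro u ⟨hu, hu'⟩
  refine ⟨hu, ?_, ?_, hUO _ fun l => hεU _ fun v => ?_⟩
  · rw [mem_UL_iff H.star_mem]
    refine ⟨hLam _ (lv_mono Finset.subset_union_left hT (min_le_right _ _)
      ((min_le_right _ _).trans hε1) hu'), ua_mul_star u⟩
  · rw [pr0_iotaU]
    exact (det_eq_one_iff hA hn φ hφ f _).1 (mem_GA.1 hu)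
  · by_cases h : v = q
    · subst h
      rw [facS_sub_self, norm_zero]
      exact hε
    · rw [facS_sub_ne _ _ h, eqF_iotaU_sub]
      change ‖algebraMap k (v : Place k).comp _‖ < ε
      rw [norm_alg]
      refine (hu'.1 v (Finset.mem_union_right _ v.2) ?_ l).trans_le (min_le_left _ _)
      intro h'
      exact h (Subtype.ext h')

end main

end Vale.Agent.P011.H74
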