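import Vale.Agent.P011.H74.UprCos
import Vale.Agent.P011.H74.BridgeFF
import Vale.Agent.P011.H271.NeRing

/-!
# The upper bound for function fields from the bound for small cosets of symmetric elements
-/

set_option linter.unusedSectionVars false

open MeasureTheory Filter Topology Set Module
open scoped ENNReal NNReal

namespace Vale.Agent.P011.H74

open Vale.Agent.P011.H738 Vale.Agent.P011.H271 Vale.Agent.P011.H698
  Vale.Agent.P011.H271.NeRing

section ball

variable {k : Type} [Field k] [GFF k] {S : Finset (Place k)}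

/-- The unit ball of `k_S`, as a ring. -/
def ballSR (S : Finset (Place k)) : Subring (KSF S) where
  carrier := {r | ∀ v : S, ‖r v‖ ≤ 1}
  add_mem' := fun hx hy => (ballS S).add_mem hx hy
  zero_mem' := (ballS S).zero_mem
  neg_mem' := fun hx => (ballS S).neg_mem hx
  one_mem' := by
    intro v
    rw [Pi.one_apply, norm_one]
  mul_mem' := by
    intro x y hx hy v
    rw [Pi.mul_apply, norm_mul]
    exact mul_le_one₀ (hx v) (norm_nonneg _) (hy v)

theorem ballSR_open : IsOpen (ballSR S : Set (KSF S)) := ballS_open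

theorem ballSR_compact : IsCompact (ballSR S : Set (KSF S)) := ballS_compact

end ball

section dense

variable {k K A : Type} [Field k] [GFF k] [Field K] [StarRing K] [Ring A] [StarRing A]
  [Algebra k K] [Algebra k A] [Algebra K A] [IsScalarTower k K A] [StarModule K A] {n N : ℕ}
  (B : Basis (Fin N) k A)

/-- Neighbourhoods in the base change, by coordinates. -/
theorem exists_boxE [StarLinR k A] {S : Finset (Place k)} {g : BR B (KSF S)} {V : Set (BR B (KSF S))}
    (hV : V ∈ 𝓝 g) :
    ∃ ε : ℝ, 0 < ε ∧ ∀ e : BR B (KSF S), (∀ (v : S) (i : Fin N), ‖eqF B (KSF S) (e - g) i v‖ < ε) →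
      e ∈ V := by
  have hV0 : (fun z : BR B (KSF S) => z + g) ⁻¹' V ∈ 𝓝 (0 : BR B (KSF S)) := by
    refine (continuous_id.add continuous_const).continuousAt.preimage_mem_nhds ?_
    simpa using hV
  have hV1 : (bcrT B (KSF S)).φ.symm ⁻¹' ((fun z : BR B (KSF S) => z + g) ⁻¹' V) ∈
      𝓝 (0 : Fin N → KSF S) := by
    refine (bcrT B (KSF S)).φ.symm.continuous.continuousAt.preimage_mem_nhds ?_
    rw [map_zero]
    exact hV0
  rw [nhds_pi, Filter.mem_pi'] at hV1
  obtain ⟨I, U, hU, hI⟩ := hV1
  choose ε hε hεU using fun i => exists_box (hU i)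
  obtain ⟨ε', hε', hε''⟩ : ∃ ε' : ℝ, 0 < ε' ∧ ∀ i : Fin N, ε' ≤ ε i := by
    by_cases hne : Nonempty (Fin N)
    · obtain ⟨i0, hi0⟩ := Finite.exists_min ε
      exact ⟨ε i0, hε i0, hi0⟩
    · exact ⟨1, one_pos, fun i => absurd ⟨i⟩ hne⟩
  refine ⟨ε', hε', fun e he => ?_⟩
  have h1 : (bcrT B (KSF S)).φ (e - g) ∈
      (bcrT B (KSF S)).φ.symm ⁻¹' ((fun z : BR B (KSF S) => z + g) ⁻¹' V) :=
    hI fun i _ => hεU i _ fun v => (he v i).trans_le (hε'' i)
  rw [Set.mem_preimage, Set.mem_preimage, ContinuousLinearEquiv.symm_apply_apply,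
    sub_add_cancel] at h1
  exact h1

/-- **The unitary elements of `A` are dense in the unitary group of the base change.** -/
theorem dense_jUR [StarLinR k A] (hA : Anis k K A n) {S : Finset (Place k)} (hS : S.Nonempty)
    (g : unitary (BR B (KSF S))) {V : Set (unitary (BR B (KSF S)))} (hV : V ∈ 𝓝 g) :
    ∃ u : unitary A, jUR (bcrT B (KSF S)) u ∈ V := by
  classical
  have hinf : Infinite k := NeRing.infinite_of_placeR hS.choose
  obtain ⟨V', hV', hVV⟩ := mem_nhds_subtype _ _ _ |>.1 hV
  obtain ⟨ε, hε, hεV⟩ := exists_boxE B hV'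
  have hg1 : ((g : BR B (KSF S))) * star (g : BR B (KSF S)) = 1 := Unitary.mul_star_self_of_mem g.2
  have hg2 : star (g : BR B (KSF S)) * (g : BR B (KSF S)) = 1 := Unitary.star_mul_self_of_mem g.2
  obtain ⟨u, hu⟩ := weak_unitary hA B S (fun v => Pj B (facS v) (g : BR B (KSF S)))
    (fun v => by rw [← Pj_star, ← map_mul, hg1, map_one])
    (fun v => by rw [← Pj_star, ← map_mul, hg2, map_one]) hε
  refine ⟨uA u, hVV (hεV _ fun v i => ?_)⟩
  have h1 := hu v i
  have h2 : (bcrT B (v : Place k).comp).j ((u : Aˣ) : A) =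
      Pj B (facS v) ((bcrT B (KSF S)).j ((u : Aˣ) : A)) := by
    change tm B 1 _ = Pj B (facS v) (tm B 1 _)
    rw [Pj_tm, map_one]
  rw [h2, ← map_sub, eqF_Pj, facS_p] at h1
  exact h1

end dense

section main

variable {k K A : Type} [Field k] [GFF k] [Field K] [StarRing K] [Ring A] [StarRing A]
  [Algebra k K] [Algebra k A] [Algebra K A] [IsScalarTower k K A] [StarModule K A] {n N : ℕ}
  {B : Basis (Fin N) k A}

/-- The bound for the symmetric elements in small cosets, for all sufficiently large finite sets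
of places. -/
def CosF [StarLinR k A] (B : Basis (Fin N) k A) : Prop :=
  ∃ S₁ : Finset (Place k), ∀ S : Finset (Place k), S₁ ⊆ S → S.Nonempty →
    Cos (bcrT B (KSF S)) (ordO B (OSF S))

/-- **The upper bound for the unitary elements from the bound for the symmetric elements.** -/
theorem uprf_of_cos [StarLinR k A] (hA : Anis k K A n) (hcos : CosF B) (q : Place k) :
    UPRF B := by
  classical
  obtain ⟨w, hw⟩ := hA.star_ne
  have hw0 : w - star w ≠ 0 := sub_ne_zero.2 (Ne.symm hw)
  obtain ⟨S₁, h1⟩ := hcos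
  obtain ⟨S₂, hS₂, hmem⟩ := exists_SFR B
    ({w • (1 : A), (w - star w)⁻¹ • (1 : A)} : Finset A) (S₁ ∪ {q})
  refine ⟨S₂, fun S hS _ _ μ _ => ?_⟩
  have hSne : S.Nonempty := ⟨q, hS (hS₂ (Finset.mem_union_right _ (Finset.mem_singleton_self q)))⟩
  have hLam := hmem S hS
  have hct := countable_A B
  have hKn := KSF_nontrivial hSne
  have hG := H380.UpBC.good_KSF hSne
  have hcosS := h1 S (fun v hv => hS (hS₂ (Finset.mem_union_left _ hv))) hSne
  have hst : star w • (1 : A) = star (w • (1 : A)) := by rw [star_smul, star_one]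
  have hfd : Module.Finite k A := Module.Finite.of_basis B
  refine upr_of_cos (bcrT B (KSF S)) hG ballSR_open ballSR_compact (isOrdR_SR B hSne)
    (cocU hA hSne) (w := w • (1 : A)) (ε := (w - star w)⁻¹ • (1 : A)) (fun x => ?_)
    (hLam _ (by simp)) (hLam _ (by simp)) ?_ ?_ (fun g V hV => dense_jUR B hA hSne g hV) uA
    uA_injective μ hcosS
  · rw [smul_one_mul, mul_smul_comm, mul_one]
  · rw [← hst, ← sub_smul, smul_one_mul, smul_smul, inv_mul_cancel₀ hw0, one_smul]
  · have hw1 : star w ≠ 0 := by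
      intro h0
      apply hw
      rw [h0, eq_comm]
      exact star_eq_zero.1 h0
    have hw2 : w ≠ 0 := fun h0 => hw1 (by rw [h0, star_zero])
    have hz : star (w / star w) = star w / w := by rw [star_div₀, star_star]
    refine ⟨(w / star w) • 1, ?_, ?_, ?_⟩
    · rw [star_smul, star_one, smul_one_mul, smul_smul, hz, div_mul_div_comm, mul_comm w,
        div_self (mul_ne_zero hw1 hw2), one_smul]
    · rw [star_smul, star_one, smul_one_mul, smul_smul, hz, div_mul_div_comm, mul_comm w,
        div_self (mul_ne_zero hw1 hw2), one_smul]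
    · have h2 : (w / star w) • (1 : A) - 1 = algebraMap K A ((w - star w) / star w) := by
        rw [Algebra.algebraMap_eq_smul_one, sub_div, div_self hw1, sub_smul, one_smul]
      rw [h2]
      exact (IsUnit.mk0 _ (div_ne_zero hw0 hw1)).map (algebraMap K A)

end main

end Vale.Agent.P011.H74
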