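import Vale.Agent.P011.H74.UprLoc

/-!
# Weights of the unitary elements in small cosets
-/

set_option linter.unusedSectionVars false

open MeasureTheory Filter Topology Set Module
open scoped ENNReal NNReal Pointwise CompactlySupported

namespace Vale.Agent.P011.H74

open Vale.Agent.P011.H380.UpBC Vale.Agent.P011.H380.UnitsTop

section defs

variable {k R A E ι : Type*} [Field k] [CommRing R] [TopologicalSpace R]
  [Algebra k R] [Ring A] [StarRing A] [Algebra k A] [Ring E] [StarRing E] [TopologicalSpace E]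
  [IsTopologicalRing E] [Algebra R E] [Fintype ι] [DecidableEq ι] (B : BCR k R A E ι)

/-- The number of small cosets of the symmetric elements modulo the order. -/
noncomputable def cosI (Lam : Subring A) (W : AddSubgroup E) : ℕ :=
  ((Lam.toAddSubgroup ⊓ selfAdjoint A) ⊔
    (W.comap (B.j : A →+ E) ⊓ selfAdjoint A)).relIndex (selfAdjoint A)

/-- The upper bound for the symmetric elements in small cosets. -/
def Cos (Lam : Subring A) : Prop :=
  ∃ C : ℝ, ∃ U0 ∈ 𝓝 (0 : E), ∀ W : AddSubgroup E, IsOpen (W : Set E) → (W : Set E) ⊆ U0 →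
    ∀ ε : ℝ, 0 < ε → ∀ᶠ x : ℝ in 𝓝[>] 1, ∀ F : Finset A, (∀ s ∈ F, star s = s) →
      (∀ s ∈ F, ∀ t ∈ F, B.j (s - t) ∈ W) →
      (x - 1) * ∑ s ∈ F, (H699.den Lam s : ℝ) ^ (-x) ≤ C / cosI B Lam W + ε

end defs

section

variable {k R A E ι : Type*} [Field k] [CommRing R] [TopologicalSpace R] [IsTopologicalRing R]
  [Algebra k R] [Ring A] [StarRing A] [Algebra k A] [Ring E] [StarRing E] [TopologicalSpace E]
  [IsTopologicalRing E] [Algebra R E] [Fintype ι] [DecidableEq ι] (B : BCR k R A E ι)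
  [Nontrivial R] [LocallyCompactSpace R] [T2Space R] [SecondCountableTopology R]

omit [LocallyCompactSpace R] [T2Space R] [SecondCountableTopology R] [IsTopologicalRing R]
  [IsTopologicalRing E] in
theorem isUnit_of_j {x : A} (h : IsUnit (B.j x)) : IsUnit x := by
  have hfd : Module.Finite k A := Module.Finite.of_basis B.a
  refine H973.Rg.isUnit_of_regular (k := k) fun z hz => ?_
  apply B.j_inj
  rw [map_zero]
  refine h.mul_left_cancel ?_
  rw [← map_mul, hz, map_zero, mul_zero]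

/-- The denominator of the inverse Cayley transform. -/
theorem den_icay_le {O : Subring k} (hG : Good k R O) {Lam : Subring A} [Countable Lam]
    (H : IsOrdR B.a O Lam) {w ε : A} (hwL : w ∈ Lam) (hεL : ε ∈ Lam)
    (hε : ε * (w - star w) = 1) (hε' : (w - star w) * ε = 1) (z u : A) {N : Set (unitary E)}
    (hN : IsCompact N) (hNu : ∀ g ∈ N, IsUnit (B.j z * (g : E) * B.j u - 1)) :
    ∃ C : ℝ, 1 ≤ C ∧ ∀ (y : A) (g : unitary E), g ∈ N → B.j y = g →
      (H699.den Lam (icay w (z * y * u)) : ℝ) ≤ C * H699.den Lam y := by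
  have := B.continuousStar
  have := B.t2
  have := B.locallyCompact
  let _ : MeasurableSpace E := borel E
  have : BorelSpace E := ⟨rfl⟩
  have hΛ := H973.Rg.lring B hG.disc hG.coc H
  have hden : ∀ s : A, H699.den Lam s ≠ 0 :=
    H973.Rg.den_ne_zero B hG.disc hG.coc hG.frac H
  have hK : IsCompact ((fun g : unitary E => B.j ε * (B.j z * (g : E) * B.j u - 1)) '' N) :=
    hN.image (by fun_prop)
  obtain ⟨C, hC⟩ := H973.mod_le (E := E) hK
  set C' : ℝ := (C : ℝ) * (H699.den Lam z * H699.den Lam u) with hC'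
  refine ⟨max 1 C', le_max_left _ _, fun y g hg hy => ?_⟩
  set v : A := z * y * u with hv
  have hjv : B.j v = B.j z * (g : E) * B.j u := by rw [hv, map_mul, map_mul, hy]
  have hu : IsUnit (v - 1) := by
    apply isUnit_of_j B
    rw [map_sub, map_one, hjv]
    exact hNu g hg
  -- the unit `s - w`
  have h1 : (icay w v - w) * (ε * (v - 1)) = 1 := by
    rw [icay_sub, mul_assoc, ← mul_assoc (w - star w), hε', one_mul,
      Ring.inverse_mul_cancel _ hu]
  have h2 : (ε * (v - 1)) * (icay w v - w) = 1 := by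
    rw [icay_sub, mul_assoc, ← mul_assoc (v - 1), Ring.mul_inverse_cancel _ hu, one_mul, hε]
  let d : Eˣ := ⟨B.j (icay w v - w), B.j (ε * (v - 1)), by rw [← map_mul, h1, map_one],
    by rw [← map_mul, h2, map_one]⟩
  have hd : (d : E) = B.j (icay w v) - B.j w := map_sub B.j _ _
  have h3 := H699.den_cay (Λ := Lam.map B.j) hΛ (s := B.j (icay w v)) (w := B.j v)
    (θ := B.j w) (θ' := B.j (star w)) (ε := B.j ε) ⟨w, hwL, rfl⟩ ⟨star w, H.star_mem w hwL, rfl⟩
    ⟨ε, hεL, rfl⟩ (by rw [← map_sub, ← map_mul, hε, map_one])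
    (by rw [H699.den_map B.j B.j_inj]; exact hden _)
    (by rw [H699.den_map B.j B.j_inj]; exact hden _) d hd
    (by rw [← map_sub, ← map_mul, mul_icay hu, map_sub])
  rw [H699.den_map B.j B.j_inj, H699.den_map B.j B.j_inj] at h3
  have h4 : distribHaarChar E d⁻¹ ≤ C := by
    refine hC d⁻¹ ⟨g, hg, ?_⟩
    change B.j ε * (B.j z * (g : E) * B.j u - 1) = B.j (ε * (v - 1))
    rw [map_mul, map_sub, map_one, hjv]
  have h5 : (H699.den Lam (icay w v) : ℝ≥0) ≤ C * H699.den Lam v := by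
    have h6 : distribHaarChar E d⁻¹ * distribHaarChar E d = 1 := by
      rw [← map_mul, inv_mul_cancel, map_one]
    calc (H699.den Lam (icay w v) : ℝ≥0) =
        distribHaarChar E d⁻¹ * (H699.den Lam (icay w v) * distribHaarChar E d) := by
          rw [mul_left_comm, h6, mul_one]
      _ = distribHaarChar E d⁻¹ * H699.den Lam v := by rw [← h3]
      _ ≤ C * H699.den Lam v := by gcongr
  have h7 : H699.den Lam v ≤ H699.den Lam z * H699.den Lam y * H699.den Lam u :=
    (H973.Rg.den_mul_le (hden _) (hden _)).trans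
      (Nat.mul_le_mul_right _ (H973.Rg.den_mul_le (hden _) (hden _)))
  have h8 : (H699.den Lam (icay w v) : ℝ) ≤ C * H699.den Lam v := by exact_mod_cast h5
  have h9 : (H699.den Lam v : ℝ) ≤ H699.den Lam z * H699.den Lam y * H699.den Lam u := by
    exact_mod_cast h7
  calc (H699.den Lam (icay w v) : ℝ) ≤ C * H699.den Lam v := h8
    _ ≤ C * (H699.den Lam z * H699.den Lam y * H699.den Lam u) := by gcongr
    _ = C' * H699.den Lam y := by rw [hC']; ring
    _ ≤ max 1 C' * H699.den Lam y := by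
        gcongr
        exact le_max_right _ _

/-- The order has no small nonzero element. -/
theorem exists_small {O : Subring k} (hG : Good k R O) {Lam : Subring A}
    (H : IsOrdR B.a O Lam) (Z : Cells E) : ∃ m₀, ∀ l ∈ Lam, B.j l ∈ Z.I m₀ → l = 0 := by
  have := B.t2
  have hfin := B.disc hG.disc H (Z.I 0) (Z.comp 0)
  have hF : (B.j '' ({x : A | x ∈ Lam ∧ B.j x ∈ (Z.I 0 : Set E)} \ {0})).Finite :=
    (hfin.subset sdiff_subset).image _
  have hW : (B.j '' ({x : A | x ∈ Lam ∧ B.j x ∈ (Z.I 0 : Set E)} \ {0}))ᶜ ∈ 𝓝 (0 : E) := by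
    refine hF.isClosed.isOpen_compl.mem_nhds ?_
    rintro ⟨x, ⟨_, hx⟩, h0⟩
    exact hx (B.j_inj (by rw [h0, map_zero]))
  obtain ⟨m, hm⟩ := Z.basis _ hW
  refine ⟨m, fun l hl hlm => ?_⟩
  by_contra h0
  exact hm hlm ⟨l, ⟨⟨hl, Z.anti (Nat.zero_le m) hlm⟩, h0⟩, rfl⟩

/-- Distinct small cosets contain distinct points. -/
theorem exists_points (Z : Cells E)
    (hdense : ∀ g : unitary E, ∀ V ∈ 𝓝 g, ∃ u : unitary A, jUR B u ∈ V)
    [MeasurableSpace (unitary E)] [BorelSpace (unitary E)] (μ : Measure (unitary E))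
    [μ.IsMulRightInvariant] (m₂ m : ℕ) (g₀ : unitary E) :
    ∃ T : Finset (unitary A), (∀ y ∈ T, ∃ t ∈ cst Z m₂ g₀, jUR B y ∈ cst Z m t) ∧
      (∀ y ∈ T, ∀ y' ∈ T, jUR B y' ∈ cst Z m (jUR B y) → y = y') ∧
      μ (HU Z m₂ : Set (unitary E)) ≤ T.card * μ (HU Z m : Set (unitary E)) := by
  classical
  have := B.continuousStar
  have := B.t2
  have := B.locallyCompact
  have hcst : ∀ (m : ℕ) (g : unitary E), μ (cst Z m g) = μ (HU Z m : Set (unitary E)) :=
    fun m g => measure_preimage_mul_right μ g⁻¹ _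
  have hc : IsCompact (cst Z m₂ g₀) := by
    have h1 : IsCompact ((fun x : E => x * (g₀ : E) + g₀) '' (Z.I m₂ : Set E)) :=
      (Z.comp m₂).image (by fun_prop)
    have h2 := (isClosed_unitary E).isClosedEmbedding_subtypeVal.isCompact_preimage h1
    refine h2.of_isClosed_subset ?_ ?_
    · have h3 : IsClosed (Z.I m₂ : Set E) := AddSubgroup.isClosed_of_isOpen _ (Z.op m₂)
      exact h3.preimage (f := fun g : unitary E => ((g * g₀⁻¹ : unitary E) : E) - 1) (by fun_prop)
    · intro g hg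
      refine ⟨((g * g₀⁻¹ : unitary E) : E) - 1, hg, ?_⟩
      simp only
      rw [sub_mul, one_mul, ← Submonoid.coe_mul, inv_mul_cancel_right, sub_add_cancel]
  obtain ⟨ts, hts, hcov⟩ := hc.elim_nhds_subcover (fun t => cst Z m t)
    (fun t _ => (isOpen_cst Z m t).mem_nhds (self_mem_cst Z m t))
  set Cs : Finset (Set (unitary E)) := ts.image fun t => cst Z m t with hCs
  have hy : ∀ c : Set (unitary E), ∃ y : unitary A, c ∈ Cs → jUR B y ∈ c := by
    intro c
    by_cases hcC : c ∈ Cs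
    · obtain ⟨t, ht, rfl⟩ := Finset.mem_image.1 hcC
      obtain ⟨y, hy⟩ := hdense t _ ((isOpen_cst Z m t).mem_nhds (self_mem_cst Z m t))
      exact ⟨y, fun _ => hy⟩
    · exact ⟨1, fun h => absurd h hcC⟩
  choose y hy using hy
  have hCeq : ∀ c ∈ Cs, cst Z m (jUR B (y c)) = c := by
    intro c hcC
    have h1 := hy c hcC
    obtain ⟨t, ht, rfl⟩ := Finset.mem_image.1 hcC
    exact cst_eq Z h1
  refine ⟨Cs.image y, ?_, ?_, ?_⟩
  · intro a ha
    obtain ⟨c, hcC, rfl⟩ := Finset.mem_image.1 ha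
    have h1 := hy c hcC
    obtain ⟨t, ht, rfl⟩ := Finset.mem_image.1 hcC
    exact ⟨t, hts t ht, h1⟩
  · intro a ha a' ha' h
    obtain ⟨c, hcC, rfl⟩ := Finset.mem_image.1 ha
    obtain ⟨c', hcC', rfl⟩ := Finset.mem_image.1 ha'
    have h1 := cst_eq Z h
    rw [hCeq c hcC, hCeq c' hcC'] at h1
    rw [h1]
  · calc μ (HU Z m₂ : Set (unitary E)) = μ (cst Z m₂ g₀) := (hcst m₂ g₀).symm
      _ ≤ μ (⋃ a ∈ Cs.image y, cst Z m (jUR B a)) := by
          refine measure_mono fun g hg => ?_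
          obtain ⟨t, ht, hgt⟩ := mem_iUnion₂.1 (hcov hg)
          have h1 : cst Z m t ∈ Cs := Finset.mem_image_of_mem _ ht
          refine mem_iUnion₂.2 ⟨y (cst Z m t), Finset.mem_image_of_mem _ h1, ?_⟩
          rw [hCeq _ h1]
          exact hgt
      _ ≤ ∑ a ∈ Cs.image y, μ (cst Z m (jUR B a)) := measure_biUnion_finset_le _ _
      _ = (Cs.image y).card * μ (HU Z m : Set (unitary E)) := by
          rw [Finset.sum_congr rfl fun a _ => hcst m _, Finset.sum_const, nsmul_eq_mul]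

omit [Nontrivial R] [LocallyCompactSpace R] [T2Space R] [SecondCountableTopology R] in
/-- Points in one coset of `HU m''`, in distinct cosets of `HU (m'' + c)`. -/
theorem card_le_idx (Z : Cells E) {c K : ℕ}
    (hK : ∀ m, (Z.I (m + c)).relIndex (Z.I m) ≠ 0 ∧ (Z.I (m + c)).relIndex (Z.I m) ≤ K)
    (m : ℕ) (T : Finset (unitary A)) (g : unitary E) (hT : ∀ y ∈ T, jUR B y ∈ cst Z m g)
    (hsep : ∀ y ∈ T, ∀ y' ∈ T, jUR B y' ∈ cst Z (m + c) (jUR B y) → y = y') :
    T.card ≤ K := by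
  classical
  obtain ⟨h0, hle⟩ := hK m
  set Q := (Z.I m) ⧸ (Z.I (m + c)).addSubgroupOf (Z.I m) with hQ
  have hfi : ((Z.I (m + c)).addSubgroupOf (Z.I m)).FiniteIndex := ⟨h0⟩
  have hfin : Finite Q := AddSubgroup.finite_quotient_of_finiteIndex
  have hcard : Nat.card Q ≤ K := hle
  let x : unitary A → E := fun y => ((jUR B y * g⁻¹ : unitary E) : E) - 1
  have hx : ∀ y ∈ T, x y ∈ Z.I m := fun y hy => hT y hy
  let f : T → Q := fun y => QuotientAddGroup.mk ⟨x y, hx y y.2⟩
  have hf : Function.Injective f := by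
    intro y y' hyy
    have h1 := QuotientAddGroup.eq.1 hyy
    rw [AddSubgroup.mem_addSubgroupOf] at h1
    have h2 : -x y + x y' ∈ Z.I (m + c) := h1
    apply Subtype.ext
    refine hsep y y.2 y' y'.2 ?_
    rw [mem_cst, mem_HU]
    have h3 : ((jUR B y' * (jUR B y)⁻¹ : unitary E) : E) - 1 = (-x y + x y') +
        (-x y + x y') * (((jUR B y * g⁻¹ : unitary E)⁻¹ : unitary E) - 1 : E) := by
      have h4 : (-x y + x y') = ((jUR B y' * g⁻¹ : unitary E) : E) -
          ((jUR B y * g⁻¹ : unitary E) : E) := by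
        simp only [x]
        abel
      rw [h4, mul_sub, mul_one, add_sub_cancel, sub_mul, ← Submonoid.coe_mul,
        ← Submonoid.coe_mul, mul_inv_cancel, mul_inv_rev, inv_inv, mul_assoc,
        inv_mul_cancel_left]
      rfl
    rw [h3]
    refine (Z.I (m + c)).add_mem h2 (Z.mul _ _ _ h2 ?_)
    have h5 : (jUR B y * g⁻¹ : unitary E)⁻¹ ∈ HU Z m := (HU Z m).inv_mem (hT y y.2)
    exact Z.anti (Nat.zero_le m) h5
  have := Nat.card_le_card_of_injective f hf
  rw [Nat.card_eq_fintype_card, Fintype.card_coe] at this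
  exact this.trans hcard

end

end Vale.Agent.P011.H74
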