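import Vale.Agent.P011.H74.LowGen
import Vale.Agent.P011.H544.SInt
import Vale.Agent.P011.H544.Ord
import Vale.Agent.P011.Even.Defs

/-!
# Lower bound of the height zeta function over number fields

The height zeta function of the symmetric elements modulo the order `ordO B (OS k S)` is at least
`c / (x - 1)`.
-/

open Module IsDedekindDomain HeightOneSpectrum Filter Topology NumberField

namespace Vale.Agent.P011.H74

open Vale.Agent.P011.H544 Vale.Agent.P011.H271

section low

variable {k K D : Type} [Field k] [NumberField k] [Field K] [StarRing K] [DivisionRing D]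
  [StarRing D] [Algebra k K] [Algebra k D] [Algebra K D] [IsScalarTower k K D] {d : kˣ} {s : K}
  {n N : ℕ}

/-- **Lower bound of the height zeta function of the symmetric elements over number fields.** -/
theorem exists_low_NF (hS : Even.Setting k K D d s) (hn : n ≠ 0) (hdeg : finrank K D = n ^ 2)
    (B : Basis (Fin N) k D) (S : Finset (HeightOneSpectrum (𝓞 k))) :
    ∃ c : ℝ, 0 < c ∧ ∀ᶠ x : ℝ in 𝓝[>] 1, ∃ T : Finset D, (∀ s ∈ T, star s = s) ∧
      (∀ s ∈ T, ∀ t ∈ T, s - t ∈ H544.ordO B (OS k S) → s = t) ∧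
      (∀ s ∈ T, H699.den (H544.ordO B (OS k S)) s ≠ 0) ∧
      c / (x - 1) ≤ ∑ s ∈ T, (H699.den (H544.ordO B (OS k S)) s : ℝ) ^ (-x) := by
  classical
  have hk : ∀ c : k, star (algebraMap k K c) = algebraMap k K c := fun c =>
    (hS.fix _).2 ⟨c, rfl⟩
  have hst : ∀ (c : k) (x : D), star (c • x) = c • star x := fun c x => by
    rw [← algebraMap_smul K c, hS.star_smul, hk, algebraMap_smul]
  have hSL : StarLinR k D := ⟨hst⟩
  have hK0 : CharZero K := charZero_of_injective_algebraMap (algebraMap k K).injective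
  have := hS.cen
  have hO : ∀ r : 𝓞 k, algebraMap (𝓞 k) k r ∈ OS k S := fun r v _ => valuation_le_one v r
  set B₁ : Set (HeightOneSpectrum (𝓞 k)) := (S : Set (HeightOneSpectrum (𝓞 k))) with hB₁
  have hint : ∀ w : HeightOneSpectrum (𝓞 k), w ∉ B₁ → ∀ z ∈ OS k S, z ∈ hosV k w := by
    intro w hw z hz
    exact hz w fun h => hw (Finset.mem_coe.2 h)
  have hOO : ordA B (imR (𝓞 k) k) mem_imR ≤ ordA B (OS k S) hO := by
    have h1 : imR (𝓞 k) k ≤ OS k S := by
      rintro _ ⟨r, rfl⟩
      exact hO r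
    intro x hx
    exact ordO_mono B h1 hx
  have hstO : ∀ x ∈ ordA B (imR (𝓞 k) k) mem_imR,
      star x ∈ ordA B (imR (𝓞 k) k) mem_imR := by
    rintro x ⟨h1, h2⟩
    exact ⟨h2, by rwa [star_star]⟩
  have hsk : ∀ c : k, star (algebraMap k D c) = algebraMap k D c := fun c => by
    rw [Algebra.algebraMap_eq_smul_one, hst, star_one]
  have hne : ∃ z : K, star (algebraMap K D z) ≠ algebraMap K D z := by
    refine ⟨s, fun h => ?_⟩
    rw [Algebra.algebraMap_eq_smul_one, hS.star_smul, star_one, hS.star_s, neg_smul] at h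
    have h1 : s • (1 : D) = 0 := by
      have h2 : (2 : K) • (s • (1 : D)) = 0 := by
        rw [two_smul]
        nth_rewrite 1 [← h]
        rw [neg_add_cancel]
      exact (smul_eq_zero.1 h2).resolve_left two_ne_zero
    have h3 : s = 0 := (smul_eq_zero.1 h1).resolve_right one_ne_zero
    have h4 := hS.sq
    rw [h3, zero_pow two_ne_zero] at h4
    exact (map_ne_zero (algebraMap k K)).2 d.ne_zero h4.symm
  obtain ⟨c, hc, h⟩ := H973.exists_low_loc (K := K) (H973.hasEuler_ringOfIntegers k)
    hS.rank hsk hne hn hdeg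
    (O := ordA B (imR (𝓞 k) k) mem_imR) hstO (ordA_fg B) (ordA_frac B)
    (O' := ordA B (OS k S) hO) hOO (ordA_loc B hO hint) (Finset.finite_toSet S) (fun t ht => ht)
  refine ⟨c, hc, ?_⟩
  filter_upwards [h] with x hx
  obtain ⟨T, h1, h2, -, h4, h5⟩ := hx
  exact ⟨T, h1, fun s hs t ht hst => h2 s hs t ht hst, h4, h5⟩

end low

end Vale.Agent.P011.H74
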