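import Vale.Agent.P011.H74.BCR
import Vale.Agent.P011.H83.Contr

/-!
# A scale of small open subgroups in the base change of an algebra with involution

`R` has an open compact subring and a contracting unit.
-/

set_option linter.unusedSectionVars false

open Filter Topology Set
open scoped Pointwise

namespace Vale.Agent.P011.H74

/-- A scale of small open compact subgroups of a ring with involution. -/
structure Cells (E : Type*) [Ring E] [StarRing E] [TopologicalSpace E] where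
  /-- the subgroups -/
  I : ℕ → AddSubgroup E
  op : ∀ m, IsOpen (I m : Set E)
  comp : ∀ m, IsCompact (I m : Set E)
  anti : Antitone I
  basis : ∀ W ∈ 𝓝 (0 : E), ∃ m, (I m : Set E) ⊆ W
  mul : ∀ m x y, x ∈ I m → y ∈ I 0 → x * y ∈ I m
  star : ∀ m x, x ∈ I m → Star.star x ∈ I m
  bd : ∀ C C' : Set E, IsCompact C → IsCompact C' → ∃ c, ∀ m, ∀ a ∈ C, ∀ b ∈ C', ∀ x ∈ I (m + c),
    a * x * b ∈ I m
  idx : ∀ c, ∃ K : ℕ, ∀ m, (I (m + c)).relIndex (I m) ≠ 0 ∧ (I (m + c)).relIndex (I m) ≤ K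

section absorb

variable {R E : Type*} [CommRing R] [TopologicalSpace R] [Ring E] [TopologicalSpace E]
  [Algebra R E] [ContinuousSMul R E]

/-- A compact set is absorbed. -/
theorem eventually_absorb {r : R} (hr : Tendsto (fun k : ℕ => r ^ k) atTop (𝓝 0)) {K : Set E}
    (hK : IsCompact K) {W : Set E} (hW : W ∈ 𝓝 (0 : E)) :
    ∀ᶠ k : ℕ in atTop, ∀ x ∈ K, r ^ k • x ∈ W := by
  have h1 : ∀ᶠ ρ in 𝓝 (0 : R), ∀ x ∈ K, ρ • x ∈ W := by
    refine hK.eventually_forall_of_forall_eventually (x₀ := (0 : R))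
      (P := fun ρ x => ρ • x ∈ W) fun x _ => ?_
    have hc : Continuous fun z : R × E => z.1 • z.2 := continuous_smul
    have h0 : W ∈ 𝓝 ((0 : R) • x) := by rwa [zero_smul]
    exact (hc.continuousAt (x := ((0 : R), x))).eventually h0
  exact hr.eventually h1

end absorb

namespace BCR

variable {k R A E ι : Type*} [Field k] [CommRing R] [TopologicalSpace R] [IsTopologicalRing R]
  [Algebra k R] [Ring A] [StarRing A] [Algebra k A] [Ring E] [StarRing E]
  [TopologicalSpace E] [IsTopologicalRing E] [Algebra R E] [Fintype ι] [DecidableEq ι]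
  (B : BCR k R A E ι)

include B in
theorem continuousSMul : ContinuousSMul R E := by
  refine ⟨?_⟩
  have h : (fun p : R × E ↦ p.1 • p.2) = fun p : R × E ↦ B.φ.symm (p.1 • B.φ p.2) := by
    funext p
    rw [← map_smul, ContinuousLinearEquiv.symm_apply_apply]
  rw [h]
  have h1 := B.φ.continuous
  have h2 := B.φ.symm.continuous
  fun_prop

/-- The lattice of the elements with coordinates in `R0`. -/
def latR (R0 : Subring R) : AddSubgroup E where
  carrier := {x | ∀ i, B.φ x i ∈ R0}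
  zero_mem' := fun i => by rw [map_zero]; exact R0.zero_mem
  add_mem' := fun {x y} hx hy i => by rw [map_add]; exact R0.add_mem (hx i) (hy i)
  neg_mem' := fun {x} hx i => by rw [map_neg]; exact R0.neg_mem (hx i)

theorem mem_latR {R0 : Subring R} {x : E} : x ∈ B.latR R0 ↔ ∀ i, B.φ x i ∈ R0 := Iff.rfl

theorem isOpen_latR {R0 : Subring R} (h : IsOpen (R0 : Set R)) :
    IsOpen (B.latR R0 : Set E) := by
  have h1 : (B.latR R0 : Set E) = B.φ ⁻¹' (Set.pi Set.univ fun _ => (R0 : Set R)) := by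
    ext x
    simp only [SetLike.mem_coe, mem_latR, mem_preimage, Set.mem_univ_pi]
  rw [h1]
  exact (isOpen_set_pi Set.finite_univ fun _ _ => h).preimage B.φ.continuous

theorem isCompact_latR {R0 : Subring R} (h : IsCompact (R0 : Set R)) :
    IsCompact (B.latR R0 : Set E) := by
  have h1 : (B.latR R0 : Set E) = B.φ.symm '' (Set.pi Set.univ fun _ => (R0 : Set R)) := by
    ext x
    simp only [SetLike.mem_coe, mem_latR, mem_image, Set.mem_univ_pi]
    constructor
    · intro hx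
      exact ⟨B.φ x, hx, B.φ.symm_apply_apply x⟩
    · rintro ⟨y, hy, rfl⟩ i
      rw [ContinuousLinearEquiv.apply_symm_apply]
      exact hy i
  rw [h1]
  exact (isCompact_univ_pi fun _ => h).image B.φ.symm.continuous

theorem smul_latR {R0 : Subring R} {r : R} (hr : r ∈ R0) {x : E} (hx : x ∈ B.latR R0) :
    r • x ∈ B.latR R0 := by
  intro i
  rw [map_smul]
  exact R0.mul_mem hr (hx i)

end BCR

section scale

variable {R E : Type*} [CommRing R] [TopologicalSpace R] [Ring E] [StarRing E]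
  [TopologicalSpace E] [IsTopologicalRing E] [ContinuousStar E] [T2Space E] [Algebra R E]
  [ContinuousSMul R E]

/-- The subgroup `u L`. -/
def scl (u : Rˣ) (L : AddSubgroup E) : AddSubgroup E where
  carrier := {x | ((u⁻¹ : Rˣ) : R) • x ∈ L}
  zero_mem' := by
    change ((u⁻¹ : Rˣ) : R) • (0 : E) ∈ L
    rw [smul_zero]
    exact L.zero_mem
  add_mem' := fun {x y} hx hy => by
    change ((u⁻¹ : Rˣ) : R) • (x + y) ∈ L
    rw [smul_add]
    exact L.add_mem hx hy
  neg_mem' := fun {x} hx => by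
    change ((u⁻¹ : Rˣ) : R) • (-x) ∈ L
    rw [smul_neg]
    exact L.neg_mem hx

theorem mem_scl {u : Rˣ} {L : AddSubgroup E} {x : E} :
    x ∈ scl u L ↔ ((u⁻¹ : Rˣ) : R) • x ∈ L := Iff.rfl

theorem smul_mem_scl {u : Rˣ} {L : AddSubgroup E} {x : E} : (u : R) • x ∈ scl u L ↔ x ∈ L := by
  rw [mem_scl, smul_smul, Units.inv_mul, one_smul]

theorem scl_eq (u : Rˣ) (L : AddSubgroup E) :
    (scl u L : Set E) = (fun x => (u : R) • x) '' (L : Set E) := by
  ext x
  constructor
  · intro hx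
    exact ⟨((u⁻¹ : Rˣ) : R) • x, hx, by
      change (u : R) • (((u⁻¹ : Rˣ) : R) • x) = x
      rw [smul_smul, Units.mul_inv, one_smul]⟩
  · rintro ⟨y, hy, rfl⟩
    exact smul_mem_scl.2 hy

theorem isOpen_scl (u : Rˣ) {L : AddSubgroup E} (hL : IsOpen (L : Set E)) :
    IsOpen (scl u L : Set E) :=
  hL.preimage (continuous_const_smul ((u⁻¹ : Rˣ) : R))

theorem isCompact_scl (u : Rˣ) {L : AddSubgroup E} (hL : IsCompact (L : Set E)) :
    IsCompact (scl u L : Set E) := by
  rw [scl_eq]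
  exact hL.image (continuous_const_smul (u : R))

theorem scl_mul (u v : Rˣ) (L : AddSubgroup E) : scl (u * v) L = scl u (scl v L) := by
  ext x
  rw [mem_scl, mem_scl, mem_scl, smul_smul, mul_inv_rev, Units.val_mul]

theorem relIndex_scl (u : Rˣ) (L L' : AddSubgroup E) :
    (scl u L).relIndex (scl u L') = L.relIndex L' := by
  let f : E →+ E := DistribSMul.toAddMonoidHom E (u : R)
  have hf : Function.Injective f := by
    intro x y hxy
    have h1 : (u : R) • x = (u : R) • y := hxy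
    have h2 := congrArg (fun z => ((u⁻¹ : Rˣ) : R) • z) h1
    simpa [smul_smul] using h2
  have h : ∀ M : AddSubgroup E, scl u M = M.map f := by
    intro M
    apply SetLike.coe_injective
    rw [scl_eq, AddSubgroup.coe_map]
    rfl
  rw [h, h, AddSubgroup.relIndex_map_map_of_injective _ _ hf]

/-- An open subgroup has finite index in a compact one. -/
theorem relIndex_ne_zero_of_open {L L' : AddSubgroup E} (hL : IsOpen (L : Set E))
    (hL' : IsCompact (L' : Set E)) : L.relIndex L' ≠ 0 := by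
  have h1 : CompactSpace L' := isCompact_iff_compactSpace.1 hL'
  have h2 : IsOpen ((L.addSubgroupOf L' : AddSubgroup L') : Set L') :=
    hL.preimage continuous_subtype_val
  have h3 : Finite (L' ⧸ L.addSubgroupOf L') := AddSubgroup.quotient_finite_of_isOpen _ h2
  exact AddSubgroup.index_ne_zero_of_finite

/-- **Construction of a scale.** -/
theorem exists_cells_of (hstar : ∀ (r : R) (x : E), star (r • x) = r • star x) {R0 : Subring R}
    (hR0 : IsOpen (R0 : Set R)) {r : Rˣ} (hr : Tendsto (fun k : ℕ => (r : R) ^ k) atTop (𝓝 0))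
    {L0 : AddSubgroup E} (hL0 : IsOpen (L0 : Set E)) (hL0c : IsCompact (L0 : Set E))
    (hRL : ∀ ρ ∈ R0, ∀ x ∈ L0, ρ • x ∈ L0) : Nonempty (Cells E) := by
  classical
  -- a contracting unit in `R0`
  obtain ⟨k0, hk0⟩ := (hr.eventually (hR0.mem_nhds R0.zero_mem)).exists_forall_of_atTop
  have hk1 := hk0 (k0 + 1) (by omega)
  set t : Rˣ := r ^ (k0 + 1) with ht
  have htR : (t : R) ∈ R0 := by
    rw [ht, Units.val_pow_eq_pow_val]
    exact hk1
  have htt : Tendsto (fun k : ℕ => (t : R) ^ k) atTop (𝓝 0) := by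
    have h1 : (fun k : ℕ => (t : R) ^ k) = (fun k : ℕ => (r : R) ^ k) ∘ fun k => (k0 + 1) * k := by
      funext k
      rw [ht, Units.val_pow_eq_pow_val, Function.comp, pow_mul]
    rw [h1]
    refine hr.comp (tendsto_atTop_mono (fun k => ?_) tendsto_id)
    exact Nat.le_mul_of_pos_left k (by omega)
  have hpow : ∀ (m : ℕ) (ρ : Rˣ), ((ρ ^ m : Rˣ) : R) = (ρ : R) ^ m := fun m ρ =>
    Units.val_pow_eq_pow_val ρ m
  -- a multiplicatively closed lattice
  have hKK : IsCompact ((fun p : E × E => p.1 * p.2) '' ((L0 : Set E) ×ˢ (L0 : Set E))) :=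
    (hL0c.prod hL0c).image continuous_mul
  obtain ⟨c, hc⟩ := (eventually_absorb htt hKK (hL0.mem_nhds L0.zero_mem)).exists
  set L1 : AddSubgroup E := scl (t ^ c) L0 with hL1
  have hL1m : ∀ x y, x ∈ L1 → y ∈ L1 → x * y ∈ L1 := by
    intro x y hx hy
    have h1 : (((t ^ c)⁻¹ : Rˣ) : R) • (x * y) = (t : R) ^ c •
        (((((t ^ c)⁻¹ : Rˣ) : R) • x) * ((((t ^ c)⁻¹ : Rˣ) : R) • y)) := by
      rw [smul_mul_smul_comm, smul_smul, ← hpow, ← mul_assoc, Units.mul_inv, one_mul]
    rw [hL1, mem_scl, h1]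
    exact hc _ ⟨(_, _), ⟨hx, hy⟩, rfl⟩
  have hL1R : ∀ ρ ∈ R0, ∀ x ∈ L1, ρ • x ∈ L1 := by
    intro ρ hρ x hx
    rw [hL1, mem_scl, smul_comm]
    exact hRL ρ hρ _ hx
  have hL1o : IsOpen (L1 : Set E) := isOpen_scl _ hL0
  have hL1c : IsCompact (L1 : Set E) := isCompact_scl _ hL0c
  set L2 : AddSubgroup E := L1 ⊓ L1.comap (starAddEquiv : E ≃+ E).toAddMonoidHom with hL2
  have hmem : ∀ x, x ∈ L2 ↔ x ∈ L1 ∧ star x ∈ L1 := fun x => Iff.rfl
  have hL2o : IsOpen (L2 : Set E) := by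
    have h1 : (L2 : Set E) = (L1 : Set E) ∩ star ⁻¹' (L1 : Set E) := rfl
    rw [h1]
    exact hL1o.inter (hL1o.preimage continuous_star)
  have hL2c : IsCompact (L2 : Set E) :=
    hL1c.of_isClosed_subset (AddSubgroup.isClosed_of_isOpen _ hL2o) fun x hx => hx.1
  have hL2m : ∀ x y, x ∈ L2 → y ∈ L2 → x * y ∈ L2 := by
    intro x y hx hy
    refine (hmem _).2 ⟨hL1m _ _ hx.1 hy.1, ?_⟩
    rw [star_mul]
    exact hL1m _ _ hy.2 hx.2
  have hL2s : ∀ x, x ∈ L2 → star x ∈ L2 := fun x hx => ⟨hx.2, by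
    change star (star x) ∈ L1
    rw [star_star]
    exact hx.1⟩
  have hL2R : ∀ ρ ∈ R0, ∀ x ∈ L2, ρ • x ∈ L2 := by
    intro ρ hρ x hx
    refine (hmem _).2 ⟨hL1R ρ hρ x hx.1, ?_⟩
    rw [hstar]
    exact hL1R ρ hρ _ hx.2
  have habs : ∀ (K : Set E), IsCompact K → ∀ L : AddSubgroup E, IsOpen (L : Set E) →
      ∃ c : ℕ, ∀ x ∈ K, (t : R) ^ c • x ∈ L := by
    intro K hK L hL
    obtain ⟨c, hc⟩ := (eventually_absorb htt hK (hL.mem_nhds L.zero_mem)).exists
    exact ⟨c, hc⟩
  refine ⟨⟨fun m => scl (t ^ m) L2, fun m => isOpen_scl _ hL2o, fun m => isCompact_scl _ hL2c,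
    ?_, ?_, ?_, ?_, ?_, ?_⟩⟩
  · refine antitone_nat_of_succ_le fun m x hx => ?_
    have h1 : (((t ^ m)⁻¹ : Rˣ) : R) • x = (t : R) • ((((t ^ (m + 1))⁻¹ : Rˣ) : R) • x) := by
      rw [smul_smul]
      congr 1
      rw [pow_succ, mul_inv_rev, Units.val_mul, ← mul_assoc, Units.mul_inv, one_mul]
    rw [mem_scl] at hx ⊢
    rw [h1]
    exact hL2R _ htR _ hx
  · intro W hW
    obtain ⟨m, hm⟩ := (eventually_absorb htt hL2c hW).exists
    refine ⟨m, ?_⟩
    intro x hx
    rw [scl_eq] at hx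
    obtain ⟨y, hy, rfl⟩ := hx
    simp only
    rw [hpow]
    exact hm y hy
  · intro m x y hx hy
    have hy' : y ∈ L2 := by
      rw [mem_scl, pow_zero, inv_one, Units.val_one, one_smul] at hy
      exact hy
    rw [mem_scl] at hx ⊢
    rw [← smul_mul_assoc]
    exact hL2m _ _ hx hy'
  · intro m x hx
    rw [mem_scl] at hx ⊢
    rw [← hstar]
    exact hL2s _ hx
  · intro C C' hC hC'
    have hK : IsCompact ((fun p : (E × E) × E => p.1.1 * p.1.2 * p.2) ''
        ((C ×ˢ (L2 : Set E)) ×ˢ C')) :=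
      ((hC.prod hL2c).prod hC').image (by fun_prop)
    obtain ⟨c, hc⟩ := habs _ hK L2 hL2o
    refine ⟨c, fun m a ha b hb x hx => ?_⟩
    rw [mem_scl] at hx ⊢
    have h1 : (((t ^ m)⁻¹ : Rˣ) : R) • (a * x * b) =
        (t : R) ^ c • (a * ((((t ^ (m + c))⁻¹ : Rˣ) : R) • x) * b) := by
      rw [mul_smul_comm, smul_mul_assoc, smul_smul]
      congr 1
      rw [← hpow, pow_add, mul_inv_rev, Units.val_mul, ← mul_assoc, Units.mul_inv, one_mul]
    rw [h1]
    exact hc _ ⟨((a, _), b), ⟨⟨ha, hx⟩, hb⟩, rfl⟩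
  · intro c
    refine ⟨(scl (t ^ c) L2).relIndex L2, fun m => ?_⟩
    have h1 : (scl (t ^ (m + c)) L2).relIndex (scl (t ^ m) L2) =
        (scl (t ^ c) L2).relIndex L2 := by
      rw [pow_add, scl_mul, relIndex_scl]
    rw [h1]
    exact ⟨relIndex_ne_zero_of_open (isOpen_scl _ hL2o) hL2c, le_rfl⟩

end scale

namespace BCR

variable {k R A E ι : Type*} [Field k] [CommRing R] [TopologicalSpace R] [IsTopologicalRing R]
  [Algebra k R] [Ring A] [StarRing A] [Algebra k A] [Ring E] [StarRing E]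
  [TopologicalSpace E] [IsTopologicalRing E] [Algebra R E] [Fintype ι] [DecidableEq ι]
  (B : BCR k R A E ι)

include B in
/-- **The scale of `E`.** -/
theorem exists_cells [T2Space R] (hR : H83.Contr R) {R0 : Subring R} (hR0o : IsOpen (R0 : Set R))
    (hR0c : IsCompact (R0 : Set R)) : Nonempty (Cells E) := by
  have := B.continuousStar
  have := B.t2
  have := B.continuousSMul
  obtain ⟨r, hr⟩ := hR
  exact exists_cells_of B.star_smul hR0o hr (B.isOpen_latR hR0o) (B.isCompact_latR hR0c)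
    fun ρ hρ x hx => B.smul_latR hρ hx

end BCR

end Vale.Agent.P011.H74
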