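import Mathlib.Topology.Algebra.Star
import Mathlib.Topology.Algebra.Ring.Basic
import Mathlib.Topology.Algebra.Group.Basic
import Mathlib.Algebra.Star.Unitary
import Mathlib.Topology.DiscreteSubset
import Mathlib.Tactic.NoncommRing

/-!
# Cocompactness of the unitary group of a discrete star-stable order (abstract form)

`A` is a topological ring with continuous involution, `O` a star-stable subring meeting every
compact set in a finite set.  If every unitary `u` of `A` moves a nonzero element of `O` into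
a fixed compact set (Minkowski) and the nonzero elements of `O` are invertible with bounded
denominators, then `U(A) = C₂ · (U(A) ∩ O)` with a compact `C₂`.
-/

namespace Vale.Agent.P011.H74

open Set

section Alg

variable {A : Type*} [Ring A] [StarRing A]

/-- Two unitaries with the same bounded denominator and congruent numerators differ by an
integral unitary. -/
lemma mul_star_mem_of_congr (O : Subring A) (hstar : ∀ x ∈ O, star x ∈ O)
    {m u v w : A} (_hm : m ∈ O) (hms : star m = m) (hmc : ∀ a, m * a = a * m)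
    (hmr : ∀ a b : A, m * a = m * b → a = b)
    (hv : v ∈ unitary A) (hvO : m * v ∈ O) (hw : w ∈ O)
    (h : m * u = m * v + m ^ 3 * w) : u * star v ∈ O := by
  have h1 : u = v + m ^ 2 * w := by
    apply hmr
    rw [h, mul_add, ← mul_assoc, ← pow_succ']
  have hvv : v * star v = 1 := (Unitary.mem_iff.1 hv).2
  have h2 : u * star v = 1 + m * (w * (m * star v)) := by
    rw [h1, add_mul, hvv]
    congr 1
    rw [hmc (star v), pow_two]
    have : m * m * w * star v = m * (m * (w * star v)) := by simp only [mul_assoc]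
    rw [this, hmc (w * star v), mul_assoc]
  have h3 : m * star v ∈ O := by
    have := hstar _ hvO
    rw [star_mul, hms, ← hmc] at this
    exact this
  rw [h2]
  exact O.add_mem O.one_mem (O.mul_mem _hm (O.mul_mem hw h3))

/-- The unitaries with denominator `m` are finitely many cosets of the integral unitaries. -/
lemma exists_finite_reps (O : Subring A) (hstar : ∀ x ∈ O, star x ∈ O)
    {m : A} (hm : m ∈ O) (hms : star m = m) (hmc : ∀ a, m * a = a * m)
    (hmr : ∀ a b : A, m * a = m * b → a = b)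
    (T : Set A) (hT : T.Finite) (hTO : ∀ x ∈ O, ∃ t ∈ T, ∃ w ∈ O, x = t + m ^ 3 * w) :
    ∃ W : Set A, W.Finite ∧ W ⊆ (unitary A : Set A) ∧
      ∀ v ∈ unitary A, m * v ∈ O → ∃ w ∈ W, v * star w ∈ O := by
  classical
  let P : A → A → Prop := fun t v => v ∈ unitary A ∧ m * v ∈ O ∧ ∃ w ∈ O, m * v = t + m ^ 3 * w
  let f : A → A := fun t => if h : ∃ v, P t v then h.choose else 1
  refine ⟨f '' T, hT.image f, ?_, ?_⟩
  · rintro _ ⟨t, _, rfl⟩
    by_cases h : ∃ v, P t v
    · simp only [f, dif_pos h]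
      exact h.choose_spec.1
    · simp only [f, dif_neg h]
      exact one_mem (unitary A)
  · intro v hv hvO
    obtain ⟨t, ht, w, hw, hvt⟩ := hTO _ hvO
    have hex : ∃ v, P t v := ⟨v, hv, hvO, w, hw, hvt⟩
    refine ⟨f t, ⟨t, ht, rfl⟩, ?_⟩
    have hf : f t = hex.choose := by simp only [f, dif_pos hex]
    obtain ⟨h1, h2, w', hw', h3⟩ := hex.choose_spec
    rw [hf]
    refine mul_star_mem_of_congr O hstar hm hms hmc hmr h1 h2 (O.sub_mem hw hw') ?_
    rw [hvt, h3]
    noncomm_ring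

end Alg

section Top

variable {A : Type*} [Ring A] [StarRing A] [TopologicalSpace A] [IsTopologicalRing A]
  [ContinuousStar A]

/-- **Cocompactness, abstract form**, with a predicate `P` (nonzero, or invertible). -/
theorem exists_compact_mul_unitary_of (P : A → Prop) (O : Subring A)
    (hstar : ∀ x ∈ O, star x ∈ O)
    (hfin : ∀ C : Set A, IsCompact C → (C ∩ (O : Set A)).Finite)
    (C : Set A) (hC : IsCompact C)
    (hmink : ∀ u ∈ unitary A, ∃ x ∈ O, P x ∧ u * x ∈ C)
    (hinv : ∀ x ∈ O, P x → ∃ y m : A, x * y = 1 ∧ y * x = 1 ∧ m ∈ O ∧ star m = m ∧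
      (∀ a, m * a = a * m) ∧ (∀ a b : A, m * a = m * b → a = b) ∧ m * y ∈ O ∧
      ∃ T : Set A, T.Finite ∧ ∀ x ∈ O, ∃ t ∈ T, ∃ w ∈ O, x = t + m ^ 3 * w) :
    ∃ C₂ : Set A, IsCompact C₂ ∧ ∀ u ∈ unitary A, ∃ γ ∈ O, γ ∈ unitary A ∧ u * γ ∈ C₂ := by
  classical
  -- the finitely many possible values of `x^* x`
  let CC : Set A := (fun p : A × A => star p.1 * p.2) '' (C ×ˢ C)
  have hCC : IsCompact CC := (hC.prod hC).image (by fun_prop)
  have hF : (CC ∩ (O : Set A)).Finite := hfin CC hCC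
  -- the property attached to a value
  have key : ∀ h : A, ∃ Ch : Set A, IsCompact Ch ∧ ∀ u ∈ unitary A, ∀ x ∈ O, P x → u * x ∈ C →
      star x * x = h → ∃ γ ∈ O, γ ∈ unitary A ∧ u * γ ∈ Ch := by
    intro h
    by_cases hex : ∃ x ∈ O, P x ∧ star x * x = h
    · obtain ⟨x₀, hx₀, hx₀0, hx₀h⟩ := hex
      obtain ⟨y, m, hxy, hyx, hm, hms, hmc, hmr, hmy, T, hT, hTO⟩ := hinv x₀ hx₀ hx₀0
      obtain ⟨W, hW, hWU, hWO⟩ := exists_finite_reps O hstar hm hms hmc hmr T hT hTO
      refine ⟨⋃ w ∈ W, (fun c : A => c * y * star w) '' C, ?_, ?_⟩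
      · exact hW.isCompact_biUnion fun w _ => hC.image (by fun_prop)
      · intro u hu x hx hx0 hux hxh
        obtain ⟨x', _, hxx', hx'x, -⟩ := hinv x hx hx0
        -- `v = x y` is unitary
        have hv1 : star (x * y) * (x * y) = 1 := by
          have h1 : star y * star x₀ = 1 := by rw [← star_mul, hxy, star_one]
          calc star (x * y) * (x * y) = star y * (star x * x) * y := by
                rw [star_mul]; simp only [mul_assoc]
            _ = star y * (star x₀ * x₀) * y := by rw [hxh, hx₀h]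
            _ = (star y * star x₀) * (x₀ * y) := by simp only [mul_assoc]
            _ = 1 := by rw [h1, hxy, one_mul]
        have hv2 : (x * y) * (x₀ * x') = 1 := by
          calc (x * y) * (x₀ * x') = x * (y * x₀) * x' := by simp only [mul_assoc]
            _ = 1 := by rw [hyx, mul_one, hxx']
        have hv3 : star (x * y) = x₀ * x' := by
          calc star (x * y) = star (x * y) * ((x * y) * (x₀ * x')) := by rw [hv2, mul_one]
            _ = x₀ * x' := by rw [← mul_assoc, hv1, one_mul]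
        have hv4 : (x * y) * star (x * y) = 1 := by rw [hv3, hv2]
        have hv : x * y ∈ unitary A := Unitary.mem_iff.2 ⟨hv1, hv4⟩
        have hvO : m * (x * y) ∈ O := by
          rw [← mul_assoc, hmc x, mul_assoc]
          exact O.mul_mem hx hmy
        obtain ⟨w, hw, hwO⟩ := hWO _ hv hvO
        have hwU : w ∈ unitary A := hWU hw
        refine ⟨x * y * star w, hwO, mul_mem hv (Unitary.star_mem hwU), ?_⟩
        refine Set.mem_biUnion hw ⟨u * x, hux, ?_⟩
        simp only [mul_assoc]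
    · refine ⟨∅, isCompact_empty, ?_⟩
      intro u _ x hx hx0 _ hxh
      exact absurd ⟨x, hx, hx0, hxh⟩ hex
  choose Ch hCh hCh' using key
  refine ⟨⋃ h ∈ CC ∩ (O : Set A), Ch h, hF.isCompact_biUnion fun h _ => hCh h, ?_⟩
  intro u hu
  obtain ⟨x, hx, hx0, hux⟩ := hmink u hu
  have hmem : star x * x ∈ CC ∩ (O : Set A) := by
    refine ⟨⟨(u * x, u * x), ⟨hux, hux⟩, ?_⟩, O.mul_mem (hstar _ hx) hx⟩
    simp only [star_mul]
    calc star x * star u * (u * x) = star x * (star u * u) * x := by simp only [mul_assoc]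
      _ = star x * x := by rw [(Unitary.mem_iff.1 hu).1, mul_one]
  obtain ⟨γ, hγ, hγU, hγC⟩ := hCh' _ u hu x hx hx0 hux rfl
  exact ⟨γ, hγ, hγU, Set.mem_biUnion hmem hγC⟩

/-- **Cocompactness, abstract form.** -/
theorem exists_compact_mul_unitary (O : Subring A) (hstar : ∀ x ∈ O, star x ∈ O)
    (hfin : ∀ C : Set A, IsCompact C → (C ∩ (O : Set A)).Finite)
    (C : Set A) (hC : IsCompact C)
    (hmink : ∀ u ∈ unitary A, ∃ x ∈ O, x ≠ 0 ∧ u * x ∈ C)
    (hinv : ∀ x ∈ O, x ≠ 0 → ∃ y m : A, x * y = 1 ∧ y * x = 1 ∧ m ∈ O ∧ star m = m ∧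
      (∀ a, m * a = a * m) ∧ (∀ a b : A, m * a = m * b → a = b) ∧ m * y ∈ O ∧
      ∃ T : Set A, T.Finite ∧ ∀ x ∈ O, ∃ t ∈ T, ∃ w ∈ O, x = t + m ^ 3 * w) :
    ∃ C₂ : Set A, IsCompact C₂ ∧ ∀ u ∈ unitary A, ∃ γ ∈ O, γ ∈ unitary A ∧ u * γ ∈ C₂ :=
  exists_compact_mul_unitary_of (fun x => x ≠ 0) O hstar hfin C hC hmink hinv

/-- **Cocompactness for the kernel of a norm.** -/
theorem exists_compact_mul_unitary_ker [T2Space A] {T : Type*} [CommGroup T] [TopologicalSpace T]
    (ν : unitary A →* T) (hν : Continuous ν)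
    (O : Subring A) (hstar : ∀ x ∈ O, star x ∈ O)
    (hfinT : ∀ K : Set T, IsCompact K → (K ∩ (ν '' {γ | (γ : A) ∈ O})).Finite)
    (C₂ : Set A) (hC₂ : IsCompact C₂)
    (h : ∀ u ∈ unitary A, ∃ γ ∈ O, γ ∈ unitary A ∧ u * γ ∈ C₂) :
    ∃ C₃ : Set A, IsCompact C₃ ∧
      ∀ u : unitary A, ν u = 1 → ∃ γ : unitary A, (γ : A) ∈ O ∧ ν γ = 1 ∧ (u * γ : A) ∈ C₃ := by
  classical
  have hclosed : IsClosed (unitary A : Set A) := by
    have h1 : (unitary A : Set A) = {u | star u * u = 1} ∩ {u | u * star u = 1} := by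
      ext u
      exact Unitary.mem_iff
    rw [h1]
    exact (isClosed_eq (by fun_prop) continuous_const).inter
      (isClosed_eq (by fun_prop) continuous_const)
  have hCU : IsCompact {u : unitary A | (u : A) ∈ C₂} := by
    have : {u : unitary A | (u : A) ∈ C₂} = (Subtype.val) ⁻¹' C₂ := rfl
    rw [this]
    exact hclosed.isClosedEmbedding_subtypeVal.isCompact_preimage hC₂
  have hK : IsCompact (ν '' {u : unitary A | (u : A) ∈ C₂}) := hCU.image hν
  have hfin := hfinT _ hK
  have hrep : ∀ t : T, ∃ g : unitary A, t ∈ ν '' {γ | (γ : A) ∈ O} → (g : A) ∈ O ∧ ν g = t := by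
    intro t
    by_cases ht : t ∈ ν '' {γ | (γ : A) ∈ O}
    · obtain ⟨g, hg, hgt⟩ := ht
      exact ⟨g, fun _ => ⟨hg, hgt⟩⟩
    · exact ⟨1, fun h => absurd h ht⟩
  choose g hg using hrep
  refine ⟨⋃ t ∈ (ν '' {u : unitary A | (u : A) ∈ C₂}) ∩ (ν '' {γ | (γ : A) ∈ O}),
    (fun c : A => c * star (g t : A)) '' C₂, hfin.isCompact_biUnion fun t _ =>
      hC₂.image (by fun_prop), ?_⟩
  intro u hu
  obtain ⟨γ, hγ, hγU, hγC⟩ := h u u.2
  let γ' : unitary A := ⟨γ, hγU⟩
  have hνγ : ν γ' = ν (u * γ') := by rw [map_mul, hu, one_mul]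
  have hmem : ν γ' ∈ (ν '' {u : unitary A | (u : A) ∈ C₂}) ∩ (ν '' {γ | (γ : A) ∈ O}) := by
    refine ⟨?_, ⟨γ', hγ, rfl⟩⟩
    rw [hνγ]
    exact ⟨u * γ', hγC, rfl⟩
  obtain ⟨hgO, hgν⟩ := hg _ hmem.2
  refine ⟨γ' * star (g (ν γ')), ?_, ?_, ?_⟩
  · exact O.mul_mem hγ (hstar _ hgO)
  · have : star (g (ν γ')) = (g (ν γ'))⁻¹ := rfl
    rw [map_mul, this, map_inv, hgν, mul_inv_cancel]
  · refine Set.mem_biUnion hmem ⟨u * γ, hγC, ?_⟩
    simp only [γ', Submonoid.coe_mul, mul_assoc]
    rfl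

end Top

end Vale.Agent.P011.H74
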