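import Vale.Agent.P011.H74.TopR

/-!
# Elements of `R ⊗ A` given by orthogonal idempotents of `R`
-/

open Module TensorProduct

namespace Vale.Agent.P011.H74

section

variable {k A ι R κ : Type*} [Field k] [Ring A] [StarRing A] [Algebra k A] [CommRing R]
  [Algebra k R] [Fintype κ] (B : Basis ι k A)

/-- pure tensors -/
noncomputable def tm (r : R) (y : A) : BR B R := (r ⊗ₜ[k] y : R ⊗[k] A)

omit [StarRing A] in
theorem tm_mul (r s : R) (y z : A) : tm B r y * tm B s z = tm B (r * s) (y * z) :=
  Algebra.TensorProduct.tmul_mul_tmul _ _ _ _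

omit [StarRing A] in
theorem tm_zero (y : A) : tm B (0 : R) y = 0 := TensorProduct.zero_tmul _ _

omit [StarRing A] in
theorem tm_one : tm B (1 : R) (1 : A) = 1 := rfl

omit [StarRing A] in
theorem tm_sum (e : κ → R) (y : A) : tm B (∑ v, e v) y = ∑ v, tm B (e v) y :=
  TensorProduct.sum_tmul _ _ _

theorem tm_star [StarLinR k A] (r : R) (y : A) : star (tm B r y) = tm B r (star y) := rfl

omit [StarRing A] in
theorem eqF_tm [Fintype ι] (r : R) (y : A) (i : ι) :
    eqF B R (tm B r y) i = r * algebraMap k R (B.repr y i) := by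
  change (B.baseChange R).repr (r ⊗ₜ[k] y) i = _
  rw [Basis.baseChange_repr_tmul, Algebra.smul_def, mul_comm]

/-- The element with component `z v` at `v`. -/
noncomputable def glueR (e : κ → R) (z : κ → A) : BR B R := ∑ v, tm B (e v) (z v)

omit [StarRing A] in
theorem glueR_mul {e : κ → R} (he : ∀ v, e v * e v = e v) (hne : ∀ v w, v ≠ w → e v * e w = 0)
    (z z' : κ → A) :
    glueR B e z * glueR B e z' = glueR B e (fun v => z v * z' v) := by
  classical
  rw [glueR, glueR, glueR, Finset.sum_mul_sum]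
  refine Finset.sum_congr rfl fun v _ => ?_
  rw [Finset.sum_eq_single v]
  · rw [tm_mul, he]
  · intro w _ hw
    rw [tm_mul, hne v w hw.symm, tm_zero]
  · simp

omit [StarRing A] in
theorem glueR_one {e : κ → R} (hs : ∑ v, e v = 1) : glueR B e (fun _ => 1) = 1 := by
  rw [glueR, ← tm_sum, hs, tm_one]

theorem glueR_star [StarLinR k A] (e : κ → R) (z : κ → A) :
    star (glueR B e z) = glueR B e (fun v => star (z v)) := by
  rw [glueR, glueR, star_sum]
  rfl

omit [StarRing A] in
theorem eqF_glueR [Fintype ι] (e : κ → R) (z : κ → A) (i : ι) :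
    eqF B R (glueR B e z) i = ∑ v, e v * algebraMap k R (B.repr (z v) i) := by
  rw [glueR, map_sum, Finset.sum_apply]
  exact Finset.sum_congr rfl fun v _ => eqF_tm B _ _ _

theorem glueR_j [StarLinR k A] [Fintype ι] [DecidableEq ι] [TopologicalSpace R]
    {e : κ → R} (hs : ∑ v, e v = 1) (y : A) :
    (bcrT B R).j y = glueR B e (fun _ => y) := by
  rw [glueR, ← tm_sum, hs]
  rfl

end

end Vale.Agent.P011.H74
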