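import Vale.Agent.P011.H74.CocK
import Vale.Agent.P011.H74.Glue

/-!
# Cocompactness over function fields, in terms of elements of `A`

The group of the unitary `S`-integral elements is cocompact in the product of the unitary groups
over the places of `S`, tested on families of unitary elements of `A`.
-/

open Module TensorProduct Topology Filter Polynomial

namespace Vale.Agent.P011.H74

open Vale.Agent.P011.H738 Vale.Agent.P011.H271

set_option linter.unusedSectionVars false

section base

variable {k : Type} [Field k] [GFF k] (S : Finset (Place k))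

/-- idempotents of `k_S` -/
noncomputable def eS (v : S) : KSF S := by
  classical
  exact Pi.single v 1

omit [GFF k] in
theorem eS_self (v : S) : eS S v * eS S v = eS S v := by
  classical
  rw [eS, ← Pi.single_mul, one_mul]

omit [GFF k] in
theorem eS_ne (v w : S) (h : v ≠ w) : eS S v * eS S w = 0 := by
  classical
  funext u
  rw [eS, eS, Pi.mul_apply]
  by_cases hu : u = v
  · subst hu
    rw [Pi.single_eq_of_ne h, mul_zero]; rfl
  · rw [Pi.single_eq_of_ne hu, zero_mul]; rfl

omit [GFF k] in
theorem eS_sum : ∑ v : S, eS S v = 1 := by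
  classical
  funext w
  rw [Finset.sum_apply, Finset.sum_eq_single w]
  · simp [eS]
  · intro v _ hv
    rw [eS, Pi.single_eq_of_ne hv.symm]
  · simp

/-- An element of `k` with prescribed small absolute values outside `S`: exactly at `w`. -/
theorem exists_exact (hS : S.Nonempty) (μ : Place k → ℝ) (hμ0 : ∀ v, 0 < μ v)
    (hμ : {v | μ v ≠ 1}.Finite) (w : Place k) (hw : w ∉ S) (c : k) (hc : w.abv c = μ w) :
    ∃ y : k, w.abv y = μ w ∧ ∀ v, v ∉ S → v.abv y ≤ μ v := by
  classical
  obtain ⟨q, hq⟩ := hS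
  have hqw : q ≠ w := fun h => hw (h ▸ hq)
  set T : Finset (Place k) := (insert w hμ.toFinset).erase q with hT
  obtain ⟨ε, hε, hεT⟩ : ∃ ε : ℝ, 0 < ε ∧ ∀ v ∈ T, ε < μ v := by
    by_cases hne : T.Nonempty
    · obtain ⟨v0, hv0, hmin⟩ := T.exists_min_image μ hne
      exact ⟨μ v0 / 2, half_pos (hμ0 v0), fun v hv => (half_lt_self (hμ0 v0)).trans_le (hmin v hv)⟩
    · exact ⟨1, one_pos, fun v hv => absurd ⟨v, hv⟩ hne⟩
  obtain ⟨C, hC⟩ := place_strong q T (Finset.notMem_erase q _) hε
  obtain ⟨y, hy1, hy2, -⟩ := hC (fun v => if v = w then c else 0) (by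
    refine (Set.finite_singleton w).subset ?_
    intro v hv
    rw [Set.mem_ofPred_eq] at hv
    by_contra h
    rw [if_neg (fun h' : v = w => h h'), map_zero] at hv
    exact absurd hv (not_lt.2 zero_le_one))
  have hwT : w ∈ T := Finset.mem_erase.2 ⟨hqw.symm, Finset.mem_insert_self _ _⟩
  refine ⟨y, ?_, fun v hv => ?_⟩
  · have h1 := hy1 w hwT
    rw [if_pos rfl] at h1
    have h2 : w.abv (y - c) < w.abv c := by
      rw [hc, ← AbsoluteValue.map_neg, neg_sub]
      exact h1.trans_lt (hεT w hwT)
    have h3 := abv_add_eq w h2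
    rw [add_sub_cancel, hc] at h3
    exact h3
  · have hvq : v ≠ q := fun h => hv (h ▸ hq)
    by_cases hvw : v = w
    · subst hvw
      have h1 := hy1 v hwT
      rw [if_pos rfl] at h1
      have h4 : y = c + -(c - y) := by ring
      rw [h4]
      refine (v.nonarch _ _).trans (max_le hc.le ?_)
      rw [AbsoluteValue.map_neg]
      exact h1.trans (hεT v hwT).le
    · by_cases hvT : v ∈ T
      · have h1 := hy1 v hvT
        rw [if_neg hvw, zero_sub, AbsoluteValue.map_neg] at h1
        exact h1.trans (hεT v hvT).le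
      · have h1 := hy2 v hvq
        rw [if_neg hvw, zero_sub, AbsoluteValue.map_neg] at h1
        have h2 : μ v = 1 := by
          by_contra h3
          exact hvT (Finset.mem_erase.2 ⟨hvq, Finset.mem_insert_of_mem (hμ.mem_toFinset.2 h3)⟩)
        rw [h2]
        exact h1

end base

section

variable {k A : Type} [Field k] [GFF k] [Ring A] [StarRing A] [Algebra k A]
  {N : ℕ} (B : Basis (Fin N) k A) (S : Finset (Place k))

theorem glueS_apply (z : S → A) (i : Fin N) (v : S) :
    (eqF B (KSF S) (glueR B (eS S) z) i) v =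
      algebraMap k (v : Place k).comp (B.repr (z v) i) := by
  classical
  rw [eqF_glueR, Finset.sum_apply, Finset.sum_eq_single v]
  · simp [eS]
  · intro w _ hw
    rw [Pi.mul_apply, eS, Pi.single_eq_of_ne hw.symm, zero_mul]
  · simp

/-- A compact set of `k_S ⊗ A` has bounded coordinates. -/
theorem coord_bdd {C : Set (BR B (KSF S))} (hC : IsCompact C) :
    ∃ R : ℝ, ∀ x ∈ C, ∀ (v : S) (i : Fin N), ‖eqF B (KSF S) x i v‖ ≤ R := by
  have hC' : IsCompact ((fun x : BR B (KSF S) => eqF B (KSF S) x) '' C) :=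
    hC.image (cont_eqF B (KSF S))
  have h1 : ∀ (v : S) (i : Fin N), ∃ b : ℝ, ∀ x ∈ C, ‖eqF B (KSF S) x i v‖ ≤ b := by
    intro v i
    obtain ⟨b, hb⟩ := (hC'.image (f := fun y : Fin N → KSF S => ‖y i v‖)
      (by fun_prop)).bddAbove
    exact ⟨b, fun x hx => hb ⟨_, ⟨x, hx, rfl⟩, rfl⟩⟩
  choose b hb using h1
  refine ⟨∑ v, ∑ i, |b v i|, fun x hx v i => (hb v i x hx).trans ((le_abs_self _).trans ?_)⟩
  refine le_trans (Finset.single_le_sum (f := fun i => |b v i|)
    (fun _ _ => abs_nonneg _) (Finset.mem_univ i)) ?_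
  exact Finset.single_le_sum (f := fun v => ∑ i, |b v i|)
    (fun _ _ => Finset.sum_nonneg fun _ _ => abs_nonneg _) (Finset.mem_univ v)

/-- **Cocompactness over function fields, elements of `A` only.**  `M` does not depend on `S`. -/
theorem coc_SF [IsSimpleRing A] (hst : ∀ (c : k) (x : A), star (c • x) = c • star x)
    (haniso : ∀ x : A, star x * x = 0 → x = 0) :
    ∃ M : Place k → ℝ, {w | M w ≠ 1}.Finite ∧ (∀ w, 1 ≤ M w) ∧
      ∀ S : Finset (Place k), S.Nonempty → ∃ R : ℝ, ∀ a : S → A,
        (∀ v, star (a v) * a v = 1) → (∀ v, a v * star (a v) = 1) →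
        ∃ lam : A, star lam * lam = 1 ∧ lam * star lam = 1 ∧
          (∀ w, w ∉ S → ∀ i, w.abv (B.repr lam i) ≤ M w) ∧
          ∀ (v : S) (i : Fin N), (v : Place k).abv (B.repr (lam * star (a v)) i) ≤ R := by
  have hSL : StarLinR k A := ⟨hst⟩
  classical
  -- the bound for the coordinates of the integral elements
  set F : Finset k := insert 1 (Finset.univ.image fun i => B.repr 1 i) with hF
  have hFne : F.Nonempty := ⟨1, Finset.mem_insert_self _ _⟩
  choose c hcF hcmax using fun w : Place k => F.exists_max_image (fun x => w.abv x) hFne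
  have hc1 : ∀ w : Place k, 1 ≤ w.abv (c w) := fun w => by
    have := hcmax w 1 (Finset.mem_insert_self _ _)
    rwa [map_one] at this
  have hc0 : ∀ w : Place k, c w ≠ 0 := fun w h => by
    have := hc1 w
    rw [h, map_zero] at this
    exact absurd this (not_le.2 zero_lt_one)
  have hcr : ∀ (w : Place k) (i : Fin N), w.abv (B.repr 1 i) ≤ w.abv (c w) := fun w i =>
    hcmax w _ (Finset.mem_insert_of_mem (Finset.mem_image_of_mem _ (Finset.mem_univ i)))
  have hfin : {w : Place k | w.abv (c w) ≠ 1}.Finite := by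
    refine (((F.erase 0).finite_toSet).biUnion (t := fun x => {w : Place k | w.abv x ≠ 1})
      fun x hx => place_finite (Finset.mem_erase.1 (Finset.mem_coe.1 hx)).1).subset ?_
    intro w hw
    exact Set.mem_biUnion (Finset.mem_coe.2 (Finset.mem_erase.2 ⟨hc0 w, hcF w⟩)) hw
  refine ⟨fun w => w.abv (c w), hfin, hc1, fun S hS => ?_⟩
  obtain ⟨d, -, hd⟩ := exists_denR B (OSF S) (OSF_den hS)
  obtain ⟨hO, -⟩ := isOrdR_ordO B hd
  have hup : ∀ x ∈ ordO B (OSF S), ∀ w, w ∉ S → ∀ i, w.abv (B.repr x i) ≤ w.abv (c w) := by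
    intro x hx w hw i
    obtain ⟨y, hy1, hy2⟩ := exists_exact S hS (fun v => (v.abv (c v))⁻¹)
      (fun v => inv_pos.2 (lt_of_lt_of_le one_pos (hc1 v)))
      (hfin.subset fun v hv => fun h => hv (by
        rw [h, inv_one])) w hw (c w)⁻¹ (map_inv₀ _ _)
    have h1 : InL B (OSF S) (y • (1 : A)) := by
      intro l v hv
      rw [map_smul, Finsupp.smul_apply, smul_eq_mul, map_mul]
      calc _ ≤ (v.abv (c v))⁻¹ * v.abv (c v) :=
            mul_le_mul (hy2 v hv) (hcr v l) (v.abv.nonneg _)
              (inv_nonneg.2 (v.abv.nonneg _))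
        _ = 1 := inv_mul_cancel₀ (lt_of_lt_of_le one_pos (hc1 v)).ne'
    have h2 := hx.1 _ h1 i w hw
    rw [mul_smul_comm, mul_one, map_smul, Finsupp.smul_apply, smul_eq_mul, map_mul, hy1] at h2
    exact (inv_mul_le_iff₀ (lt_of_lt_of_le one_pos (hc1 w))).1 h2 |>.trans (by rw [mul_one])
  obtain ⟨C, hC, h⟩ := coc_E B haniso hS hO fun c hc => smul_one_mem_ordO B hc
  have hcs := (bcrT B (KSF S)).continuousStar
  obtain ⟨R, hR⟩ := coord_bdd B S (hC.image (continuous_star (R := BR B (KSF S))))
  have he := eS_self S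
  have hne := eS_ne S
  have hs := eS_sum S
  refine ⟨R, fun a ha ha' => ?_⟩
  obtain ⟨w, hw, hw1, hw2, hxw⟩ := h (glueR B (eS S) a)
    (by rw [glueR_star, glueR_mul B he hne]; simp only [ha]; exact glueR_one B hs)
    (by rw [glueR_star, glueR_mul B he hne]; simp only [ha']; exact glueR_one B hs)
  have hstar : star (glueR B (eS S) a * (bcrT B (KSF S)).j w) =
      glueR B (eS S) (fun v => star w * star (a v)) := by
    rw [glueR_j B hs, glueR_mul B he hne, glueR_star]
    simp only [star_mul]
  refine ⟨star w, by rwa [star_star], by rwa [star_star],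
    fun v hv i => hup _ (hO.star_mem w hw) v hv i, fun v i => ?_⟩
  have h1 := hR _ ⟨_, hxw, rfl⟩ v i
  rwa [hstar, glueS_apply, norm_alg] at h1

end

end Vale.Agent.P011.H74
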