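import Mathlib.MeasureTheory.Measure.Haar.Basic
import Mathlib.MeasureTheory.Group.Measure
import Mathlib.MeasureTheory.Measure.Regular
import Vale.Agent.P011.H74.CocAbs

/-!
# Blichfeldt's pigeonhole and cocompactness of the unitary group

`exists_sub_mem_of_lt` : if `K + O = A` and `μ K < μ W`, two points of `W` differ by a nonzero
element of the countable additive subgroup `O`.
`cocompact_unitary` : the unitary group of a star-stable discrete cocompact order is cocompact.
-/

namespace Vale.Agent.P011.H74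

open Set MeasureTheory MeasureTheory.Measure

open scoped Pointwise

/-- **Blichfeldt.** -/
theorem exists_sub_mem_of_lt {A : Type*} [AddCommGroup A] [MeasurableSpace A] [MeasurableAdd A]
    (μ : Measure A) [μ.IsAddLeftInvariant] (O : AddSubgroup A) (hO : (O : Set A).Countable)
    (K W : Set A) (hK : MeasurableSet K) (hW : MeasurableSet W)
    (hKO : ∀ a : A, ∃ k ∈ K, ∃ o ∈ O, a = k + o) (hlt : μ K < μ W) :
    ∃ x ∈ W, ∃ y ∈ W, x ≠ y ∧ x - y ∈ O := by
  classical
  by_contra hcon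
  push Not at hcon
  have : Countable O := hO.to_subtype
  -- the pieces `(W - o) ∩ K`
  let P : O → Set A := fun o => ((fun x => (o : A) + x) ⁻¹' W) ∩ K
  have hPm : ∀ o, MeasurableSet (P o) := fun o =>
    ((measurable_const_add (o : A)) hW).inter hK
  have hdisj : Pairwise (Function.onFun Disjoint P) := by
    intro o o' hoo'
    rw [Function.onFun, Set.disjoint_left]
    rintro x ⟨hx, _⟩ ⟨hx', _⟩
    have hne : (o : A) + x ≠ (o' : A) + x := by
      intro h
      exact hoo' (Subtype.ext (add_right_cancel h))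
    refine hcon _ hx _ hx' hne ?_
    have : (o : A) + x - ((o' : A) + x) = (o : A) - o' := by abel
    rw [this]
    exact O.sub_mem o.2 o'.2
  have h1 : μ W ≤ ∑' o : O, μ (P o) := by
    have hcover : W ⊆ ⋃ o : O, (fun x => -(o : A) + x) ⁻¹' (P o) := by
      intro w hw
      obtain ⟨k, hk, o, ho, rfl⟩ := hKO w
      refine mem_iUnion.2 ⟨⟨o, ho⟩, ?_, ?_⟩
      · simpa [add_comm] using hw
      · have : -(o : A) + (k + o) = k := by abel
        simpa [this] using hk
    calc μ W ≤ μ (⋃ o : O, (fun x => -(o : A) + x) ⁻¹' (P o)) := measure_mono hcover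
      _ ≤ ∑' o : O, μ ((fun x => -(o : A) + x) ⁻¹' (P o)) := measure_iUnion_le _
      _ = ∑' o : O, μ (P o) := by
          congr 1
          ext o
          exact measure_preimage_add μ (-(o : A)) (P o)
  have h2 : ∑' o : O, μ (P o) = μ (⋃ o : O, P o) := (measure_iUnion hdisj hPm).symm
  have h3 : μ (⋃ o : O, P o) ≤ μ K := measure_mono (iUnion_subset fun o => inter_subset_right)
  exact absurd hlt (not_lt.2 (h1.trans (h2.le.trans h3)))

variable {A : Type*} [Ring A] [StarRing A] [TopologicalSpace A] [IsTopologicalRing A]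
  [ContinuousStar A] [T2Space A] [MeasurableSpace A] [BorelSpace A]

omit [ContinuousStar A] in
/-- MINK from a compact set of large measure. -/
theorem mink_of_lt (μ : Measure A) [μ.IsAddLeftInvariant] (O : Subring A)
    (hO : (O : Set A).Countable) (K : Set A) (hK : IsCompact K)
    (hKO : ∀ a : A, ∃ k ∈ K, ∃ o ∈ O, a = k + o)
    (huni : ∀ u ∈ unitary A, ∀ s : Set A, IsCompact s → μ ((fun x => u * x) ⁻¹' s) = μ s)
    (W : Set A) (hW : IsCompact W) (hlt : μ K < μ W) :
    ∃ C : Set A, IsCompact C ∧ ∀ u ∈ unitary A, ∃ x ∈ O, x ≠ 0 ∧ u * x ∈ C := by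
  have : MeasurableAdd A := ⟨fun c => (continuous_const_add c).measurable,
    fun c => (continuous_add_const c).measurable⟩
  refine ⟨(fun p : A × A => p.1 - p.2) '' (W ×ˢ W), (hW.prod hW).image (by fun_prop), ?_⟩
  intro u hu
  have hWc : IsClosed ((fun x => u * x) ⁻¹' W) := hW.isClosed.preimage (by fun_prop)
  obtain ⟨x, hx, y, hy, hxy, hO'⟩ := exists_sub_mem_of_lt μ O.toAddSubgroup hO K
    ((fun x => u * x) ⁻¹' W) hK.isClosed.measurableSet hWc.measurableSet hKO
    (by rw [huni u hu W hW]; exact hlt)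
  refine ⟨x - y, hO', sub_ne_zero.2 hxy, ⟨(u * x, u * y), ⟨hx, hy⟩, ?_⟩⟩
  simp [mul_sub]

/-- **Cocompactness of the unitary group** of a discrete cocompact star-stable order. -/
theorem cocompact_unitary [LocallyCompactSpace A] [NoncompactSpace A] (μ : Measure A)
    [μ.IsAddHaarMeasure] [μ.Regular] (O : Subring A)
    (hO : (O : Set A).Countable) (hstar : ∀ x ∈ O, star x ∈ O)
    (hfin : ∀ C : Set A, IsCompact C → (C ∩ (O : Set A)).Finite)
    (K : Set A) (hK : IsCompact K) (hKO : ∀ a : A, ∃ k ∈ K, ∃ o ∈ O, a = k + o)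
    (huni : ∀ u ∈ unitary A, ∀ s : Set A, IsCompact s → μ ((fun x => u * x) ⁻¹' s) = μ s)
    (hinv : ∀ x ∈ O, x ≠ 0 → ∃ y m : A, x * y = 1 ∧ y * x = 1 ∧ m ∈ O ∧ star m = m ∧
      (∀ a, m * a = a * m) ∧ (∀ a b : A, m * a = m * b → a = b) ∧ m * y ∈ O ∧
      ∃ T : Set A, T.Finite ∧ ∀ x ∈ O, ∃ t ∈ T, ∃ w ∈ O, x = t + m ^ 3 * w) :
    ∃ C₂ : Set A, IsCompact C₂ ∧ ∀ u ∈ unitary A, ∃ γ ∈ O, γ ∈ unitary A ∧ u * γ ∈ C₂ := by
  have hK' : μ K < ⊤ := hK.measure_lt_top
  have huniv : μ (univ : Set A) = ⊤ := measure_univ_of_isAddLeftInvariant μ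
  obtain ⟨W, -, hW, hlt⟩ := isOpen_univ.exists_lt_isCompact (μ := μ) (r := μ K)
    (by rw [huniv]; exact hK')
  obtain ⟨C, hC, hmink⟩ := mink_of_lt μ O hO K hK hKO huni W hW hlt
  exact exists_compact_mul_unitary O hstar hfin C hC hmink hinv

end Vale.Agent.P011.H74
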