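import Mathlib.Topology.Algebra.Group.Basic
import Mathlib.GroupTheory.Index
import Vale.Agent.P011.H74.CocAbs

/-!
# Cocompactness: group form, subgroups of finite index, subgroups with compact preimage
-/

namespace Vale.Agent.P011.H74

open Set

section Grp

variable {G : Type*} [Group G] [TopologicalSpace G] [ContinuousMul G]

/-- Passing to a subgroup `N` of finite index in `Γ`. -/
theorem cocompact_of_finiteIndex (Γ N : Subgroup G) (hN : (N.subgroupOf Γ).FiniteIndex)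
    (C : Set G) (hC : IsCompact C) (h : ∀ g : G, ∃ γ ∈ Γ, g * γ ∈ C) :
    ∃ C' : Set G, IsCompact C' ∧ ∀ g : G, ∃ γ ∈ N, g * γ ∈ C' := by
  classical
  -- representatives of the right cosets of `N` in `Γ` (inverses of those of the left cosets)
  have hfin : Finite (Γ ⧸ N.subgroupOf Γ) := Subgroup.finite_quotient_of_finiteIndex
  let r : (Γ ⧸ N.subgroupOf Γ) → Γ := Quotient.out
  refine ⟨⋃ q : Γ ⧸ N.subgroupOf Γ, (fun c : G => c * (r q : G)) '' C,
    isCompact_iUnion fun q => hC.image (continuous_mul_const _), ?_⟩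
  intro g
  obtain ⟨γ, hγ, hgC⟩ := h g
  let γ' : Γ := ⟨γ, hγ⟩
  have hq : (γ'⁻¹ : Γ)⁻¹ * r ((γ'⁻¹ : Γ) : Γ ⧸ N.subgroupOf Γ) ∈ N.subgroupOf Γ := by
    rw [← QuotientGroup.eq]
    exact (Quotient.out_eq _).symm
  rw [Subgroup.mem_subgroupOf] at hq
  refine ⟨_, hq, mem_iUnion.2 ⟨((γ'⁻¹ : Γ) : Γ ⧸ N.subgroupOf Γ), g * γ, hgC, ?_⟩⟩
  simp only [γ', Subgroup.coe_mul, inv_inv, mul_assoc]

/-- The kernel of a homomorphism `c : Γ → R` to a finite group. -/
theorem cocompact_ker_of_finite {R : Type*} [Group R] [Finite R] (Γ : Subgroup G) (c : Γ →* R)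
    (C : Set G) (hC : IsCompact C) (h : ∀ g : G, ∃ γ ∈ Γ, g * γ ∈ C) :
    ∃ C' : Set G, IsCompact C' ∧ ∀ g : G, ∃ γ : Γ, c γ = 1 ∧ g * γ ∈ C' := by
  have hker : (c.ker.map Γ.subtype).subgroupOf Γ = c.ker := by
    ext x
    simp [Subgroup.mem_subgroupOf]
  obtain ⟨C', hC', h'⟩ := cocompact_of_finiteIndex Γ (c.ker.map Γ.subtype)
    (by rw [hker]; infer_instance) C hC h
  refine ⟨C', hC', fun g => ?_⟩
  obtain ⟨γ, hγ, hg⟩ := h' g
  obtain ⟨x, hx, rfl⟩ := Subgroup.mem_map.1 hγ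
  exact ⟨x, hx, hg⟩

/-- Cocompactness passes to inverses: `G = Γ C`. -/
theorem cocompact_left {G : Type*} [Group G] [TopologicalSpace G] [ContinuousInv G]
    (Γ : Subgroup G) (C : Set G) (hC : IsCompact C)
    (h : ∀ g : G, ∃ γ ∈ Γ, g * γ ∈ C) :
    ∃ C' : Set G, IsCompact C' ∧ ∀ g : G, ∃ γ ∈ Γ, γ * g ∈ C' := by
  refine ⟨C⁻¹, hC.inv, fun g => ?_⟩
  obtain ⟨γ, hγ, hg⟩ := h g⁻¹
  refine ⟨γ⁻¹, Γ.inv_mem hγ, ?_⟩
  rw [Set.mem_inv]
  simpa [mul_inv_rev] using hg

end Grp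

section Unit

variable {A : Type*} [Ring A] [StarRing A] [TopologicalSpace A] [IsTopologicalRing A]
  [ContinuousStar A] [T2Space A]

lemma isClosed_unitary : IsClosed (unitary A : Set A) := by
  have h1 : (unitary A : Set A) = {u | star u * u = 1} ∩ {u | u * star u = 1} := by
    ext u
    exact Unitary.mem_iff
  rw [h1]
  exact (isClosed_eq (by fun_prop) continuous_const).inter
    (isClosed_eq (by fun_prop) continuous_const)

/-- A compact subset of `A` meets the unitary group in a compact subset of the group. -/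
lemma isCompact_unitary_preimage {C : Set A} (hC : IsCompact C) :
    IsCompact {u : unitary A | (u : A) ∈ C} :=
  (isClosed_unitary (A := A)).isClosedEmbedding_subtypeVal.isCompact_preimage hC

/-- The integral unitaries form a group. -/
def intUnitary (O : Subring A) (hstar : ∀ x ∈ O, star x ∈ O) : Subgroup (unitary A) where
  carrier := {γ | (γ : A) ∈ O}
  mul_mem' := fun ha hb => O.mul_mem ha hb
  one_mem' := O.one_mem
  inv_mem' := fun ha => hstar _ ha

omit [TopologicalSpace A] [IsTopologicalRing A] [ContinuousStar A] [T2Space A] in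
lemma mem_intUnitary {O : Subring A} {hstar : ∀ x ∈ O, star x ∈ O} {γ : unitary A} :
    γ ∈ intUnitary O hstar ↔ (γ : A) ∈ O := Iff.rfl

/-- Group form of the conclusion of `exists_compact_mul_unitary`. -/
theorem cocompact_group_form (O : Subring A) (hstar : ∀ x ∈ O, star x ∈ O)
    (C₂ : Set A) (hC₂ : IsCompact C₂)
    (h : ∀ u ∈ unitary A, ∃ γ ∈ O, γ ∈ unitary A ∧ u * γ ∈ C₂) :
    ∃ C : Set (unitary A), IsCompact C ∧
      ∀ u : unitary A, ∃ γ ∈ intUnitary O hstar, u * γ ∈ C := by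
  refine ⟨{u : unitary A | (u : A) ∈ C₂}, isCompact_unitary_preimage hC₂, fun u => ?_⟩
  obtain ⟨γ, hγ, hγU, hC⟩ := h u u.2
  exact ⟨⟨γ, hγU⟩, hγ, hC⟩

/-- The norm one group: `ker ν` and its integral points. -/
theorem cocompact_ker_group_form {T : Type*} [CommGroup T] [TopologicalSpace T]
    (ν : unitary A →* T) (hν : Continuous ν)
    (O : Subring A) (hstar : ∀ x ∈ O, star x ∈ O)
    (hfinT : ∀ K : Set T, IsCompact K → (K ∩ (ν '' {γ | (γ : A) ∈ O})).Finite)
    (hker : IsClosed (ν.ker : Set (unitary A)))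
    (C₂ : Set A) (hC₂ : IsCompact C₂)
    (h : ∀ u ∈ unitary A, ∃ γ ∈ O, γ ∈ unitary A ∧ u * γ ∈ C₂) :
    ∃ C : Set ν.ker, IsCompact C ∧
      ∀ u : ν.ker, ∃ γ ∈ (intUnitary O hstar).subgroupOf ν.ker, u * γ ∈ C := by
  obtain ⟨C₃, hC₃, h₃⟩ := exists_compact_mul_unitary_ker ν hν O hstar hfinT C₂ hC₂ h
  refine ⟨{u : ν.ker | ((u : unitary A) : A) ∈ C₃}, ?_, ?_⟩
  · exact hker.isClosedEmbedding_subtypeVal.isCompact_preimage (isCompact_unitary_preimage hC₃)
  · intro u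
    obtain ⟨γ, hγ, hνγ, hC⟩ := h₃ u (MonoidHom.mem_ker.1 u.2)
    exact ⟨⟨γ, MonoidHom.mem_ker.2 hνγ⟩, hγ, hC⟩

end Unit

end Vale.Agent.P011.H74
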