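import Vale.Agent.P011.H3.Siz
import Vale.Agent.P011.H305.SetF
import Vale.Agent.P011.H748.LineLim
import Vale.Agent.P011.H74.GlobF

/-!
# Components of the centre of the division algebra over a place, function fields

The size of an element of `K` measured in `D` is comparable to its absolute value at the place of
`K` above `v`, if there is only one, and to the sum of the two absolute values otherwise.
Approximation of elements of norm one of `K`.
-/

open Module Topology Filter

set_option linter.unusedSectionVars false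

namespace Vale.Agent.P011.H74.CompsF

open Vale.Agent.P011.H738 Vale.Agent.P011.H271 Vale.Agent.P011.H305 Vale.Agent.P011.H3
open Vale.Agent.P011.H182 (na Ig na_mul na_nonneg na_add_le na_sub_le na_zero na_pos na_const
  coord_le_na na_smul na_neg)

variable {k K D : Type} [Field k] [Field K] [StarRing K] [DivisionRing D] [StarRing D]
  [Algebra k K] [Algebra k D] [Algebra K D] [IsScalarTower k K D] {d : kˣ} {s : K} {N : ℕ}

theorem star_alg (hS : SetF k K D d s) (x : K) :
    star (algebraMap K D x) = algebraMap K D (star x) := by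
  rw [Algebra.algebraMap_eq_smul_one, hS.star_smul, star_one, ← Algebra.algebraMap_eq_smul_one]

theorem two_K (hS : SetF k K D d s) : (2 : K) ≠ 0 := by
  rw [← map_ofNat (algebraMap k K) 2]
  exact (map_ne_zero _).mpr hS.two_ne

theorem exists_coord (hS : SetF k K D d s) (x : K) : ∃ p q : k,
    x = algebraMap k K p + algebraMap k K q * s ∧
      star x = algebraMap k K p - algebraMap k K q * s := by
  have h2 := two_K hS
  have hs := hS.s_ne
  have hst2 : star (2 : K) = 2 := by
    rw [← map_ofNat (algebraMap k K) 2]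
    exact hS.star_algebraMap 2
  obtain ⟨p, hp⟩ := (hS.fix ((x + star x) / 2)).mp (by
    rw [star_div₀, star_add, star_star, add_comm, hst2])
  obtain ⟨q, hq⟩ := (hS.fix ((x - star x) / (2 * s))).mp (by
    rw [star_div₀, star_sub, star_star, star_mul, hS.star_s, hst2]
    field_simp
    ring)
  refine ⟨p, q, ?_, ?_⟩
  · rw [hp, hq]
    field_simp
    ring
  · rw [hp, hq]
    field_simp
    ring

theorem coord_unique (hS : SetF k K D d s) {p q p' q' : k}
    (h : algebraMap k K p + algebraMap k K q * s = algebraMap k K p' + algebraMap k K q' * s) :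
    p = p' ∧ q = q' := by
  have h2 := two_K hS
  have hs := hS.s_ne
  have h1 := congrArg star h
  rw [star_add, star_add, star_mul, star_mul, hS.star_s, hS.star_algebraMap, hS.star_algebraMap,
    hS.star_algebraMap, hS.star_algebraMap] at h1
  have h3 : 2 * algebraMap k K p = 2 * algebraMap k K p' := by
    linear_combination h + h1
  have h4 : 2 * s * algebraMap k K q = 2 * s * algebraMap k K q' := by
    linear_combination h - h1
  exact ⟨(algebraMap k K).injective (mul_left_cancel₀ h2 h3),
    (algebraMap k K).injective (mul_left_cancel₀ (mul_ne_zero h2 hs) h4)⟩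

section core

variable (B : Basis (Fin N) k D) (a : AbsoluteValue k ℝ) {L : Type} [NormedField L] (φ : K →+* L)

theorem le_of (hS : SetF k K D d s) (hφ : ∀ c : k, ‖φ (algebraMap k K c)‖ = a c) :
    ∃ c : ℝ, 0 < c ∧ ∀ x : K, ‖φ x‖ ≤ c * nK B a x := by
  have h2 := two_K hS
  have h20 : 0 < a 2 := a.pos hS.two_ne
  obtain ⟨C, hC1, -, hCs⟩ := na_const B a (fun c x => hS.star_smulk c x)
  have h1 : 0 < na B a (1 : D) := na_pos B a one_ne_zero
  have hs : 0 < na B a (algebraMap K D s) := na_pos B a (by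
    rw [Ne, map_eq_zero]
    exact hS.s_ne)
  refine ⟨(1 + C) / a 2 / na B a (1 : D) + (1 + C) / a 2 / na B a (algebraMap K D s) * ‖φ s‖,
    by positivity, fun x => ?_⟩
  obtain ⟨p, q, hx, hx'⟩ := exists_coord hS x
  have hpe : (2 * p) • (1 : D) = algebraMap K D x + star (algebraMap K D x) := by
    rw [star_alg hS, ← map_add, ← algebraMap_smul K, ← Algebra.algebraMap_eq_smul_one]
    congr 1
    rw [hx', map_mul, map_ofNat]
    nth_rw 1 [hx]
    ring
  have hqe : (2 * q) • (algebraMap K D s) = algebraMap K D x - star (algebraMap K D x) := by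
    have e : (2 * q) • (algebraMap K D s) = algebraMap K D (algebraMap k K (2 * q) * s) := by
      rw [map_mul, ← IsScalarTower.algebraMap_apply, Algebra.smul_def]
    rw [e, star_alg hS, ← map_sub]
    congr 1
    rw [hx', map_mul, map_ofNat]
    nth_rw 1 [hx]
    ring
  have hp1 : a p ≤ (1 + C) / a 2 / na B a (1 : D) * nK B a x := by
    have h3 : a 2 * a p * na B a (1 : D) ≤ (1 + C) * nK B a x := by
      rw [← map_mul, ← na_smul, hpe]
      refine (na_add_le _ _ _ _).trans ?_
      have := hCs (algebraMap K D x)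
      rw [add_mul, one_mul]
      exact add_le_add le_rfl this
    rw [div_div, div_mul_eq_mul_div, le_div_iff₀ (by positivity)]
    linarith
  have hq1 : a q ≤ (1 + C) / a 2 / na B a (algebraMap K D s) * nK B a x := by
    have h3 : a 2 * a q * na B a (algebraMap K D s) ≤ (1 + C) * nK B a x := by
      rw [← map_mul, ← na_smul, hqe]
      refine (na_sub_le _ _ _ _).trans ?_
      have := hCs (algebraMap K D x)
      rw [add_mul, one_mul]
      exact add_le_add le_rfl this
    rw [div_div, div_mul_eq_mul_div, le_div_iff₀ (by positivity)]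
    linarith
  have h3 : ‖φ x‖ ≤ a p + a q * ‖φ s‖ := by
    conv_lhs => rw [hx]
    rw [map_add, map_mul]
    refine (norm_add_le _ _).trans ?_
    rw [norm_mul, hφ, hφ]
  refine h3.trans ?_
  rw [add_mul, mul_right_comm]
  exact add_le_add hp1 (mul_le_mul_of_nonneg_right hq1 (norm_nonneg _))

theorem ge_of (hS : SetF k K D d s) (hφ : ∀ c : k, ‖φ (algebraMap k K c)‖ = a c) :
    ∃ c : ℝ, 0 < c ∧ ∀ x : K, nK B a x ≤ c * (‖φ x‖ + ‖φ (star x)‖) := by
  have h2 := two_K hS
  have h20 : 0 < a 2 := a.pos hS.two_ne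
  have h1 : 0 < na B a (1 : D) := na_pos B a one_ne_zero
  have hs : 0 < ‖φ s‖ := norm_pos_iff.mpr ((map_ne_zero φ).mpr hS.s_ne)
  have hs' := na_nonneg B a (algebraMap K D s)
  refine ⟨na B a (1 : D) / a 2 + na B a (algebraMap K D s) / (a 2 * ‖φ s‖), by positivity,
    fun x => ?_⟩
  obtain ⟨p, q, hx, hx'⟩ := exists_coord hS x
  have h22 : ‖φ 2‖ = a 2 := by
    rw [← map_ofNat (algebraMap k K) 2]
    exact hφ 2
  have hp : a 2 * a p ≤ ‖φ x‖ + ‖φ (star x)‖ := by
    rw [← h22, ← hφ p, ← norm_mul, ← map_mul]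
    have e : 2 * algebraMap k K p = x + star x := by
      rw [hx']
      nth_rw 1 [hx]
      ring
    rw [e, map_add]
    exact norm_add_le _ _
  have hq : a 2 * ‖φ s‖ * a q ≤ ‖φ x‖ + ‖φ (star x)‖ := by
    rw [← h22, ← hφ q, ← norm_mul, ← norm_mul, ← map_mul, ← map_mul]
    have e : 2 * s * algebraMap k K q = x - star x := by
      rw [hx']
      nth_rw 1 [hx]
      ring
    rw [e, map_sub]
    exact norm_sub_le _ _
  have h3 : nK B a x ≤ a p * na B a (1 : D) + a q * na B a (algebraMap K D s) := by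
    have e : algebraMap K D x = p • (1 : D) + q • algebraMap K D s := by
      conv_lhs => rw [hx]
      rw [map_add, map_mul, ← IsScalarTower.algebraMap_apply, ← IsScalarTower.algebraMap_apply,
        Algebra.algebraMap_eq_smul_one, Algebra.smul_def q]
    rw [nK, e]
    refine (na_add_le _ _ _ _).trans ?_
    rw [na_smul, na_smul]
  have h4 : a p ≤ (‖φ x‖ + ‖φ (star x)‖) / a 2 := by
    rw [le_div_iff₀ h20]
    linarith
  have h5 : a q ≤ (‖φ x‖ + ‖φ (star x)‖) / (a 2 * ‖φ s‖) := by
    rw [le_div_iff₀ (by positivity)]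
    linarith
  refine h3.trans ?_
  rw [add_mul]
  refine add_le_add ?_ ?_
  · calc a p * na B a (1 : D) ≤ (‖φ x‖ + ‖φ (star x)‖) / a 2 * na B a (1 : D) :=
        mul_le_mul_of_nonneg_right h4 h1.le
      _ = _ := by ring
  · calc a q * na B a (algebraMap K D s) ≤
          (‖φ x‖ + ‖φ (star x)‖) / (a 2 * ‖φ s‖) * na B a (algebraMap K D s) :=
        mul_le_mul_of_nonneg_right h5 hs'
      _ = _ := by ring

omit [StarRing K] in
theorem sz_norm : Sz fun x : K => ‖φ x‖ where
  nonneg x := norm_nonneg _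
  zero := by rw [map_zero, norm_zero]
  one := by rw [map_one, norm_one]; exact one_pos
  add x y := by rw [map_add]; exact norm_add_le _ _
  mul := ⟨1, one_pos, fun x y => by rw [map_mul, norm_mul, one_mul]⟩
  low := ⟨1, one_pos, fun x y => by rw [map_mul, norm_mul, one_mul]⟩

/-- The components, when there is one place of `K` above `a`. -/
theorem comps_one (hS : SetF k K D d s) (hφ : ∀ c : k, ‖φ (algebraMap k K c)‖ = a c)
    (hst : ∀ x : K, ‖φ (star x)‖ = ‖φ x‖) : Comps B a fun _ : Unit => nK (K := K) B a := by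
  obtain ⟨c1, hc1, h1⟩ := le_of B a φ hS hφ
  obtain ⟨c2, hc2, h2⟩ := ge_of B a φ hS hφ
  obtain ⟨C, hC1, hCm⟩ := na_mul B a
  refine ⟨inferInstance, fun _ => ⟨fun x => na_nonneg _ _ _, ?_, ?_, fun x y => ?_, ?_, ?_⟩,
    ⟨1, one_pos, fun _ x => by rw [one_mul]⟩, ⟨1, one_pos, fun x => ?_⟩⟩
  · rw [nK, map_zero, na_zero]
  · rw [nK, map_one]
    exact na_pos B a one_ne_zero
  · rw [nK, map_add]
    exact na_add_le _ _ _ _
  · refine ⟨C, by linarith, fun x y => ?_⟩
    rw [nK, map_mul, ← mul_assoc]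
    exact hCm _ _
  · refine ⟨c2 * 2 * (c2 * 2) * c1, by positivity, fun x y => ?_⟩
    have h3 : nK B a x ≤ c2 * 2 * ‖φ x‖ := by
      have := h2 x
      rw [hst] at this
      linarith
    have h4 : nK B a y ≤ c2 * 2 * ‖φ y‖ := by
      have := h2 y
      rw [hst] at this
      linarith
    have h5 := h1 (x * y)
    rw [map_mul, norm_mul] at h5
    calc nK B a x * nK B a y ≤ (c2 * 2 * ‖φ x‖) * (c2 * 2 * ‖φ y‖) :=
          mul_le_mul h3 h4 (na_nonneg _ _ _) (by positivity)
      _ = c2 * 2 * (c2 * 2) * (‖φ x‖ * ‖φ y‖) := by ring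
      _ ≤ c2 * 2 * (c2 * 2) * (c1 * nK B a (x * y)) :=
          mul_le_mul_of_nonneg_left h5 (by positivity)
      _ = _ := by ring
  · rw [one_mul, Finset.univ_unique, Finset.sum_singleton]

/-- The components, when there are two places of `K` above `a`. -/
theorem comps_two (hS : SetF k K D d s) (hφ : ∀ c : k, ‖φ (algebraMap k K c)‖ = a c) :
    Comps B a fun (i : Bool) (x : K) => cond i ‖φ x‖ ‖φ (star x)‖ := by
  obtain ⟨c1, hc1, h1⟩ := le_of B a φ hS hφ
  obtain ⟨c2, hc2, h2⟩ := ge_of B a φ hS hφ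
  obtain ⟨c3, hc3, h3⟩ := le_of B a (φ.comp (starRingEnd K)) hS (fun c => by
    rw [RingHom.comp_apply, starRingEnd_apply, hS.star_algebraMap, hφ])
  refine ⟨inferInstance, fun i => ?_, ⟨c1 + c3, by positivity, fun i x => ?_⟩,
    ⟨c2, hc2, fun x => ?_⟩⟩
  · cases i
    · exact sz_norm (φ.comp (starRingEnd K))
    · exact sz_norm φ
  · have h0 : 0 ≤ nK B a x := na_nonneg _ _ _
    cases i
    · refine (h3 x).trans ?_
      nlinarith
    · refine (h1 x).trans ?_
      nlinarith
  · rw [Fintype.sum_bool]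
    exact h2 x

end core

section places

variable [GFF k] (B : Basis (Fin N) k D) {v : Place k}

omit [GFF k] in
/-- The two descriptions of split places. -/
theorem split_iff (hS : SetF k K D d s) (v : Place k) :
    (∃ α : v.comp, α ^ 2 = algebraMap k v.comp d) ↔ Nonempty (K →ₐ[k] v.comp) := by
  constructor
  · rintro ⟨α, hα⟩
    choose p q hpq _ using exists_coord hS
    have hu : ∀ (x : K) (a b : k), x = algebraMap k K a + algebraMap k K b * s →
        p x = a ∧ q x = b := fun x a b h => coord_unique hS (by rw [← hpq x, h])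
    refine ⟨{ toFun := fun x => algebraMap k v.comp (p x) + algebraMap k v.comp (q x) * α
              map_one' := ?_
              map_mul' := fun x y => ?_
              map_zero' := ?_
              map_add' := fun x y => ?_
              commutes' := fun c => ?_ }⟩
    · obtain ⟨h1, h2⟩ := hu 1 1 0 (by rw [map_one, map_zero, zero_mul, add_zero])
      rw [h1, h2, map_one, map_zero, zero_mul, add_zero]
    · obtain ⟨h1, h2⟩ := hu (x * y) (p x * p y + d * (q x * q y)) (p x * q y + q x * p y) (by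
        conv_lhs => rw [hpq x, hpq y]
        rw [map_add, map_add, map_mul, map_mul, map_mul, map_mul, map_mul, ← hS.sq]
        ring)
      rw [h1, h2, map_add, map_add, map_mul, map_mul, map_mul, map_mul, map_mul, ← hα]
      ring
    · obtain ⟨h1, h2⟩ := hu 0 0 0 (by rw [map_zero, zero_mul, add_zero])
      rw [h1, h2, map_zero, zero_mul, add_zero]
    · obtain ⟨h1, h2⟩ := hu (x + y) (p x + p y) (q x + q y) (by
        conv_lhs => rw [hpq x, hpq y]
        rw [map_add, map_add]
        ring)
      rw [h1, h2, map_add, map_add]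
      ring
    · obtain ⟨h1, h2⟩ := hu (algebraMap k K c) c 0 (by rw [map_zero, zero_mul, add_zero])
      rw [h1, h2, map_zero, zero_mul, add_zero]
  · rintro ⟨φ⟩
    exact ⟨φ s, by rw [← map_pow, hS.sq, AlgHom.commutes]⟩

theorem comps_nonsplit (hS : SetF k K D d s)
    (hv : ¬ ∃ α : v.comp, α ^ 2 = algebraMap k v.comp d) :
    Comps B v.abv fun _ : Unit => nK (K := K) B v.abv := by
  have hE : IsEmpty (K →ₐ[k] v.comp) := by
    rw [← not_nonempty_iff, ← split_iff hS]
    exact hv
  obtain ⟨L, _, _, _, _, _, φ, hst, hφs, -, hφk, hLn, -⟩ :=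
    exists_quad_field hS.fix ⟨s, hS.star_ne⟩ v hE
  refine comps_one B v.abv φ hS (fun c => ?_) fun x => ?_
  · rw [hφk, hLn, norm_alg]
  · rw [hφs, hst]

theorem comps_split (hS : SetF k K D d s)
    (hv : ∃ α : v.comp, α ^ 2 = algebraMap k v.comp d) :
    ∃ b : Bool → K → ℝ, Comps B v.abv b := by
  obtain ⟨φ⟩ := (split_iff hS v).mp hv
  exact ⟨_, comps_two B v.abv (φ : K →+* v.comp) hS fun c => by
    rw [AlgHom.coe_toRingHom, AlgHom.commutes, norm_alg]⟩

theorem adiv_split (hS : SetF k K D d s) (hv : v ∈ Adiv k K D) :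
    ∃ α : v.comp, α ^ 2 = algebraMap k v.comp d := by
  obtain ⟨φ, -⟩ := hv
  exact (split_iff hS v).mpr ⟨φ⟩

/-- Split places outside a finite set. -/
theorem exists_split_place (hk : IsGlobalFunctionField k) (hS : SetF k K D d s) {n : ℕ}
    (hn : n ≠ 0) (hdeg : finrank K D = n ^ 2) {F : Set (Place k)} (hF : F.Finite) :
    ∃ q ∉ F, ∃ α : q.comp, α ^ 2 = algebraMap k q.comp d := by
  have := hS.starModule
  obtain ⟨q, hq, -, φ, -⟩ := H519.exists_split_place hk (hS.anis hdeg) hn hF.toFinset 0
  exact ⟨q, fun h => hq (hF.mem_toFinset.mpr h), (split_iff hS q).mpr ⟨φ⟩⟩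

/-- **Approximation in the elements of norm one of `K`.** -/
theorem k1_approx (hS : SetF k K D d s) {P : Set (Place k)} (hP : P.Finite) (l : Place k → K)
    (hl : ∀ p ∈ P, l p * star (l p) = 1) {ε : ℝ} (hε : 0 < ε) :
    ∃ c : K, c * star c = 1 ∧ ∀ p ∈ P, nK B p.abv (c - l p) < ε := by
  classical
  rcases P.eq_empty_or_nonempty with rfl | ⟨p0, hp0⟩
  · exact ⟨1, by rw [star_one, mul_one], fun p hp => absurd hp (Set.notMem_empty p)⟩
  -- Hilbert 90
  have h90 : ∀ p, p ∈ P → ∃ y : K, y ≠ 0 ∧ l p * star y = y := by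
    intro p hp
    by_cases h1 : 1 + l p = 0
    · refine ⟨s, hS.s_ne, ?_⟩
      rw [hS.star_s, eq_neg_of_add_eq_zero_right h1]
      ring
    · refine ⟨1 + l p, h1, ?_⟩
      rw [star_add, star_one, mul_add, mul_one, hl p hp]
      ring
  choose! y hy0 hy using h90
  choose ya yb hyab _ using fun p => exists_coord hS (y p)
  -- the margins
  have hmar : ∀ p, p ∈ P → ∃ δ : ℝ, 0 < δ ∧ ∀ z : K, nK B p.abv (z - y p) < δ → z ≠ 0 ∧
      nK B p.abv (z * (star z)⁻¹ - l p) < ε := by
    intro p hp
    have hyD : algebraMap K D (y p) ≠ 0 := (map_ne_zero _).mpr (hy0 p hp)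
    have hysD : algebraMap K D (star (y p)) ≠ 0 := (map_ne_zero _).mpr (star_ne_zero.mpr (hy0 p hp))
    obtain ⟨C, hC1, -, hCs⟩ := na_const B p.abv (fun c x => hS.star_smulk c x)
    obtain ⟨δ1, hδ1, h1⟩ := GlobF.near_prod B p.abv (algebraMap K D (y p))
      (algebraMap K D (star (y p)))⁻¹ hε
    obtain ⟨δ2, hδ2, h2⟩ := H748.Lim.inv_cts (B := B) (a := p.abv) hysD hδ1
    obtain ⟨δ3, hδ3, h3⟩ := H748.Lim.inv_cts (B := B) (a := p.abv) hyD hδ1
    have hC0 : 0 < C := by linarith
    refine ⟨min δ1 (min (δ2 / C) δ3), by positivity, fun z hz => ?_⟩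
    have hz1 : na B p.abv (algebraMap K D z - algebraMap K D (y p)) <
        min δ1 (min (δ2 / C) δ3) := by
      rw [← map_sub]
      exact hz
    have hz2 : na B p.abv (algebraMap K D (star z) - algebraMap K D (star (y p))) < δ2 := by
      rw [← star_alg hS, ← star_alg hS, ← star_sub]
      refine (hCs _).trans_lt ?_
      have := hz1.trans_le ((min_le_right _ _).trans (min_le_left _ _))
      rw [lt_div_iff₀ hC0] at this
      linarith
    obtain ⟨hz0, -⟩ := h3 _ (hz1.trans_le ((min_le_right _ _).trans (min_le_right _ _)))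
    obtain ⟨-, hzi⟩ := h2 _ hz2
    refine ⟨fun h => hz0 (by rw [h, map_zero]), ?_⟩
    have h4 := h1 _ _ (hz1.trans_le (min_le_left _ _)) hzi
    have e : l p = y p * (star (y p))⁻¹ := by
      rw [← hy p hp]
      nth_rw 2 [hy p hp]
      rw [mul_assoc, mul_inv_cancel₀ (star_ne_zero.mpr (hy0 p hp)), mul_one]
    rw [nK, e, map_sub, map_mul, map_mul, map_inv₀, map_inv₀]
    exact h4
  choose! δ hδ hδ' using hmar
  obtain ⟨e1, he1, hle⟩ := GlobF.exists_lower hP (u := δ) hδ
  obtain ⟨e2, he2, hle2⟩ := GlobF.exists_lower hP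
    (u := fun p => (na B p.abv (1 : D) + na B p.abv (algebraMap K D s))⁻¹) fun p _ => by
      have h1 : 0 < na B p.abv (1 : D) := na_pos B p.abv one_ne_zero
      have h2 : 0 ≤ na B p.abv (algebraMap K D s) := na_nonneg B p.abv _
      positivity
  obtain ⟨a, ha⟩ := H698.place_weak hP.toFinset
    (fun p => algebraMap k (p : Place k).comp (ya p)) (mul_pos he1 he2)
  obtain ⟨b, hb⟩ := H698.place_weak hP.toFinset
    (fun p => algebraMap k (p : Place k).comp (yb p)) (mul_pos he1 he2)
  obtain ⟨z, hz⟩ : ∃ z : K, z = algebraMap k K a + algebraMap k K b * s := ⟨_, rfl⟩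
  have hzp : ∀ p ∈ P, nK B p.abv (z - y p) < δ p := by
    intro p hp
    have h1 := ha ⟨p, hP.mem_toFinset.mpr hp⟩
    have h2 := hb ⟨p, hP.mem_toFinset.mpr hp⟩
    rw [← map_sub, norm_alg] at h1 h2
    have e : algebraMap K D (z - y p) = (a - ya p) • (1 : D) + (b - yb p) • algebraMap K D s := by
      rw [← Algebra.algebraMap_eq_smul_one, Algebra.smul_def, IsScalarTower.algebraMap_apply k K D,
        IsScalarTower.algebraMap_apply k K D, ← map_mul, ← map_add]
      congr 1
      rw [hz, hyab p, map_sub, map_sub]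
      ring
    have h3 : 0 < na B p.abv (1 : D) := na_pos B p.abv one_ne_zero
    have h4 : 0 ≤ na B p.abv (algebraMap K D s) := na_nonneg B p.abv _
    have h5 := hle2 p hp
    have h6 : e2 * (na B p.abv (1 : D) + na B p.abv (algebraMap K D s)) ≤ 1 := by
      rwa [le_inv_comm₀ he2 (by positivity), ← one_div, le_div_iff₀ he2, mul_comm] at h5
    rw [nK, e]
    refine (na_add_le _ _ _ _).trans_lt ?_
    rw [na_smul, na_smul]
    calc p.abv (a - ya p) * na B p.abv (1 : D) + p.abv (b - yb p) * na B p.abv (algebraMap K D s)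
        < e1 * e2 * na B p.abv (1 : D) + e1 * e2 * na B p.abv (algebraMap K D s) :=
          add_lt_add_of_lt_of_le (mul_lt_mul_of_pos_right h1 h3)
            (mul_le_mul_of_nonneg_right h2.le h4)
      _ = e1 * (e2 * (na B p.abv (1 : D) + na B p.abv (algebraMap K D s))) := by ring
      _ ≤ e1 * 1 := mul_le_mul_of_nonneg_left h6 he1.le
      _ ≤ δ p := by rw [mul_one]; exact hle p hp
  obtain ⟨hz0, -⟩ := hδ' p0 hp0 z (hzp p0 hp0)
  have hzs : star z ≠ 0 := star_ne_zero.mpr hz0
  refine ⟨z * (star z)⁻¹, ?_, fun p hp => (hδ' p hp z (hzp p hp)).2⟩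
  rw [star_mul, star_inv₀, star_star]
  field_simp

end places

end Vale.Agent.P011.H74.CompsF
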