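import Vale.Agent.P011.H74.N3Abs
import Vale.Agent.P011.H961.Apx2
import Vale.Agent.P011.H775.Inf
import Vale.Agent.P011.H738.SolvFF

/-!
# The move at one nonsplit place of a global function field
-/

set_option linter.unusedSectionVars false

open Matrix Topology Filter Module

namespace Vale.Agent.P011.H74

open Vale.Agent.P011.H775 Vale.Agent.P011.H929 Vale.Agent.P011.H182 Vale.Agent.P011.H74.LCF
  Vale.Agent.P011.H521.LC Vale.Agent.P011.H738 Vale.Agent.P011.H271 Vale.Agent.P011.H698
  Vale.Agent.P011.H961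

section dense

variable {k K D Ω : Type} [Field k] [GFF k] [Field K] [StarRing K] [DivisionRing D] [StarRing D]
  [Algebra k K] [Algebra k D] [Algebra K D] [IsScalarTower k K D] [StarModule K D] {n N : ℕ}
  [Field Ω] [Algebra K Ω] {f : D →ₐ[K] Matrix (Fin n) (Fin n) Ω} {B : Basis (Fin N) k D}
  {v : Place k} {L : Type} [NontriviallyNormedField L]
  {E : Subgroup (Matrix (Fin n) (Fin n) L)ˣ} {g : D →+* Matrix (Fin n) (Fin n) L}

/-- **The special unitary group is dense in the elements of determinant one of the local group.** -/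
theorem LM.dense_GA (h : LM f B v E g)
    (hnc : ∃ u : UA D, u ∈ GA f ∧ ∃ x : D, ((u : Dˣ) : D) * x ≠ x * ((u : Dˣ) : D)) :
    tgE E ⊆ (((GA f).map h.iota).topologicalClosure : Set E) := by
  refine h.app_loc _ ?_ ?_
  · intro e he b hb
    have hcl : IsClosed (((GA f).map h.iota).topologicalClosure : Set E) :=
      Subgroup.isClosed_topologicalClosure _
    have h1 : ∀ u : UA D, h.iota u * b * (h.iota u)⁻¹ ∈
        ((GA f).map h.iota).topologicalClosure := by
      intro u
      have hc : Continuous fun b : E => h.iota u * b * (h.iota u)⁻¹ := by fun_prop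
      refine map_mem_closure (f := fun b : E => h.iota u * b * (h.iota u)⁻¹) hc hb ?_
      rintro _ ⟨y, hy, rfl⟩
      refine ⟨u * y * u⁻¹, ?_, ?_⟩
      · exact (inferInstance : (GA f).Normal).conj_mem y hy u
      · rw [map_mul, map_mul, map_inv]
    have hc : Continuous fun e : E => e * b * e⁻¹ := by fun_prop
    have h2 : e * b * e⁻¹ ∈ closure (((GA f).map h.iota).topologicalClosure : Set E) :=
      map_mem_closure (f := fun e : E => e * b * e⁻¹) hc he (by
        rintro _ ⟨u, rfl⟩
        exact h1 u)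
    rwa [hcl.closure_eq] at h2
  · obtain ⟨u, hu, hux⟩ := hnc
    exact ⟨h.iota u, Subgroup.le_topologicalClosure _ ⟨u, hu, rfl⟩, h.ncE_of hux⟩

end dense

section range

variable {K D L : Type} [Field K] [DivisionRing D] [Algebra K D] [NontriviallyNormedField L]
  {n : ℕ}

/-- Density of the algebra in the matrices. -/
theorem denseRange_of_span {φ : K →+* L} (hd : DenseRange φ)
    {g : D →+* Matrix (Fin n) (Fin n) L}
    (hg : ∀ c : K, g (algebraMap K D c) = algebraMap L _ (φ c))
    (hspan : Submodule.span L (Set.range g) = ⊤) : DenseRange g := by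
  have hsm : ∀ (c : K) (x : D), g (c • x) = φ c • g x := by
    intro c x
    rw [Algebra.smul_def, map_mul, hg, ← Algebra.smul_def]
  have h1 : ∀ Y ∈ closure (Set.range g), ∀ l : L, l • Y ∈ closure (Set.range g) := by
    intro Y hY l
    have h2 : ∀ c : K, φ c • Y ∈ closure (Set.range g) := by
      intro c
      have hc : Continuous fun Z : Matrix (Fin n) (Fin n) L => φ c • Z :=
        continuous_const_smul _
      refine map_mem_closure hc hY ?_
      rintro _ ⟨x, rfl⟩
      exact ⟨c • x, hsm c x⟩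
    have hc : Continuous fun l : L => l • Y := continuous_id.smul continuous_const
    have h3 : l • Y ∈ closure (closure (Set.range g)) :=
      map_mem_closure (f := fun l : L => l • Y) hc (hd l) (by
        rintro _ ⟨c, rfl⟩
        exact h2 c)
    rwa [closure_closure] at h3
  have hadd : ∀ Y ∈ closure (Set.range g), ∀ Z ∈ closure (Set.range g),
      Y + Z ∈ closure (Set.range g) := by
    intro Y hY Z hZ
    refine map_mem_closure₂ continuous_add hY hZ ?_
    rintro _ ⟨x, rfl⟩ _ ⟨y, rfl⟩
    exact ⟨x + y, map_add g x y⟩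
  intro Y
  have hY : Y ∈ Submodule.span L (Set.range g) := by rw [hspan]; trivial
  induction hY using Submodule.span_induction with
  | mem x hx => exact subset_closure hx
  | zero => exact subset_closure ⟨0, map_zero g⟩
  | add x y _ _ hx hy => exact hadd x hx y hy
  | smul l x _ hx => exact h1 x hx l

end range

section main

variable {k K D Ω : Type} [Field k] [GFF k] [Field K] [StarRing K] [DivisionRing D] [StarRing D]
  [Algebra k K] [Algebra k D] [Algebra K D] [IsScalarTower k K D] [StarModule K D] {N : ℕ}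
  [Field Ω] [Algebra K Ω]

/-- The norm of a special unitary element. -/
theorem N_eq_one_iff (hA : Anis k K D 3) (C : Cub K D) (f : D →ₐ[K] Matrix (Fin 3) (Fin 3) Ω)
    (x : D) : (f x).det = 1 ↔ C.N x = 1 := by
  have := hA.central
  have : FiniteDimensional K D := finite_of_finrank_pos (by rw [hA.finrank_eq]; norm_num)
  obtain ⟨-, h, -⟩ := C.of_split hA.finrank_eq f
  rw [h x, ← map_one (algebraMap K Ω)]
  exact (algebraMap K Ω).injective.eq_iff

/-- **The matrix model at a nonsplit place.** -/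
theorem exists_MM_ns (hk : IsGlobalFunctionField k) (hA : Anis k K D 3) (C : Cub K D)
    (f : D →ₐ[K] Matrix (Fin 3) (Fin 3) Ω) (B : Basis (Fin N) k D) (v : Place k)
    (hv : IsEmpty (K →ₐ[k] v.comp)) :
    ∃ (L : Type) (_ : NontriviallyNormedField L) (_ : ProperSpace L) (_ : IsUltrametricDist L)
      (_ : StarRing L) (φ : K →+* L) (H : Matrix (Fin 3) (Fin 3) L)
      (ρ : D →+* Matrix (Fin 3) (Fin 3) L), (∀ x : L, ‖star x‖ = ‖x‖) ∧ Hᴴ = H ∧ H.det ≠ 0 ∧
      (∃ s₀ : L, star s₀ ≠ s₀) ∧ (∃ t : L, star t = t ∧ t ≠ 0 ∧ t ^ 4 ≠ 1) ∧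
      (∃ y : Fin 3 → L, y ≠ 0 ∧ hf H⁻¹ y y = 0) ∧ MM C B v.abv φ H ρ ∧
      ∀ U : Matrix (Fin 3) (Fin 3) L, Uᴴ * H⁻¹ * U = H⁻¹ → U.det = 1 →
        U ∈ closure (ρ '' {x : D | ∃ u : SUA f, ((u : Dˣ) : D) = x}) := by
  classical
  have hcen := hA.central
  have hsim := hA.simple
  have hfd : FiniteDimensional K D := finite_of_finrank_pos (by rw [hA.finrank_eq]; norm_num)
  obtain ⟨L, _, _, _, _, _, φ, hst, hφs, hd, hφk, hLn, hL⟩ :=
    exists_quad_field hA.fixed hA.star_ne v hv
  obtain ⟨g, hg⟩ := H738.splitNS hA (by norm_num) v hv L φ hst hφs hd hφk hLn hL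
  have hne : ∃ x : L, star x ≠ x := by
    obtain ⟨w, hw⟩ := hA.star_ne
    refine ⟨φ w, fun h => hw (φ.injective ?_)⟩
    rw [hφs, h]
  obtain ⟨H, hH, hdet, hgH⟩ := H756.exists_herm (by norm_num) hA.finrank_eq hne φ hφs g hg
  have hHu : IsUnit H.det := isUnit_iff_ne_zero.2 hdet
  have hHH : H * H⁻¹ = 1 := Matrix.mul_nonsing_inv _ hHu
  have hHH' : H⁻¹ * H = 1 := Matrix.nonsing_inv_mul _ hHu
  have hG : (H⁻¹)ᴴ = H⁻¹ := by rw [conjTranspose_nonsing_inv, hH]
  refine ⟨L, inferInstance, inferInstance, inferInstance, inferInstance, φ, H, g, hst, hH, hdet,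
    hne, ?_, ?_, ?_, ?_⟩
  · -- the fixed element
    obtain ⟨c, hc⟩ := v.normalized.2.1
    have hc1 : 1 < v.abv c := by
      rw [hc]
      exact_mod_cast one_lt_qq v
    refine ⟨φ (algebraMap k K c), ?_, ?_, ?_⟩
    · rw [← hφs, (hA.fixed _).2 ⟨c, rfl⟩]
    · intro h0
      have h1 : c = 0 := by
        apply (algebraMap k K).injective
        apply φ.injective
        rw [h0, map_zero, map_zero]
      rw [h1, map_zero] at hc1
      exact absurd hc1 (by norm_num)
    · intro h4
      have h1 : c ^ 4 = 1 := by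
        apply (algebraMap k K).injective
        apply φ.injective
        rw [map_pow, map_pow, h4, map_one, map_one]
      have h2 : v.abv c ^ 4 = 1 := by rw [← map_pow, h1, map_one]
      exact (one_lt_pow₀ hc1 (by norm_num : (4 : ℕ) ≠ 0)).ne' h2
  · -- the isotropic vector
    obtain ⟨x, hx0, hx⟩ := H308.isotropic hk hA.fixed hA.star_ne hst φ hφs hd le_rfl hG
    refine ⟨star x, ?_, ?_⟩
    · intro h
      exact hx0 (by rw [← star_star x, h, star_zero])
    · rw [hf, star_star]
      exact hx
  · -- the model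
    have halg : ∀ (c : K) (x : D), g (c • x) = φ c • g x := by
      intro c x
      rw [Algebra.smul_def, map_mul, hg, ← Algebra.smul_def]
    let _ : Algebra K L := φ.toAlgebra
    have hkm : ∀ c : K, algebraMap K (Matrix (Fin 3) (Fin 3) L) c =
        algebraMap L (Matrix (Fin 3) (Fin 3) L) (φ c) := fun c => rfl
    let g1 : D →ₐ[K] Matrix (Fin 3) (Fin 3) L := { g with
      commutes' := fun c => by
        rw [hkm]
        exact hg c }
    obtain ⟨hT, hN, hAd⟩ := C.of_split hA.finrank_eq g1
    have hspan := H519.span_range_eq_top hA.finrank_eq (by norm_num) φ g hg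
    obtain ⟨C1, hC1, hlo⟩ := exists_lo_nonsplit hA (by norm_num) B hd hφk hLn hL hg
    obtain ⟨C2, hC2, hup⟩ := exists_up B v φ (fun c => by rw [hφk, hLn, norm_alg]) hg
    obtain ⟨cH, hcH0, hcH⟩ := exists_entry_bound H
    obtain ⟨cI, hcI0, hcI⟩ := exists_entry_bound H⁻¹
    exact
      { dense := denseRange_of_span hd hg hspan
        lo := by
          refine ⟨N * (C1 * (1 + 9 * (cH * cI))), by positivity, fun c x hc hx => ?_⟩
          have hx' : ∀ i j, ‖g (star x) i j‖ ≤ 9 * (cH * cI) * c := by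
            intro i j
            have h1 : g (star x) = H * (g x)ᴴ * H⁻¹ := by
              rw [← hgH x, Matrix.mul_assoc, hHH, Matrix.mul_one]
            rw [h1, Matrix.mul_apply]
            refine (norm_sum_le _ _).trans ?_
            have h2 : ∀ l : Fin 3, ‖(H * (g x)ᴴ) i l * H⁻¹ l j‖ ≤ 3 * (cH * cI) * c := by
              intro l
              rw [norm_mul, Matrix.mul_apply]
              have h3 : ‖∑ r, H i r * (g x)ᴴ r l‖ ≤ 3 * cH * c := by
                refine (norm_sum_le _ _).trans ?_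
                have h4 : ∀ r : Fin 3, ‖H i r * (g x)ᴴ r l‖ ≤ cH * c := by
                  intro r
                  rw [norm_mul, Matrix.conjTranspose_apply, hst]
                  exact mul_le_mul (hcH i r).le (hx l r) (norm_nonneg _) hcH0
                refine (Finset.sum_le_sum fun r _ => h4 r).trans (le_of_eq ?_)
                rw [Finset.sum_const, Finset.card_univ, Fintype.card_fin, nsmul_eq_mul]
                push_cast
                ring
              calc _ ≤ 3 * cH * c * cI :=
                    mul_le_mul h3 (hcI l j).le (norm_nonneg _) (by positivity)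
                _ = _ := by ring
            refine (Finset.sum_le_sum fun r _ => h2 r).trans (le_of_eq ?_)
            rw [Finset.sum_const, Finset.card_univ, Fintype.card_fin, nsmul_eq_mul]
            push_cast
            ring
          have hc9 : 0 ≤ 9 * (cH * cI) * c := by positivity
          have h5 := hlo (c + 9 * (cH * cI) * c) x (by positivity)
            (fun i j => (hx i j).trans (by linarith)) (fun i j => (hx' i j).trans (by linarith))
          refine (na_le_of_coord B v.abv h5).trans (le_of_eq ?_)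
          ring
        up := by
          refine ⟨C2, by linarith, fun x i j => ?_⟩
          exact hup _ x (na_nonneg B v.abv x) (fun l => coord_le_na B v.abv x l) i j
        smul := halg
        star' := hgH
        tr := fun x => by
          rw [e1_trace]
          exact hT x
        sn := fun x => by
          rw [e2_trace]
          have h1 : (g x).adjugate = g (C.adj x) := hAd x
          rw [h1]
          exact hT (C.adj x)
        det := fun x => hN x }
  · -- density
    intro U hU hUd
    have hU' : H * Uᴴ * H⁻¹ * U = 1 := by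
      calc H * Uᴴ * H⁻¹ * U = H * (Uᴴ * H⁻¹ * U) := by simp only [Matrix.mul_assoc]
        _ = 1 := by rw [hU, hHH]
    have hUr : U * (H * Uᴴ * H⁻¹) = 1 := mul_eq_one_comm.1 hU'
    let Uu : (Matrix (Fin 3) (Fin 3) L)ˣ := ⟨U, H * Uᴴ * H⁻¹, hUr, hU'⟩
    have hUH : Uu ∈ UH H := by
      rw [mem_UH]
      change U * H * Uᴴ = H
      calc U * H * Uᴴ = U * (H * Uᴴ * H⁻¹) * H := by
            simp only [Matrix.mul_assoc, hHH', Matrix.mul_one]
        _ = H := by rw [hUr, Matrix.one_mul]
    obtain ⟨E, hE⟩ := lm_nonsplit hk hA le_rfl f B hst hφs hd hφk hLn hL hg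
    have hUE : Uu ∈ E := by
      have h1 := H800.dense_u hA hst φ hφs hd hg hH hdet hgH hUH
      have h2 : closure (Set.range fun u : UA D =>
          Units.map (g : D →* Matrix (Fin 3) (Fin 3) L) (u : Dˣ)) ⊆ E := by
        refine hE.closed.closure_subset_iff.2 ?_
        rintro _ ⟨u, rfl⟩
        exact hE.mem u
      exact h2 h1
    obtain ⟨T, -, hT⟩ := exists_big B (∅ : Finset (Place k))
    obtain ⟨q, -, -, φq, gq, hq1, -, hq2⟩ := H519.exists_split_place hk hA (by norm_num) ∅ 0
    obtain ⟨u, hu, -, hux⟩ := exists_noncentral hA (by norm_num) hq1 hq2 f B hT one_pos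
    have h1 := LM.dense_GA hE ⟨u, hu, hux⟩ (show (⟨Uu, hUE⟩ : E) ∈ tgE E from hUd)
    have hc : Continuous fun e : E =>
        ((e : (Matrix (Fin 3) (Fin 3) L)ˣ) : Matrix (Fin 3) (Fin 3) L) :=
      Units.continuous_val.comp continuous_subtype_val
    have h2 := map_mem_closure hc h1 (t := g '' {x : D | ∃ u : SUA f, ((u : Dˣ) : D) = x}) (by
      rintro _ ⟨y, hy, rfl⟩
      exact ⟨((y : Dˣ) : D), ⟨⟨(y : Dˣ), hy⟩, rfl⟩, rfl⟩)
    exact h2

/-- **The move at a nonsplit place of a function field.** -/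
theorem n3_at_ff (hk : IsGlobalFunctionField k) (hA : Anis k K D 3) (C : Cub K D)
    (f : D →ₐ[K] Matrix (Fin 3) (Fin 3) Ω) (B : Basis (Fin N) k D) (v : Place k)
    (hv : IsEmpty (K →ₐ[k] v.comp)) {z w₀ : D} (hz : star z * z = 1) (hw : star w₀ * w₀ = 1)
    (hzK : z ∉ Set.range (algebraMap K D)) (hwK : w₀ ∉ Set.range (algebraMap K D))
    (hN : C.N z = C.N w₀) :
    ∃ (u₀ : SUA f) (δ : ℝ), 0 < δ ∧ ∀ u : SUA f,
      na B v.abv (((u : Dˣ) : D) - ((u₀ : Dˣ) : D)) < δ →
      LocPair1 C B v.abv (((u : Dˣ) : D) * z * ((u : Dˣ) : D)⁻¹ * w₀⁻¹) := by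
  have hcen := hA.central
  have hfd : FiniteDimensional K D := finite_of_finrank_pos (by rw [hA.finrank_eq]; norm_num)
  obtain ⟨L, _, _, _, _, φ, H, ρ, hst, hH, hd, ⟨s₀, hs₀⟩, ⟨t, ht, ht0, ht4⟩, hiso, M, hdense⟩ :=
    exists_MM_ns hk hA C f B v hv
  have hS : ∀ x ∈ {x : D | ∃ u : SUA f, ((u : Dˣ) : D) = x}, star x * x = 1 ∧ C.N x = 1 := by
    rintro _ ⟨u, rfl⟩
    obtain ⟨h1, h2⟩ := u.2
    exact ⟨mul_eq_one_comm.1 h1, (N_eq_one_iff hA C f _).1 h2⟩
  obtain ⟨_, ⟨u₀, rfl⟩, δ, hδ, h⟩ := M.n3 hA.finrank_eq hst hH hd hs₀ ht ht0 ht4 hiso hS hdense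
    hz hw hzK hwK hN
  exact ⟨u₀, δ, hδ, fun u hu => h _ ⟨u, rfl⟩ hu⟩

end main

end Vale.Agent.P011.H74
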