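import Vale.Agent.P011.H74.GlobF
import Vale.Agent.P011.H74.N3FF

/-!
# The move over global function fields, degree three

`x` is replaced by a congruent element `x' = u (x w) u⁻¹ w⁻¹`: the pair `(w, x' w)` is a conjugate
of the pair `(w, x w)` by `u` in the second component, and at finitely many given places the
element `x'` satisfies a local condition which holds for all `u` close to a suitable element.
-/

open Module Topology Filter

set_option linter.unusedSectionVars false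

namespace Vale.Agent.P011.H74.GlobF

open Vale.Agent.P011.H738 Vale.Agent.P011.H271 Vale.Agent.P011.H698 Vale.Agent.P011.H961
  Vale.Agent.P011.H271.CosetF Vale.Agent.P011.H775 Vale.Agent.P011.H305
open Vale.Agent.P011.H182 (na Ig)

section cub

variable {K D : Type} [Field K] [DivisionRing D] [Algebra K D] (C : Cub K D)

theorem T_conj {u : D} (hu : u ≠ 0) (z : D) : C.T (u * z * u⁻¹) = C.T z := by
  rw [C.T_comm, ← mul_assoc, inv_mul_cancel₀ hu, one_mul]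

theorem N_conj {u : D} (hu : u ≠ 0) (z : D) : C.N (u * z * u⁻¹) = C.N z := by
  rw [C.N_mul, C.N_mul, mul_comm (C.N u), mul_assoc, ← C.N_mul, mul_inv_cancel₀ hu, C.N_one,
    mul_one]

theorem S_conj {u : D} (hu : u ≠ 0) (z : D) : C.S (u * z * u⁻¹) = C.S z := by
  rw [Cub.S, C.adj_mul_distrib, C.adj_mul_distrib, C.T_comm, mul_assoc, ← C.adj_mul_distrib,
    inv_mul_cancel₀ hu, C.adj_one, mul_one, Cub.S]

end cub

/-- Integral intertwiners of unit norm are transported by conjugation. -/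
theorem goodInt_conj {k K D : Type} [Field k] [Field K] [StarRing K] [DivisionRing D] [StarRing D]
    [Algebra k K] [Algebra k D] [Algebra K D] [IsScalarTower k K D] {N : ℕ}
    {B : Basis (Fin N) k D} {v : Place k} (hgd : H182.Gd B v.abv) {u w w' : D} (hu : u ≠ 0)
    (h1 : Ig B v.abv u) (h2 : Ig B v.abv u⁻¹) (h : H929.FF.GoodInt B v w w') :
    H929.FF.GoodInt B v w (u * w' * u⁻¹) := by
  obtain ⟨g, y, c, hg, hgI, hyI, hy, hc⟩ := h
  refine ⟨u * g, y * u⁻¹, c, ?_, hgd.mul' h1 hgI, hgd.mul' hyI h2, ?_, hc⟩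
  · calc u * w' * u⁻¹ * (u * g) = u * w' * (u⁻¹ * u) * g := by simp only [mul_assoc]
      _ = u * (w' * g) := by rw [inv_mul_cancel₀ hu, mul_one, mul_assoc]
      _ = u * g * w := by rw [hg, mul_assoc]
  · calc y * u⁻¹ * (u * g) = y * (u⁻¹ * u) * g := by simp only [mul_assoc]
      _ = algebraMap k D c := by rw [inv_mul_cancel₀ hu, mul_one, hy]

variable {k K D Ω : Type} [Field k] [GFF k] [Field K] [StarRing K] [DivisionRing D] [StarRing D]
  [Algebra k K] [Algebra k D] [Algebra K D] [IsScalarTower k K D] [StarModule K D] {N : ℕ}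
  [Field Ω] [Algebra K Ω]

/-- **The move.**  `P v` is a local condition at `v` which holds for all `u (x w) u⁻¹ w⁻¹`, if `u`
is close to a suitable element of reduced norm one. -/
theorem move3_ff (hk : IsGlobalFunctionField k) (hA : Anis k K D 3) (C : Cub K D)
    (f : D →ₐ[K] Matrix (Fin 3) (Fin 3) Ω) (B : Basis (Fin N) k D) {Q : Subgroup (SUA f)}
    [hQ : Q.Normal] (hi : Q.index ≠ 0) {q : Place k} (φ : K →ₐ[k] q.comp) (hq : q ∉ Adiv k K D)
    {T S₁ : Set (Place k)} (hT : T.Finite) (hb : ∀ v, ¬ H182.Gd B v.abv → v ∈ T)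
    (hS₁ : S₁.Finite) (hS₁T : ∀ v ∈ S₁, v ∉ T ∧ v ≠ q ∧ v ∉ Adiv k K D)
    (x : SUA f) {w : D} (hw : w * star w = 1) (P : Place k → D → Prop)
    (hP : ∀ v ∈ S₁, ∃ (u₀ : SUA f) (δ : ℝ), 0 < δ ∧ ∀ u : SUA f,
      na B v.abv (((u : Dˣ) : D) - ((u₀ : Dˣ) : D)) < δ →
      P v (((u : Dˣ) : D) * (((x : Dˣ) : D) * w) * ((u : Dˣ) : D)⁻¹ * w⁻¹)) {ε : ℝ}
    (hε : 0 < ε) : ∃ x' : SUA f, x⁻¹ * x' ∈ Q ∧
      C.T (((x' : Dˣ) : D) * w) = C.T (((x : Dˣ) : D) * w) ∧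
      C.S (((x' : Dˣ) : D) * w) = C.S (((x : Dˣ) : D) * w) ∧
      C.N (((x' : Dˣ) : D) * w) = C.N (((x : Dˣ) : D) * w) ∧
      (∀ v ∈ S₁, P v ((x' : Dˣ) : D)) ∧
      (∀ v ∈ T, v ≠ q → na B v.abv (((x' : Dˣ) : D) - ((x : Dˣ) : D)) < ε) ∧
      ∀ v, v ∉ T → v ∉ S₁ → v ≠ q →
        (H929.FF.GoodInt B v w (((x : Dˣ) : D) * w) →
          H929.FF.GoodInt B v w (((x' : Dˣ) : D) * w)) ∧
        (Ig B v.abv ((x : Dˣ) : D) → Ig B v.abv w → Ig B v.abv ((x' : Dˣ) : D)) := by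
  classical
  have hst := H519.star_smul_of_anis hA
  have hP' : ∀ v, ∃ (u₀ : SUA f) (δ : ℝ), 0 < δ ∧ ∀ u : SUA f, v ∈ S₁ →
      na B v.abv (((u : Dˣ) : D) - ((u₀ : Dˣ) : D)) < δ →
      P v (((u : Dˣ) : D) * (((x : Dˣ) : D) * w) * ((u : Dˣ) : D)⁻¹ * w⁻¹) := by
    intro v
    by_cases hv : v ∈ S₁
    · obtain ⟨u₀, δ, hδ, h⟩ := hP v hv
      exact ⟨u₀, δ, hδ, fun u _ => h u⟩
    · exact ⟨1, 1, one_pos, fun u h => absurd h hv⟩
  choose g δ hδ hPg using hP'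
  obtain ⟨e, he, hle⟩ := exists_lower hS₁ (u := δ) fun v _ => hδ v
  obtain ⟨u, x', hx', hQx, h1, h2, h4⟩ := move hk hA le_rfl Nat.prime_three f B hi φ hq hT hb hS₁
    hS₁T g x hw (lt_min hε he)
  have hw0 : w ≠ 0 := left_ne_zero_of_mul_eq_one hw
  have hu0 : ((u : Dˣ) : D) ≠ 0 := Units.ne_zero _
  have hx'w : ((x' : Dˣ) : D) * w = ((u : Dˣ) : D) * (((x : Dˣ) : D) * w) * ((u : Dˣ) : D)⁻¹ := by
    rw [hx', mul_assoc, inv_mul_cancel₀ hw0, mul_one]
  refine ⟨x', hQx, ?_, ?_, ?_, fun v hv => ?_, fun v hv hvq =>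
    (h2 v hv hvq).2.trans_le (min_le_left _ _), fun v hv hv1 hvq => ?_⟩
  · rw [hx'w, T_conj C hu0]
  · rw [hx'w, S_conj C hu0]
  · rw [hx'w, N_conj C hu0]
  · rw [hx']
    exact hPg v u hv ((h1 v hv).trans_le ((min_le_right _ _).trans (hle v hv)))
  · have hgd : H182.Gd B v.abv := by
      by_contra hcon
      exact hv (hb v hcon)
    obtain ⟨hu1, hu2⟩ := h4 v hv hv1 hvq
    refine ⟨fun h => ?_, fun hx hwI => ?_⟩
    · rw [hx'w]
      exact goodInt_conj (K := K) hgd hu0 hu1 hu2 h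
    · have hwi : Ig B v.abv w⁻¹ := by
        rw [← eq_inv_of_mul_eq_one_right hw]
        exact hgd.star hst hwI
      rw [hx']
      exact hgd.mul' (hgd.mul' (hgd.mul' hu1 (hgd.mul' hx hwI)) hu2) hwi

end Vale.Agent.P011.H74.GlobF
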