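import Vale.Agent.P011.H74.GlobF
import Vale.Agent.P011.H74.N3FF

/-!
# A pair of special unitary elements in general position, function fields

Special unitary elements which are close to one at finitely many places are dense in the special
linear group of the completion at a split place.  Hence there are two such elements `g`, `w`, for
which the commutator `x` does not commute with `w` and `T x + T (star x) ≠ 6`.
-/

open Module Matrix Topology Filter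

set_option linter.unusedSectionVars false

namespace Vale.Agent.P011.H74.PairF

open Vale.Agent.P011.H738 Vale.Agent.P011.H271 Vale.Agent.P011.H698 Vale.Agent.P011.H961
  Vale.Agent.P011.H271.CosetF Vale.Agent.P011.H775 Vale.Agent.P011.H74.GlobF
open Vale.Agent.P011.H182 (na)

section dense

variable {k K D Ω : Type} [Field k] [GFF k] [Field K] [StarRing K] [DivisionRing D] [StarRing D]
  [Algebra k K] [Algebra k D] [Algebra K D] [IsScalarTower k K D] [StarModule K D] {n N : ℕ}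
  [Field Ω] [Algebra K Ω] {f : D →ₐ[K] Matrix (Fin n) (Fin n) Ω} {B : Basis (Fin N) k D}
  {v : Place k} {L : Type} [NontriviallyNormedField L] [ProperSpace L] [IsUltrametricDist L]
  {E : Subgroup (Matrix (Fin n) (Fin n) L)ˣ} {g : D →+* Matrix (Fin n) (Fin n) L}

/-- Neighbourhoods in the local group contain the elements close to one. -/
theorem near_nhds (h : LM f B v E g)
    (hst : ∀ (c : k) (x : D), star (c • x) = c • star x) {O : Set E} (hO : O ∈ 𝓝 (1 : E)) :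
    h.iota ⁻¹' O ∈ nrF B (MonoidHom.id (UA D)) v := by
  obtain ⟨O', hO', hOO'⟩ := (mem_nhds_subtype _ _ _).mp hO
  obtain ⟨δ, hδ, hball⟩ := exists_ball_units hO'
  obtain ⟨ε1, hε1, hn⟩ := h.near hst hδ
  refine ⟨ε1, hε1, fun u hu => hOO' (hball _ (hn _ hu).1 ?_)⟩
  rw [h.iota_inv]
  exact (hn _ hu).2

/-- **Special unitary elements close to one at finitely many other places are dense.** -/
theorem dense_near (h : LM f B v E g) (hA : Anis k K D n) {q : Place k} (hvq : v ≠ q)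
    (hM : HasNC B q (GA f)) (T : Finset (Place k)) (hqT : q ∉ T) (hvT : v ∉ T) {ε : ℝ}
    (hε : 0 < ε)
    (hnc : ∃ u : UA D, u ∈ GA f ∧ ∃ x : D, ((u : Dˣ) : D) * x ≠ x * ((u : Dˣ) : D)) :
    tgE E ⊆ closure (h.iota '' {u | u ∈ GA f ∧ ∀ w ∈ T, Sm B w ε (((u : Dˣ) : D) - 1)}) := by
  have hst := H519.star_smul_of_anis hA
  intro e he
  rw [mem_closure_iff_nhds]
  intro W hW
  have h1 : Tendsto (fun p : E × E => p.1 * p.2) (𝓝 (e, 1)) (𝓝 e) := by
    have hc : Continuous fun p : E × E => p.1 * p.2 := by fun_prop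
    have := hc.tendsto (e, 1)
    rwa [mul_one] at this
  obtain ⟨W1, hW1, W2, hW2, hW12⟩ := mem_nhds_prod_iff.mp (h1 hW)
  obtain ⟨_, hy1, ⟨y, hy, rfl⟩⟩ := mem_closure_iff_nhds.mp (LM.dense_GA h hnc he) W1 hW1
  obtain ⟨ν, hν, ⟨hνT, -, -⟩, hνO⟩ := approx' h hA hst hvq (GA f) hM T hqT hvT
    (fun w => {x | Sm B w ε (el (MonoidHom.id (UA D)) x - 1)})
    (fun w => ball_mem B _ w hε) y⁻¹ ((GA f).inv_mem hy) _ (near_nhds h hst hW2)
  refine ⟨h.iota ν, ?_, ν, ⟨hν, fun w hw => hνT w hw⟩, rfl⟩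
  have h2 : (h.iota y, h.iota (y⁻¹ * ν)) ∈ W1 ×ˢ W2 := ⟨hy1, hνO⟩
  have h3 := hW12 h2
  have e1 : h.iota y * h.iota (y⁻¹ * ν) = h.iota ν := by
    rw [← map_mul, mul_inv_cancel_left]
  rwa [Set.mem_preimage, e1] at h3

end dense

/-- The two elementary matrices. -/
def eA (L : Type) [Field L] : (Matrix (Fin 3) (Fin 3) L)ˣ where
  val := !![1, 1, 0; 0, 1, 0; 0, 0, 1]
  inv := !![1, -1, 0; 0, 1, 0; 0, 0, 1]
  val_inv := by
    ext i j
    fin_cases i <;> fin_cases j <;> simp [Matrix.mul_apply, Fin.sum_univ_three]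
  inv_val := by
    ext i j
    fin_cases i <;> fin_cases j <;> simp [Matrix.mul_apply, Fin.sum_univ_three]

/-- The two elementary matrices. -/
def eB (L : Type) [Field L] : (Matrix (Fin 3) (Fin 3) L)ˣ where
  val := !![1, 0, 0; 1, 1, 0; 0, 0, 1]
  inv := !![1, 0, 0; -1, 1, 0; 0, 0, 1]
  val_inv := by
    ext i j
    fin_cases i <;> fin_cases j <;> simp [Matrix.mul_apply, Fin.sum_univ_three]
  inv_val := by
    ext i j
    fin_cases i <;> fin_cases j <;> simp [Matrix.mul_apply, Fin.sum_univ_three]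

theorem det_eA (L : Type) [Field L] : (eA L : Matrix (Fin 3) (Fin 3) L).det = 1 := by
  simp [eA, Matrix.det_fin_three]

theorem det_eB (L : Type) [Field L] : (eB L : Matrix (Fin 3) (Fin 3) L).det = 1 := by
  simp [eB, Matrix.det_fin_three]

/-- The first function of the pair. -/
def tf {L : Type} [Field L] (a b : (Matrix (Fin 3) (Fin 3) L)ˣ) : L :=
  ((a * b * a⁻¹ * b⁻¹ : (Matrix (Fin 3) (Fin 3) L)ˣ) : Matrix (Fin 3) (Fin 3) L).trace +
    ((b * a * b⁻¹ * a⁻¹ : (Matrix (Fin 3) (Fin 3) L)ˣ) : Matrix (Fin 3) (Fin 3) L).trace - 6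

/-- The second function of the pair. -/
def nf {L : Type} [Field L] (a b : (Matrix (Fin 3) (Fin 3) L)ˣ) : Matrix (Fin 3) (Fin 3) L :=
  ((a * b * a⁻¹ : (Matrix (Fin 3) (Fin 3) L)ˣ) : Matrix (Fin 3) (Fin 3) L) * b -
    b * ((a * b * a⁻¹ : (Matrix (Fin 3) (Fin 3) L)ˣ) : Matrix (Fin 3) (Fin 3) L)

theorem tf_e (L : Type) [Field L] : tf (eA L) (eB L) = 2 := by
  simp only [tf, Units.val_mul]
  simp [eA, eB, Matrix.trace, Fin.sum_univ_three]
  ring

theorem nf_e (L : Type) [Field L] : nf (eA L) (eB L) ≠ 0 := by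
  intro h
  have h1 := congrFun (congrFun h 0) 0
  simp only [nf, Units.val_mul] at h1
  simp [eA, eB] at h1

theorem continuous_tf {L : Type} [NontriviallyNormedField L] :
    Continuous fun p : (Matrix (Fin 3) (Fin 3) L)ˣ × (Matrix (Fin 3) (Fin 3) L)ˣ =>
      tf p.1 p.2 := by
  have h1 : Continuous fun p : (Matrix (Fin 3) (Fin 3) L)ˣ × (Matrix (Fin 3) (Fin 3) L)ˣ =>
      p.1 * p.2 * p.1⁻¹ * p.2⁻¹ := by fun_prop
  have h2 : Continuous fun p : (Matrix (Fin 3) (Fin 3) L)ˣ × (Matrix (Fin 3) (Fin 3) L)ˣ =>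
      p.2 * p.1 * p.2⁻¹ * p.1⁻¹ := by fun_prop
  exact (((Units.continuous_val.comp h1).matrix_trace).add
    ((Units.continuous_val.comp h2).matrix_trace)).sub continuous_const

theorem continuous_nf {L : Type} [NontriviallyNormedField L] :
    Continuous fun p : (Matrix (Fin 3) (Fin 3) L)ˣ × (Matrix (Fin 3) (Fin 3) L)ˣ =>
      nf p.1 p.2 := by
  have h1 : Continuous fun p : (Matrix (Fin 3) (Fin 3) L)ˣ × (Matrix (Fin 3) (Fin 3) L)ˣ =>
      p.1 * p.2 * p.1⁻¹ := by fun_prop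
  have h2 := Units.continuous_val.comp h1
  have h3 := Units.continuous_val.comp (continuous_snd (X := (Matrix (Fin 3) (Fin 3) L)ˣ)
    (Y := (Matrix (Fin 3) (Fin 3) L)ˣ))
  exact (h2.mul h3).sub (h3.mul h2)

variable {k K D Ω : Type} [Field k] [GFF k] [Field K] [StarRing K] [DivisionRing D] [StarRing D]
  [Algebra k K] [Algebra k D] [Algebra K D] [IsScalarTower k K D] [StarModule K D] {N : ℕ}
  [Field Ω] [Algebra K Ω]

/-- **The pair over function fields.** -/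
theorem exists_pair_ff (hk : IsGlobalFunctionField k) (hA : Anis k K D 3) (h2 : (2 : k) ≠ 0)
    (C : Cub K D) (f : D →ₐ[K] Matrix (Fin 3) (Fin 3) Ω) (B : Basis (Fin N) k D)
    {P1 : Set (Place k)} (hP1 : P1.Finite) {ε : ℝ} (hε : 0 < ε) :
    ∃ g0 w0 : SUA f,
      (∀ v ∈ P1, na B v.abv (((g0 : Dˣ) : D) - 1) < ε ∧ na B v.abv (((w0 : Dˣ) : D) - 1) < ε) ∧
      ∀ x0 : D, x0 = ((g0 : Dˣ) : D) * ((w0 : Dˣ) : D) * ((g0 : Dˣ) : D)⁻¹ * ((w0 : Dˣ) : D)⁻¹ →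
        x0 * ((w0 : Dˣ) : D) ≠ ((w0 : Dˣ) : D) * x0 ∧ C.T x0 + C.T (star x0) ≠ 6 := by
  classical
  have hcen := hA.central
  have hsim := hA.simple
  have hfd : FiniteDimensional K D := FiniteDimensional.of_finrank_pos (by
    rw [hA.finrank_eq]
    norm_num)
  have hst := H519.star_smul_of_anis hA
  obtain ⟨q, hqT, -, φq, gq, hφq, -, hspan⟩ :=
    H519.exists_split_place hk hA (by norm_num) hP1.toFinset 0
  obtain ⟨v, hvT, -, φ, g, hφ, -, -⟩ :=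
    H519.exists_split_place hk hA (by norm_num) (insert q hP1.toFinset) 0
  rw [Finset.mem_insert, not_or] at hvT
  have hM : HasNC B q (GA f) := fun T hT δ hδ =>
    exists_noncentral hA (by norm_num) hφq hspan f B hT hδ
  obtain ⟨Tb, -, hTb⟩ := exists_big B (∅ : Finset (Place k))
  have hnc : ∃ u : UA D, u ∈ GA f ∧ ∃ x : D, ((u : Dˣ) : D) * x ≠ x * ((u : Dˣ) : D) := by
    obtain ⟨u, hu, -, hx⟩ := hM Tb hTb 1 one_pos
    exact ⟨u, hu, hx⟩
  let _ := nnfPlace v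
  have hLM : LM f B v (⊤ : Subgroup (Matrix (Fin 3) (Fin 3) v.comp)ˣ) g :=
    lm_split hA (by norm_num) f B (φ := φ) hφ
  have hN : (0 : ℝ) < N + 1 := by positivity
  have hd := dense_near hLM hA hvT.1 hM hP1.toFinset hqT hvT.2 (div_pos hε hN) hnc
  obtain ⟨S, hS⟩ : ∃ S, S = hLM.iota '' {u | u ∈ GA f ∧ ∀ w ∈ hP1.toFinset,
      Sm B w (ε / (N + 1)) (((u : Dˣ) : D) - 1)} := ⟨_, rfl⟩
  rw [← hS] at hd
  have hmem : ((⟨eA v.comp, Subgroup.mem_top _⟩ : (⊤ : Subgroup (Matrix (Fin 3) (Fin 3) v.comp)ˣ)),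
      (⟨eB v.comp, Subgroup.mem_top _⟩ : (⊤ : Subgroup (Matrix (Fin 3) (Fin 3) v.comp)ˣ))) ∈
      closure (S ×ˢ S) := by
    rw [closure_prod_eq]
    exact ⟨hd (det_eA _), hd (det_eB _)⟩
  have h2v : (2 : v.comp) ≠ 0 := by
    rw [← map_ofNat (algebraMap k v.comp) 2]
    exact (map_ne_zero _).mpr h2
  have hO : {p : (⊤ : Subgroup (Matrix (Fin 3) (Fin 3) v.comp)ˣ) ×
      (⊤ : Subgroup (Matrix (Fin 3) (Fin 3) v.comp)ˣ) |
      tf (p.1 : (Matrix (Fin 3) (Fin 3) v.comp)ˣ) p.2 ≠ 0 ∧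
      nf (p.1 : (Matrix (Fin 3) (Fin 3) v.comp)ˣ) p.2 ≠ 0} ∈
      𝓝 ((⟨eA v.comp, Subgroup.mem_top _⟩ : (⊤ : Subgroup (Matrix (Fin 3) (Fin 3) v.comp)ˣ)),
      (⟨eB v.comp, Subgroup.mem_top _⟩ : (⊤ : Subgroup (Matrix (Fin 3) (Fin 3) v.comp)ˣ))) := by
    have hc : Continuous fun p : (⊤ : Subgroup (Matrix (Fin 3) (Fin 3) v.comp)ˣ) ×
      (⊤ : Subgroup (Matrix (Fin 3) (Fin 3) v.comp)ˣ) =>
        ((p.1 : (Matrix (Fin 3) (Fin 3) v.comp)ˣ), (p.2 : (Matrix (Fin 3) (Fin 3) v.comp)ˣ)) := by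
      fun_prop
    refine IsOpen.mem_nhds (IsOpen.inter ?_ ?_) ⟨?_, ?_⟩
    · exact isOpen_compl_singleton.preimage (continuous_tf.comp hc)
    · exact isOpen_compl_singleton.preimage (continuous_nf.comp hc)
    · change tf (eA v.comp) (eB v.comp) ≠ 0
      rw [tf_e]
      exact h2v
    · exact nf_e v.comp
  obtain ⟨⟨_, _⟩, ⟨ht, hn⟩, ha, hb⟩ := mem_closure_iff_nhds.mp hmem _ hO
  rw [hS] at ha hb
  obtain ⟨a, ⟨ha, haT⟩, rfl⟩ := ha
  obtain ⟨b, ⟨hb, hbT⟩, rfl⟩ := hb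
  dsimp only at ht hn
  refine ⟨eGA f ⟨a, ha⟩, eGA f ⟨b, hb⟩, fun w hw => ?_, fun x0 hx0 => ?_⟩
  · exact ⟨na_of_sm hε (haT w (hP1.mem_toFinset.mpr hw)),
      na_of_sm hε (hbT w (hP1.mem_toFinset.mpr hw))⟩
  · let _ : Algebra K v.comp := (φ : K →+* v.comp).toAlgebra
    let g' : D →ₐ[K] Matrix (Fin 3) (Fin 3) v.comp := { g with commutes' := hφ }
    obtain ⟨hT, -, -⟩ := C.of_split hA.finrank_eq g'
    obtain ⟨gu, hgu⟩ : ∃ gu : Dˣ →* (Matrix (Fin 3) (Fin 3) v.comp)ˣ,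
        gu = Units.map (g : D →* Matrix (Fin 3) (Fin 3) v.comp) := ⟨_, rfl⟩
    have hgv : ∀ y : Dˣ, ((gu y : (Matrix (Fin 3) (Fin 3) v.comp)ˣ) :
        Matrix (Fin 3) (Fin 3) v.comp) = g' (y : D) := fun y => by rw [hgu]; rfl
    have hia : ((hLM.iota a : (⊤ : Subgroup (Matrix (Fin 3) (Fin 3) v.comp)ˣ)) :
        (Matrix (Fin 3) (Fin 3) v.comp)ˣ) = gu (a : Dˣ) := by rw [hgu]; rfl
    have hib : ((hLM.iota b : (⊤ : Subgroup (Matrix (Fin 3) (Fin 3) v.comp)ˣ)) :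
        (Matrix (Fin 3) (Fin 3) v.comp)ˣ) = gu (b : Dˣ) := by rw [hgu]; rfl
    rw [hia, hib] at ht hn
    have hx : x0 = (((a : Dˣ) * (b : Dˣ) * (a : Dˣ)⁻¹ * (b : Dˣ)⁻¹ : Dˣ) : D) := by
      rw [hx0, Units.val_mul, Units.val_mul, Units.val_mul, Units.val_inv_eq_inv_val,
        Units.val_inv_eq_inv_val]
      rfl
    have hinv : ∀ u : UA D, star (((u : Dˣ) : D)) = (((u : Dˣ)⁻¹ : Dˣ) : D) := fun u =>
      (ua_inv u).symm
    have hxs : star x0 = (((b : Dˣ) * (a : Dˣ) * (b : Dˣ)⁻¹ * (a : Dˣ)⁻¹ : Dˣ) : D) := by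
      have e1 := hinv (a * b * a⁻¹ * b⁻¹)
      have e2 : ((((a * b * a⁻¹ * b⁻¹ : UA D) : Dˣ)) : D) = x0 := by
        rw [hx]
        rfl
      rw [e2] at e1
      rw [e1]
      congr 1
      change ((a : Dˣ) * (b : Dˣ) * (a : Dˣ)⁻¹ * (b : Dˣ)⁻¹)⁻¹ = _
      group
    constructor
    · intro hcon
      apply hn
      have e1 : ((a : Dˣ) : D) * ((b : Dˣ) : D) * (((a : Dˣ)⁻¹ : Dˣ) : D) * ((b : Dˣ) : D) =
          ((b : Dˣ) : D) * (((a : Dˣ) : D) * ((b : Dˣ) : D) * (((a : Dˣ)⁻¹ : Dˣ) : D)) := by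
        have h3 : x0 * ((b : Dˣ) : D) = ((b : Dˣ) : D) * x0 := hcon
        have h4 : x0 * ((b : Dˣ) : D) =
            ((a : Dˣ) : D) * ((b : Dˣ) : D) * (((a : Dˣ)⁻¹ : Dˣ) : D) := by
          rw [hx, Units.val_mul, Units.val_mul, Units.val_mul, mul_assoc, Units.inv_mul, mul_one]
        rw [← h4, h3]
        conv_rhs => rw [← h3]
        rw [mul_assoc, h3]
      have e2 := congrArg g' e1
      rw [nf, ← map_inv, ← map_mul, ← map_mul, hgv, hgv, ← map_mul, ← map_mul, sub_eq_zero,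
        Units.val_mul, Units.val_mul]
      exact e2
    · intro hcon
      apply ht
      rw [tf, ← map_inv, ← map_inv, ← map_mul, ← map_mul, ← map_mul, ← map_mul, ← map_mul,
        ← map_mul, hgv, hgv, hT, hT, ← hx, ← hxs, ← map_add, hcon, map_ofNat, sub_self]

/-- The pair as elements of the algebra. -/
theorem exists_pair_ff' (hk : IsGlobalFunctionField k) (hA : Anis k K D 3) (h2 : (2 : k) ≠ 0)
    (C : Cub K D) (f : D →ₐ[K] Matrix (Fin 3) (Fin 3) Ω) (B : Basis (Fin N) k D)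
    {P1 : Set (Place k)} (hP1 : P1.Finite) {ε : ℝ} (hε : 0 < ε) :
    ∃ g0 w0 : D, g0 * star g0 = 1 ∧ w0 * star w0 = 1 ∧ C.N g0 = 1 ∧ C.N w0 = 1 ∧
      (∀ v ∈ P1, na B v.abv (g0 - 1) < ε ∧ na B v.abv (w0 - 1) < ε) ∧
      ∀ x0 : D, x0 = g0 * w0 * g0⁻¹ * w0⁻¹ →
        x0 * w0 ≠ w0 * x0 ∧ C.T x0 + C.T (star x0) ≠ 6 := by
  obtain ⟨g0, w0, h1, h3⟩ := exists_pair_ff hk hA h2 C f B hP1 hε
  exact ⟨_, _, g0.2.1, w0.2.1, (N_eq_one_iff hA C f _).1 g0.2.2, (N_eq_one_iff hA C f _).1 w0.2.2,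
    h1, h3⟩

end Vale.Agent.P011.H74.PairF
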