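import Vale.Agent.P011.H95.InterFF
import Vale.Agent.P011.H14.NS
import Vale.Agent.P011.H271.StarF
import Vale.Agent.P011.H929.FFd
import Vale.Agent.P011.H305.SolvF
import Vale.Agent.P011.H74.PairF
import Vale.Agent.P011.H74.MoveF
import Vale.Agent.P011.H74.CompsF

/-!
# The solvable step in degree three over function fields, from its pieces

The order of the choices: a pair `g0`, `w0` of special unitary elements close to one, the
commutator `x0`; an element `x` of the given coset close to `x0`; a unitary `u` with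
`T ((x - 1) u) = 0`; the move to an element `x'` of the coset with good local pairs at the finitely
many places where `u` is not good; a unitary `w` with `T ((x' - 1) w) = 0` near the targets; then
`x' w` and `w` are conjugate by a unitary element close to `g0`, so `x'` is a commutator of unitary
elements close to one.
-/

open Module Topology Filter
open scoped commutatorElement

set_option linter.unusedSectionVars false

namespace Vale.Agent.P011.H74.FinalF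

open Vale.Agent.P011.H738 Vale.Agent.P011.H271 Vale.Agent.P011.H775 Vale.Agent.P011.H305
  Vale.Agent.P011.H3
open Vale.Agent.P011.H182 (na Ig na_nonneg na_add_le na_sub_le na_zero na_pos na_sub_comm)
open Vale.Agent.P011.H929 (dP)

section defs

variable {k K D : Type} [Field k] [Field K] [StarRing K] [DivisionRing D] [StarRing D]
  [Algebra k K] [Algebra k D] [Algebra K D] [IsScalarTower k K D] {N : ℕ}

/-- The sequence `w` is a target for `x` at `a`. -/
def HasTgt (C : Cub K D) (B : Basis (Fin N) k D) (a : AbsoluteValue k ℝ) (x : D) (w : ℕ → D) :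
    Prop :=
  ∃ (ι : Type) (_ : Fintype ι) (b : ι → K → ℝ), Comps B a b ∧
    ∀ ω : Filter ℕ, ω.NeBot → ω ≤ atTop → Tgt C B a ω x b w

/-- The two line steps over a function field. -/
def ReachF (C : Cub K D) (B : Basis (Fin N) k D) (d : kˣ) : Prop :=
  ∀ x u : D, x * star x = 1 → C.N x = 1 → C.T x ≠ 3 → u * star u = 1 → C.T ((x - 1) * u) = 0 →
    ∀ P : Set (Place k), P.Finite → ∀ w : Place k → ℕ → D,
    (∀ p ∈ P, HasTgt C B p.abv x (w p)) → ∀ ε : ℝ, 0 < ε → ∀ J : ℕ,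
    ∃ w1 : D, w1 * star w1 = 1 ∧ C.T ((x - 1) * w1) = 0 ∧
      (∀ p ∈ P, ∃ j, J ≤ j ∧ na B p.abv (w1 - w p j) < ε) ∧
      ∀ v : Place k, v ∉ P → ¬ (∃ α : v.comp, α ^ 2 = algebraMap k v.comp d) →
        H929.FF.GoodInt B v u (x * u) → H929.FF.GoodInt B v w1 (x * w1)

/-- Part I over a function field. -/
def PartIF (C : Cub K D) (B : Basis (Fin N) k D) : Prop :=
  ∀ P1 : Set (Place k), P1.Finite → P1.Nonempty → Adiv k K D ⊆ P1 → ∀ x0 w0 : D,
    x0 * star x0 = 1 → w0 * star w0 = 1 → C.T ((x0 - 1) * w0) = 0 → x0 * w0 ≠ w0 * x0 →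
    C.T x0 + C.T (star x0) ≠ 6 →
    ∃ ε : ℝ, 0 < ε ∧ ∀ x : D, x * star x = 1 → (∀ v ∈ P1, na B v.abv (x - x0) < ε) →
      ∃ w : D, w * star w = 1 ∧ C.T ((x - 1) * w) = 0

/-- Unitary intertwiners can be adjusted at finitely many split places. -/
def AdjAF (K : Type) [Field K] [Algebra k K] [Algebra K D] (B : Basis (Fin N) k D) (d : kˣ) :
    Prop :=
  ∀ F : Set (Place k), F.Finite → (∀ v ∈ F, ∃ α : v.comp, α ^ 2 = algebraMap k v.comp d) →
    ∀ g0 : D, g0 * star g0 = 1 → ∀ ε : ℝ, 0 < ε → ∃ δ : ℝ, 0 < δ ∧ ∀ w w' u h : D,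
      w * star w = 1 → w' * star w' = 1 → w ∉ Set.range (algebraMap K D) → u * star u = 1 →
      w' * u = u * w → h ≠ 0 → w' * h = h * w → (∀ v ∈ F, na B v.abv (h - g0) < δ) →
      ∃ u' : D, u' * star u' = 1 ∧ w' * u' = u' * w ∧ ∀ v ∈ F, na B v.abv (u' - g0) < ε

/-- Targets near a global solution. -/
def TNear (C : Cub K D) (B : Basis (Fin N) k D) (a : AbsoluteValue k ℝ) (x0 w0 g0 : D) : Prop :=
  ∀ η : ℝ, 0 < η → ∃ γ : ℝ, 0 < γ ∧ ∀ x : D, x * star x = 1 → C.N x = 1 →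
    na B a (x - x0) < γ → ∃ w : ℕ → D, HasTgt C B a x w ∧ ∃ δ : ℝ, 0 < δ ∧ ∀ j, ∀ w1 : D,
      w1 * star w1 = 1 → C.T ((x - 1) * w1) = 0 → na B a (w1 - w j) < δ →
      ∀ h : D, h = H948.hr C (x * w1) w1 (g0 * (dP C w0)⁻¹) → x * w1 * h = h * w1 ∧
        na B a (h - g0) < η ∧ na B a (star h * h - 1) < η ∧ na B a (w1 - w0) < η

/-- Targets from local pairs. -/
def TLoc (C : Cub K D) (B : Basis (Fin N) k D) (a : AbsoluteValue k ℝ) (x : D) : Prop :=
  ∀ η : ℝ, 0 < η → ∃ w : ℕ → D, HasTgt C B a x w ∧ ∃ (J : ℕ) (δ : ℝ), 0 < δ ∧ ∀ j, J ≤ j →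
    ∀ w1 : D, w1 * star w1 = 1 → C.T ((x - 1) * w1) = 0 → na B a (w1 - w j) < δ →
      ∃ h : D, x * w1 * h = h * w1 ∧ na B a (star h * h - 1) < η

end defs

section conv

variable {k K D : Type} [Field k] [Field K] [DivisionRing D] [StarRing D]
  [Algebra k K] [Algebra k D] [Algebra K D] {N : ℕ}

theorem locPair1_of {C : Cub K D} {B : Basis (Fin N) k D} {a : AbsoluteValue k ℝ} {x : D}
    (h : H74.LocPair1 C B a x) : H3.LocPair1 C B a x := by
  obtain ⟨R, c, hc, h⟩ := h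
  refine ⟨R, c, hc, fun δ hδ => ?_⟩
  obtain ⟨w, g, m, h1, h2, h3, h4, h5, h6, h7, -, -, h8⟩ := h δ hδ
  exact ⟨w, g, m, h1, h2, h3, h4, h5, h6, h7, h8⟩

end conv

variable {k K D Ω : Type} [Field k] [GFF k] [Field K] [StarRing K] [DivisionRing D] [StarRing D]
  [Algebra k K] [Algebra k D] [Algebra K D] [IsScalarTower k K D] [StarModule K D] {N : ℕ}
  [Field Ω] [Algebra K Ω] {d : kˣ} {s : K}

/-- **The solvable step in degree three**, from its pieces. -/
theorem final (hk : IsGlobalFunctionField k) (hS : SetF k K D d s) (h9 : finrank K D = 3 ^ 2)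
    (C : Cub K D) (f : D →ₐ[K] Matrix (Fin 3) (Fin 3) Ω) (B : Basis (Fin N) k D)
    (hreach : ReachF C B d) (hpart : PartIF C B) (hadj : AdjAF K B d)
    (h3a : StarF.S3a f B (Adiv k K D)) (h3b : StarF.S3b f B (Adiv k K D))
    (ht1 : ∀ x0 : D, C.T x0 + C.T (star x0) ≠ 6 → ∀ v : Place k, ∃ δ : ℝ, 0 < δ ∧ ∀ x : D,
      x * star x = 1 → na B v.abv (x - x0) < δ → C.T x ≠ 3)
    (ht2 : ∀ x0 w0 g0 : D, g0 * star g0 = 1 → w0 * star w0 = 1 → C.N g0 = 1 → C.N w0 = 1 →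
      x0 = g0 * w0 * g0⁻¹ * w0⁻¹ → x0 * w0 ≠ w0 * x0 → C.T x0 + C.T (star x0) ≠ 6 →
      ∀ v : Place k, TNear C B v.abv x0 w0 g0)
    (ht3 : ∀ x : D, x * star x = 1 → C.N x = 1 → ∀ v : Place k,
      (¬ ∃ α : v.comp, α ^ 2 = algebraMap k v.comp d) → H3.LocPair1 C B v.abv x →
      TLoc C B v.abv x) : SolvAtF k K f B := by
  classical
  intro Q H hQ hH hQH hi hnear hp hc hV
  have hA : Anis k K D 3 := hS.anis h9
  have hst := H519.star_smul_of_anis hA
  have hcen := hS.cen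
  have hfin := hS.fin
  have hsc := H948.sCub_of C h9 hS.star_smul
  -- the places of division type
  obtain ⟨TA, hTA, εA, hεA, hHA⟩ := id hnear
  have hH1 : ∀ g : SUA f, StarF.Nr B (Adiv k K D) εA ((g : Dˣ) : D) → g ∈ H := fun g hg =>
    hHA g fun v hv => hg v (hTA v hv)
  obtain ⟨ε0, hε0, hstar⟩ := StarF.star_of' hst h3a h3b hQ hεA hH1 hc
  obtain ⟨εc, hεc, hclass⟩ := H929.FF.class_global hS Nat.prime_three h9 B
  have hAf : (Adiv k K D).Finite := StarF.adiv_finite hA (by norm_num)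
  have hAs : ∀ v ∈ Adiv k K D, ∃ α : v.comp, α ^ 2 = algebraMap k v.comp d := fun v hv =>
    CompsF.adiv_split hS hv
  -- the places of `S0`
  obtain ⟨v1, -, -⟩ := CompsF.exists_split_place hk hS three_ne_zero h9
    (Set.finite_empty (α := Place k))
  obtain ⟨P1, hP1d⟩ : ∃ P1 : Set (Place k), P1 = ((Adiv k K D ∪ {v | ¬ H698.Gd B v}) ∪
      {v | v.abv (d : k) ≠ 1}) ∪ {v1} := ⟨_, rfl⟩
  have hP1f : P1.Finite := by
    rw [hP1d]
    exact ((hAf.union (H698.finite_bad B)).union (place_finite d.ne_zero)).union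
      (Set.finite_singleton v1)
  have hAP : Adiv k K D ⊆ P1 := fun v hv => by
    rw [hP1d]
    exact Or.inl (Or.inl (Or.inl hv))
  have hbP : ∀ v, v ∉ P1 → H698.Gd B v := fun v hv => by
    by_contra hcon
    exact hv (by rw [hP1d]; exact Or.inl (Or.inl (Or.inr hcon)))
  have hdP : ∀ v, v ∉ P1 → v.abv (d : k) = 1 := fun v hv => by
    by_contra hcon
    exact hv (by rw [hP1d]; exact Or.inl (Or.inr hcon))
  have hv1 : v1 ∈ P1 := by
    rw [hP1d]
    exact Or.inr rfl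
  obtain ⟨q, hqP, hqs⟩ := CompsF.exists_split_place hk hS three_ne_zero h9 hP1f
  obtain ⟨φ⟩ := (CompsF.split_iff hS q).mp hqs
  have hqA : q ∉ Adiv k K D := fun h => hqP (hAP h)
  -- the pair
  obtain ⟨g0, w0, hgw, hx0⟩ := PairF.exists_pair_ff hk hA hS.two_ne C f B hP1f
    (lt_min hεA (half_pos hε0))
  obtain ⟨x0, hx0d⟩ : ∃ x0 : SUA f, x0 = ⁅g0, w0⁆ := ⟨_, rfl⟩
  have hx0c : ((x0 : Dˣ) : D) = ((g0 : Dˣ) : D) * ((w0 : Dˣ) : D) * ((g0 : Dˣ) : D)⁻¹ *
      ((w0 : Dˣ) : D)⁻¹ := by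
    rw [hx0d, commutatorElement_def, Subgroup.coe_mul, Subgroup.coe_mul, Subgroup.coe_mul,
      Units.val_mul, Units.val_mul, Units.val_mul, Subgroup.coe_inv, Subgroup.coe_inv,
      Units.val_inv_eq_inv_val, Units.val_inv_eq_inv_val]
  obtain ⟨hN1, hN3⟩ := hx0 _ hx0c
  have hg01 : ((g0 : Dˣ) : D) * star ((g0 : Dˣ) : D) = 1 := g0.2.1
  have hw01 : ((w0 : Dˣ) : D) * star ((w0 : Dˣ) : D) = 1 := w0.2.1
  have hx01 : ((x0 : Dˣ) : D) * star ((x0 : Dˣ) : D) = 1 := x0.2.1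
  have hw0H : w0 ∈ H := hH1 w0 fun v hv => GlobF.sm_of_na
    ((hgw v (hAP hv)).2.trans_le (min_le_left _ _))
  have hx0H : x0 ∈ H := by
    rw [hx0d]
    exact hQH (hc g0 w0 hw0H)
  have hg0ne : ((g0 : Dˣ) : D) ≠ 0 := Units.ne_zero _
  have hw0ne : ((w0 : Dˣ) : D) ≠ 0 := Units.ne_zero _
  have hT0 : C.T ((((x0 : Dˣ) : D) - 1) * ((w0 : Dˣ) : D)) = 0 := by
    have e : ((x0 : Dˣ) : D) * ((w0 : Dˣ) : D) =
        ((g0 : Dˣ) : D) * ((w0 : Dˣ) : D) * ((g0 : Dˣ) : D)⁻¹ := by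
      rw [hx0c, mul_assoc, inv_mul_cancel₀ hw0ne, mul_one]
    rw [sub_mul, one_mul, map_sub, e, GlobF.T_conj C hg0ne, sub_self]
  have hNe : ∀ x : SUA f, C.N ((x : Dˣ) : D) = 1 := fun x => (N_eq_one_iff hA C f _).1 x.2.2
  -- the margins
  obtain ⟨δA, hδA, hadj⟩ := hadj _ hAf hAs _ hg01 (ε0 / 2) (half_pos hε0)
  obtain ⟨ηv, hηd⟩ : ∃ ηv : Place k → ℝ, ηv = fun v =>
      min (min (εc v) (ε0 / 2)) (min δA (na B v.abv ((g0 : Dˣ) : D))) := ⟨_, rfl⟩
  have hηv : ∀ v, 0 < ηv v := fun v => by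
    rw [hηd]
    exact lt_min (lt_min (hεc v) (half_pos hε0)) (lt_min hδA (na_pos B v.abv hg0ne))
  have hη1 : ∀ v, ηv v ≤ εc v := fun v => by
    rw [hηd]
    exact (min_le_left _ _).trans (min_le_left _ _)
  have hη2 : ∀ v, ηv v ≤ ε0 / 2 := fun v => by
    rw [hηd]
    exact (min_le_left _ _).trans (min_le_right _ _)
  have hη3 : ∀ v, ηv v ≤ δA := fun v => by
    rw [hηd]
    exact (min_le_right _ _).trans (min_le_left _ _)
  have hη4 : ∀ v, ηv v ≤ na B v.abv ((g0 : Dˣ) : D) := fun v => by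
    rw [hηd]
    exact (min_le_right _ _).trans (min_le_right _ _)
  choose γ hγ hγt using fun v : Place k => ht2 _ _ _ hg01 hw01 (hNe g0) (hNe w0) hx0c hN1 hN3 v
    (ηv v) (hηv v)
  obtain ⟨δ1, hδ1, ht1⟩ := ht1 _ hN3 v1
  obtain ⟨εI, hεI, hpartI⟩ := hpart P1 hP1f ⟨v1, hv1⟩ hAP _ _ hx01 hw01 hT0 hN1 hN3
  obtain ⟨γ1, hγ1, hγle⟩ := GlobF.exists_lower hP1f (u := γ) fun v _ => hγ v
  obtain ⟨ρ, hρ, hργ, hρ1, hρI⟩ : ∃ ρ : ℝ, 0 < ρ ∧ (∀ v ∈ P1, 2 * ρ ≤ γ v) ∧ 2 * ρ ≤ δ1 ∧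
      2 * ρ ≤ εI := by
    refine ⟨min γ1 (min δ1 εI) / 2, half_pos (lt_min hγ1 (lt_min hδ1 hεI)), fun v hv => ?_, ?_,
      ?_⟩
    · rw [mul_div_cancel₀ _ two_ne_zero]
      exact (min_le_left _ _).trans (hγle v hv)
    · rw [mul_div_cancel₀ _ two_ne_zero]
      exact (min_le_right _ _).trans (min_le_left _ _)
    · rw [mul_div_cancel₀ _ two_ne_zero]
      exact (min_le_right _ _).trans (min_le_right _ _)
  have hN0 : (0 : ℝ) < N + 1 := by positivity
  -- every element of `H` is in `Q`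
  have hmain : ∀ y ∈ H, y ∈ Q := by
    intro y hy
    obtain ⟨x, hxQ, hxP, -⟩ := CosetF.coset_strong_prime hk hA le_rfl Nat.prime_three f B
      (Q := Q) (H := H) hi hV φ hqA (T := hP1f.toFinset)
      (fun v hv => hbP v fun h => hv (hP1f.mem_toFinset.mpr h))
      (fun v hv => hP1f.mem_toFinset.mpr (hAP hv)) (x := y) (w := x0) hy hx0H
      (div_pos hρ hN0)
    have hxn : ∀ v ∈ P1, na B v.abv (((x : Dˣ) : D) - ((x0 : Dˣ) : D)) < ρ := fun v hv =>
      GlobF.na_of_sm hρ (hxP v (hP1f.mem_toFinset.mpr hv) fun h => hqP (h ▸ hv))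
    have hx1 : ((x : Dˣ) : D) * star ((x : Dˣ) : D) = 1 := x.2.1
    obtain ⟨u, hu1, huT⟩ := hpartI _ hx1 fun v hv => (hxn v hv).trans_le (by linarith)
    have hx3 : C.T ((x : Dˣ) : D) ≠ 3 := ht1 _ hx1 ((hxn v1 hv1).trans_le (by linarith))
    have hu0 : u ≠ 0 := left_ne_zero_of_mul_eq_one hu1
    have huK : u ∉ Set.range (algebraMap K D) := H95.c_not_mem C hx3 hu0 huT
    obtain ⟨hsT, hsS, hsN⟩ := H95.SNeq hsc hx1 hu1 (hNe x) huT
    have hxuK : ((x : Dˣ) : D) * u ∉ Set.range (algebraMap K D) :=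
      H95.not_range_of_same C huK hsT hsS hsN
    -- the bad places of `u`
    obtain ⟨S1, hS1d⟩ : ∃ S1 : Set (Place k), S1 = {v | v ∉ P1 ∧
        (¬ ∃ α : v.comp, α ^ 2 = algebraMap k v.comp d) ∧
        ¬ H929.FF.GoodInt B v u (((x : Dˣ) : D) * u)} := ⟨_, rfl⟩
    have hS1f : S1.Finite := by
      rw [hS1d]
      exact (H95.FF.finite_not_goodInt_xw hS C h9 B hx1 hu1 (hNe x) hx3 huT).subset
        fun v hv => hv.2.2
    obtain ⟨x', hxx', hT', -, -, hP', hn', hg'⟩ := GlobF.move3_ff hk hA C f B hi φ hqA hP1f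
      (fun v hv => by
        by_contra hcon
        exact hv (GlobF.gd_iff.mp (hbP v hcon))) hS1f (by
        intro v hv
        rw [hS1d] at hv
        exact ⟨hv.1, fun h => hv.2.1 (h ▸ hqs), fun h => hv.2.1 (hAs v h)⟩) x hu1
      (fun v x => H3.LocPair1 C B v.abv x) (by
        intro v hv
        rw [hS1d] at hv
        have hE : IsEmpty (K →ₐ[k] v.comp) := by
          rw [← not_nonempty_iff, ← CompsF.split_iff hS]
          exact hv.2.1
        obtain ⟨u₀, δ, hδ, h⟩ := n3_at_ff hk hA C f B v hE (z := ((x : Dˣ) : D) * u) (w₀ := u)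
          (by
            apply mul_eq_one_comm.mp
            rw [star_mul]
            calc ((x : Dˣ) : D) * u * (star u * star ((x : Dˣ) : D)) =
                ((x : Dˣ) : D) * (u * star u) * star ((x : Dˣ) : D) := by simp only [mul_assoc]
              _ = 1 := by rw [hu1, mul_one, hx1])
          (mul_eq_one_comm.mp hu1) hxuK huK hsN
        exact ⟨u₀, δ, hδ, fun u' hu' => locPair1_of (h u' hu')⟩) hρ
    have hx'1 : ((x' : Dˣ) : D) * star ((x' : Dˣ) : D) = 1 := x'.2.1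
    have hx'n : ∀ v ∈ P1, na B v.abv (((x' : Dˣ) : D) - ((x0 : Dˣ) : D)) < 2 * ρ := by
      intro v hv
      have h1 := hn' v hv fun h => hqP (h ▸ hv)
      have h2 := hxn v hv
      have e : ((x' : Dˣ) : D) - ((x0 : Dˣ) : D) = (((x' : Dˣ) : D) - ((x : Dˣ) : D)) +
          (((x : Dˣ) : D) - ((x0 : Dˣ) : D)) := by abel
      rw [e]
      exact (na_add_le B _ _ _).trans_lt (by linarith)
    have hx'3 : C.T ((x' : Dˣ) : D) ≠ 3 := ht1 _ hx'1 ((hx'n v1 hv1).trans_le hρ1)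
    have hT'0 : C.T ((((x' : Dˣ) : D) - 1) * u) = 0 := by
      rw [sub_mul, one_mul, map_sub, hT', hsT, sub_self]
    -- the targets
    have htg : ∀ v : Place k, ∃ (w : ℕ → D) (J : ℕ) (δ : ℝ), 0 < δ ∧
        (v ∈ P1 ∪ S1 → HasTgt C B v.abv ((x' : Dˣ) : D) w) ∧
        (v ∈ P1 → ∀ j, ∀ w1 : D, w1 * star w1 = 1 → C.T ((((x' : Dˣ) : D) - 1) * w1) = 0 →
          na B v.abv (w1 - w j) < δ → ∀ h : D,
          h = H948.hr C (((x' : Dˣ) : D) * w1) w1 (((g0 : Dˣ) : D) * (dP C ((w0 : Dˣ) : D))⁻¹) →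
          ((x' : Dˣ) : D) * w1 * h = h * w1 ∧ na B v.abv (h - ((g0 : Dˣ) : D)) < ηv v ∧
          na B v.abv (star h * h - 1) < ηv v ∧ na B v.abv (w1 - ((w0 : Dˣ) : D)) < ηv v) ∧
        (v ∈ S1 → ∀ j, J ≤ j → ∀ w1 : D, w1 * star w1 = 1 →
          C.T ((((x' : Dˣ) : D) - 1) * w1) = 0 → na B v.abv (w1 - w j) < δ →
          ∃ h : D, ((x' : Dˣ) : D) * w1 * h = h * w1 ∧ na B v.abv (star h * h - 1) < εc v) := by
      intro v
      by_cases hvP : v ∈ P1
      · obtain ⟨w, hw, δ, hδ, h⟩ := hγt v _ hx'1 (hNe x') ((hx'n v hvP).trans_le (hργ v hvP))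
        refine ⟨w, 0, δ, hδ, fun _ => hw, fun _ => h, fun hv => ?_⟩
        rw [hS1d] at hv
        exact absurd hvP hv.1
      · by_cases hvS : v ∈ S1
        · obtain ⟨w, hw, J, δ, hδ, h⟩ := ht3 _ hx'1 (hNe x') v (by
            have h2 := hvS
            rw [hS1d] at h2
            exact h2.2.1) (hP' v hvS) (εc v) (hεc v)
          exact ⟨w, J, δ, hδ, fun _ => hw, fun hv => absurd hv hvP, fun _ => h⟩
        · exact ⟨fun _ => 0, 0, 1, one_pos, fun hv => by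
            rcases hv with hv | hv
            exacts [absurd hv hvP, absurd hv hvS], fun hv => absurd hv hvP,
            fun hv => absurd hv hvS⟩
    choose wv J δt hδt htg1 htg2 htg3 using htg
    have hPSf : (P1 ∪ S1).Finite := hP1f.union hS1f
    obtain ⟨εr, hεr, hεle⟩ := GlobF.exists_lower hPSf (u := δt) fun v _ => hδt v
    obtain ⟨w1, hw11, hw1T, hw1P, hw1g⟩ := hreach _ u hx'1 (hNe x') hx'3 hu1 hT'0 _ hPSf wv htg1 εr
      hεr (hPSf.toFinset.sup J)
    have hw10 : w1 ≠ 0 := left_ne_zero_of_mul_eq_one hw11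
    have hw1K : w1 ∉ Set.range (algebraMap K D) := H95.c_not_mem C hx'3 hw10 hw1T
    obtain ⟨h, hhd⟩ : ∃ h : D, h = H948.hr C (((x' : Dˣ) : D) * w1) w1
        (((g0 : Dˣ) : D) * (dP C ((w0 : Dˣ) : D))⁻¹) := ⟨_, rfl⟩
    have hh : ∀ v ∈ P1, ((x' : Dˣ) : D) * w1 * h = h * w1 ∧
        na B v.abv (h - ((g0 : Dˣ) : D)) < ηv v ∧ na B v.abv (star h * h - 1) < ηv v ∧
        na B v.abv (w1 - ((w0 : Dˣ) : D)) < ηv v := by
      intro v hv
      obtain ⟨j, -, hj⟩ := hw1P v (Or.inl hv)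
      exact htg2 v hv j w1 hw11 hw1T (hj.trans_le (hεle v (Or.inl hv))) h hhd
    have hh0 : h ≠ 0 := by
      rintro rfl
      have h1 := (hh v1 hv1).2.1
      rw [na_sub_comm, sub_zero] at h1
      exact absurd (hη4 v1) (not_le.mpr h1)
    have hxw1 : ((x' : Dˣ) : D) * w1 * star (((x' : Dˣ) : D) * w1) = 1 := by
      rw [star_mul]
      calc ((x' : Dˣ) : D) * w1 * (star w1 * star ((x' : Dˣ) : D)) =
          ((x' : Dˣ) : D) * (w1 * star w1) * star ((x' : Dˣ) : D) := by simp only [mul_assoc]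
        _ = 1 := by rw [hw11, mul_one, hx'1]
    -- the class
    obtain ⟨u1, hu11, hu1c⟩ := hclass w1 (((x' : Dˣ) : D) * w1) hw11 hxw1 hw1K
      ⟨h, hh0, (hh v1 hv1).1⟩ (by
        intro v
        by_cases hs : ∃ α : v.comp, α ^ 2 = algebraMap k v.comp d
        · exact Or.inl hs
        · by_cases hvP : v ∈ P1
          · obtain ⟨h1, -, h3, -⟩ := hh v hvP
            exact Or.inr (Or.inr ⟨h, h1, h3.trans_le (hη1 v)⟩)
          · by_cases hvS : v ∈ S1
            · obtain ⟨j, hj1, hj⟩ := hw1P v (Or.inr hvS)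
              obtain ⟨h', h1, h2⟩ := htg3 v hvS j ((Finset.le_sup
                (hPSf.mem_toFinset.mpr (Or.inr hvS))).trans hj1) w1 hw11 hw1T
                (hj.trans_le (hεle v (Or.inr hvS)))
              exact Or.inr (Or.inr ⟨h', h1, h2⟩)
            · refine Or.inr (Or.inl ⟨hdP v hvP, GlobF.gd_iff.mp (hbP v hvP), ?_⟩)
              have hgu : H929.FF.GoodInt B v u (((x : Dˣ) : D) * u) := by
                by_contra hcon
                exact hvS (by rw [hS1d]; exact ⟨hvP, hs, hcon⟩)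
              exact hw1g v (fun hv => by
                rcases hv with hv | hv
                exacts [hvP hv, hvS hv]) hs
                ((hg' v hvP hvS fun h => hs (h ▸ hqs)).1 hgu))
    -- the adjusted intertwiner
    obtain ⟨u2, hu21, hu2c, hu2n⟩ := hadj w1 (((x' : Dˣ) : D) * w1) u1 h hw11 hxw1 hw1K hu11
      hu1c hh0 (hh v1 hv1).1 fun v hv => (hh v (hAP hv)).2.1.trans_le (hη3 v)
    have hx'Q : x' ∈ Q := by
      refine hstar u2 w1 x' hu21 (mul_eq_one_comm.mp hu21) hw11 (mul_eq_one_comm.mp hw11)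
        (fun v hv => GlobF.sm_of_na ?_) (fun v hv => GlobF.sm_of_na ?_) ?_
      · have e : u2 - 1 = (u2 - ((g0 : Dˣ) : D)) + (((g0 : Dˣ) : D) - 1) := by abel
        rw [e]
        refine (na_add_le B _ _ _).trans_lt ?_
        have h1 := hu2n v hv
        have h2 := (hgw v (hAP hv)).1.trans_le (min_le_right _ _)
        linarith
      · have e : w1 - 1 = (w1 - ((w0 : Dˣ) : D)) + (((w0 : Dˣ) : D) - 1) := by abel
        rw [e]
        refine (na_add_le B _ _ _).trans_lt ?_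
        have h1 := (hh v (hAP hv)).2.2.2.trans_le (hη2 v)
        have h2 := (hgw v (hAP hv)).2.trans_le (min_le_right _ _)
        linarith
      · rw [← hu2c, mul_assoc (((x' : Dˣ) : D) * w1), hu21, mul_one, mul_assoc, hw11, mul_one]
    have hxQ' : x ∈ Q := by
      have h1 := Q.mul_mem hx'Q (Q.inv_mem hxx')
      rwa [mul_inv_rev, inv_inv, mul_inv_cancel_left] at h1
    have h1 := Q.mul_mem hxQ' (Q.inv_mem hxQ)
    rwa [mul_inv_rev, inv_inv, mul_inv_cancel_left] at h1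
  have h1 : Q.relIndex H = 1 := Subgroup.relIndex_eq_one.mpr hmain
  rw [h1] at hp
  exact Nat.not_prime_one hp

end Vale.Agent.P011.H74.FinalF
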