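import Vale.Agent.P011.H74.BCR
import Mathlib.RingTheory.SimpleModule.WedderburnArtin

/-!
# Nondegenerate functionals on simple algebras
-/

open Module Matrix

namespace Vale.Agent.P011.H74

/-- A nonzero functional on a nontrivial space. -/
theorem exists_functional (k V : Type*) [Field k] [AddCommGroup V] [Module k V] [Nontrivial V] :
    ∃ (f : V →ₗ[k] k) (x : V), f x ≠ 0 := by
  obtain ⟨x, hx⟩ := exists_ne (0 : V)
  by_contra h
  push Not at h
  exact hx ((Module.forall_dual_apply_eq_zero_iff k x).1 fun f => h f x)

/-- A division ring. -/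
theorem frob_of_division {k A : Type*} [Field k] [DivisionRing A] [Algebra k A] : Frob k A := by
  obtain ⟨f, x, hx⟩ := exists_functional k A
  refine ⟨f, fun z hz => ?_⟩
  by_contra h0
  apply hx
  have := hz (x * z⁻¹)
  rwa [mul_assoc, inv_mul_cancel₀ h0, mul_one] at this

/-- Transport. -/
theorem Frob.equiv {k A A' : Type*} [Field k] [Ring A] [Algebra k A] [Ring A'] [Algebra k A']
    (e : A ≃ₐ[k] A') (h : Frob k A') : Frob k A := by
  obtain ⟨t, ht⟩ := h
  refine ⟨t ∘ₗ e.toLinearMap, fun z hz => ?_⟩
  have h1 : e z = 0 := by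
    refine ht _ fun y => ?_
    have := hz (e.symm y)
    simpa using this
  simpa using h1

/-- Matrices over a division ring. -/
theorem frob_matrix {k D : Type*} [Field k] [DivisionRing D] [Algebra k D] (n : ℕ) :
    Frob k (Matrix (Fin n) (Fin n) D) := by
  obtain ⟨f, hf⟩ := frob_of_division (k := k) (A := D)
  refine ⟨f ∘ₗ Matrix.traceLinearMap (Fin n) k D, fun z hz => ?_⟩
  ext i j
  refine hf _ fun y => ?_
  have h1 := hz (Matrix.single j i y)
  have h2 : (Matrix.single j i y * z).trace = y * z i j := by
    rw [Matrix.trace, Finset.sum_eq_single j]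
    · simp [Matrix.diag]
    · intro l _ hl
      simp [Matrix.diag, hl]
    · simp
  simpa [h2] using h1

/-- A simple finite dimensional algebra. -/
theorem frob_of_simple {k A : Type*} [Field k] [Ring A] [Algebra k A] [FiniteDimensional k A]
    [IsSimpleRing A] : Frob k A := by
  have : IsArtinianRing A := IsArtinianRing.of_finite k A
  obtain ⟨n, _, D, _, _, ⟨e⟩⟩ := IsSimpleRing.exists_algEquiv_matrix_divisionRing k A
  exact (frob_matrix n).equiv e

end Vale.Agent.P011.H74
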