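import Vale.Agent.P011.H74.Glue

/-!
# A factor of the base change: projection to it and extension by one

`R → F` a factor of the topological `k`-algebra `R` (for instance one completion in a finite
product of completions).
-/

open Module TensorProduct Topology

namespace Vale.Agent.P011.H74

/-- `F` is a factor of the topological `k`-algebra `R`. -/
structure Fac (k R F : Type*) [Field k] [CommRing R] [TopologicalSpace R] [Algebra k R]
    [CommRing F] [TopologicalSpace F] [Algebra k F] where
  /-- the projection -/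
  p : R →ₐ[k] F
  /-- the inclusion (not unital) -/
  i : F →ₗ[k] R
  p_cont : Continuous p
  i_cont : Continuous i
  p_i : ∀ x, p (i x) = x
  mul_i : ∀ r x, r * i x = i (p r * x)

namespace Fac

variable {k R F : Type*} [Field k] [CommRing R] [TopologicalSpace R] [Algebra k R]
    [CommRing F] [TopologicalSpace F] [Algebra k F] (D : Fac k R F)

theorem i_mul (x y : F) : D.i (x * y) = D.i x * D.i y := by
  rw [D.mul_i, D.p_i]

theorem i_comm (r : R) (x : F) : D.i x * r = D.i (x * D.p r) := by
  rw [mul_comm, D.mul_i, mul_comm]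

end Fac

section ind

variable {k A ι : Type*} [Field k] [Ring A] [Algebra k A] {B : Basis ι k A}

theorem BR.ind {R : Type*} [CommRing R] [Algebra k R] {P : BR B R → Prop} (h0 : P 0)
    (h1 : ∀ (r : R) (y : A), P (tm B r y)) (h2 : ∀ x y, P x → P y → P (x + y)) (x : BR B R) :
    P x :=
  TensorProduct.induction_on (motive := P) x h0 h1 h2

end ind

section maps

variable {k A ι R F : Type*} [Field k] [Ring A] [StarRing A] [Algebra k A] [StarLinR k A]
  [CommRing R] [TopologicalSpace R] [Algebra k R]
  [CommRing F] [TopologicalSpace F] [Algebra k F] (B : Basis ι k A) (D : Fac k R F)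

/-- The projection of the base changes. -/
noncomputable def Pj : BR B R →+* BR B F :=
  (Algebra.TensorProduct.map D.p (AlgHom.id k A) : R ⊗[k] A →ₐ[k] F ⊗[k] A).toRingHom

/-- The inclusion of the base changes. -/
noncomputable def Ij : BR B F →+ BR B R :=
  (TensorProduct.map D.i LinearMap.id : F ⊗[k] A →ₗ[k] R ⊗[k] A).toAddMonoidHom

omit [StarRing A] [StarLinR k A] in
theorem Pj_tm (r : R) (y : A) : Pj B D (tm B r y) = tm B (D.p r) y := rfl

omit [StarRing A] [StarLinR k A] in
theorem Ij_tm (r : F) (y : A) : Ij B D (tm B r y) = tm B (D.i r) y := rfl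

omit [StarRing A] [StarLinR k A] in
theorem Pj_Ij (x : BR B F) : Pj B D (Ij B D x) = x := by
  induction x using BR.ind with
  | h0 => rw [map_zero, map_zero]
  | h1 r y => rw [Ij_tm, Pj_tm, D.p_i]
  | h2 x y hx hy => rw [map_add, map_add, hx, hy]

omit [StarRing A] [StarLinR k A] in
theorem mul_Ij (y : BR B R) (x : BR B F) : y * Ij B D x = Ij B D (Pj B D y * x) := by
  induction x using BR.ind with
  | h0 => rw [map_zero, mul_zero, mul_zero, map_zero]
  | h2 x x' hx hx' => rw [map_add, mul_add, hx, hx', mul_add, map_add]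
  | h1 r z =>
    induction y using BR.ind with
    | h0 => rw [zero_mul, map_zero, zero_mul, map_zero]
    | h2 y y' hy hy' => rw [add_mul, hy, hy', map_add, add_mul, map_add]
    | h1 s y => rw [Ij_tm, tm_mul, Pj_tm, tm_mul, Ij_tm, D.mul_i]

omit [StarRing A] [StarLinR k A] in
theorem Ij_mul (y : BR B R) (x : BR B F) : Ij B D x * y = Ij B D (x * Pj B D y) := by
  induction x using BR.ind with
  | h0 => rw [map_zero, zero_mul, zero_mul, map_zero]
  | h2 x x' hx hx' => rw [map_add, add_mul, hx, hx', add_mul, map_add]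
  | h1 r z =>
    induction y using BR.ind with
    | h0 => rw [mul_zero, map_zero, mul_zero, map_zero]
    | h2 y y' hy hy' => rw [mul_add, hy, hy', map_add, mul_add, map_add]
    | h1 s y => rw [Ij_tm, tm_mul, Pj_tm, tm_mul, Ij_tm, D.i_comm]

theorem Pj_star (x : BR B R) : Pj B D (star x) = star (Pj B D x) := by
  induction x using BR.ind with
  | h0 => rw [star_zero, map_zero, star_zero]
  | h1 r y => rw [tm_star, Pj_tm, Pj_tm, tm_star]
  | h2 x y hx hy => rw [star_add, map_add, hx, hy, map_add, star_add]

theorem Ij_star (x : BR B F) : Ij B D (star x) = star (Ij B D x) := by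
  induction x using BR.ind with
  | h0 => rw [star_zero, map_zero, star_zero]
  | h1 r y => rw [tm_star, Ij_tm, Ij_tm, tm_star]
  | h2 x y hx hy => rw [star_add, map_add, hx, hy, map_add, star_add]

/-- Extension by one: `x ↦ 1 + I (x - 1)`. -/
noncomputable def Jx (x : BR B F) : BR B R := 1 + Ij B D (x - 1)

omit [StarRing A] [StarLinR k A] in
theorem Jx_one : Jx B D 1 = 1 := by rw [Jx, sub_self, map_zero, add_zero]

omit [StarRing A] [StarLinR k A] in
theorem Jx_mul (x y : BR B F) : Jx B D (x * y) = Jx B D x * Jx B D y := by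
  have h1 : Ij B D (x - 1) * Ij B D (y - 1) = Ij B D ((x - 1) * (y - 1)) := by
    rw [mul_Ij, Pj_Ij]
  rw [Jx, Jx, Jx, add_mul, mul_add, one_mul, one_mul, mul_add, mul_one, h1, add_assoc,
    ← map_add, ← map_add]
  congr 2
  noncomm_ring

theorem Jx_star (x : BR B F) : Jx B D (star x) = star (Jx B D x) := by
  rw [Jx, Jx, star_add, star_one, ← Ij_star, star_sub, star_one]

omit [StarRing A] [StarLinR k A] in
theorem Pj_Jx (x : BR B F) : Pj B D (Jx B D x) = x := by
  rw [Jx, map_add, map_one, Pj_Ij, add_sub_cancel]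

omit [StarRing A] [StarLinR k A] in
/-- Conjugation of `Jx x`. -/
theorem conj_Jx {y y' : BR B R} (h : y * y' = 1) (x : BR B F) :
    y * Jx B D x * y' = Jx B D (Pj B D y * x * Pj B D y') := by
  have h1 : Pj B D y * Pj B D y' = 1 := by rw [← map_mul, h, map_one]
  rw [Jx, Jx, mul_add, mul_one, add_mul, h, mul_Ij, Ij_mul]
  congr 2
  rw [mul_sub, mul_one, sub_mul, h1]

variable [Fintype ι]

omit [StarRing A] [StarLinR k A] in
theorem eqF_Pj (x : BR B R) (l : ι) : eqF B F (Pj B D x) l = D.p (eqF B R x l) := by
  induction x using BR.ind with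
  | h0 => rw [map_zero, map_zero, map_zero]; simp
  | h1 r y => rw [Pj_tm, eqF_tm, eqF_tm, map_mul, AlgHom.commutes]
  | h2 x y hx hy => rw [map_add, map_add, map_add, Pi.add_apply, Pi.add_apply, map_add, hx, hy]

omit [StarRing A] [StarLinR k A] in
theorem eqF_Ij (x : BR B F) (l : ι) : eqF B R (Ij B D x) l = D.i (eqF B F x l) := by
  induction x using BR.ind with
  | h0 => rw [map_zero, map_zero, map_zero]; simp
  | h1 r y =>
    rw [Ij_tm, eqF_tm, eqF_tm, D.i_comm, AlgHom.commutes]
  | h2 x y hx hy => rw [map_add, map_add, map_add, Pi.add_apply, Pi.add_apply, map_add, hx, hy]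

omit [StarRing A] [StarLinR k A] in
theorem continuous_Pj : Continuous (Pj B D) := by
  refine cont_into B F _ ?_
  refine continuous_pi fun l => ?_
  simp only [eqF_Pj]
  exact D.p_cont.comp ((continuous_apply l).comp (cont_eqF B R))

omit [StarRing A] [StarLinR k A] in
theorem continuous_Ij : Continuous (Ij B D) := by
  refine cont_into B R _ ?_
  refine continuous_pi fun l => ?_
  simp only [eqF_Ij]
  exact D.i_cont.comp ((continuous_apply l).comp (cont_eqF B F))

omit [StarRing A] [StarLinR k A] in
theorem continuous_Jx [IsTopologicalRing R] [IsTopologicalRing F] : Continuous (Jx B D) :=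
  continuous_const.add ((continuous_Ij B D).comp (continuous_id.sub continuous_const))

end maps

section groups

variable {k A ι R F : Type*} [Field k] [Ring A] [StarRing A] [Algebra k A] [StarLinR k A]
  [CommRing R] [TopologicalSpace R] [Algebra k R]
  [CommRing F] [TopologicalSpace F] [Algebra k F] (B : Basis ι k A) (D : Fac k R F)

/-- The projection of the unitary groups. -/
noncomputable def PU : unitary (BR B R) →* unitary (BR B F) where
  toFun x := ⟨Pj B D x, by
    rw [Unitary.mem_iff, ← Pj_star, ← map_mul, ← map_mul]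
    have h := Unitary.mem_iff.1 x.2
    rw [h.1, h.2, map_one]
    exact ⟨rfl, rfl⟩⟩
  map_one' := Subtype.ext (map_one _)
  map_mul' x y := Subtype.ext (map_mul _ _ _)

/-- The inclusion of the unitary groups. -/
noncomputable def JU : unitary (BR B F) →* unitary (BR B R) where
  toFun x := ⟨Jx B D x, by
    rw [Unitary.mem_iff, ← Jx_star, ← Jx_mul, ← Jx_mul]
    have h := Unitary.mem_iff.1 x.2
    rw [h.1, h.2, Jx_one]
    exact ⟨rfl, rfl⟩⟩
  map_one' := Subtype.ext (Jx_one B D)
  map_mul' x y := Subtype.ext (Jx_mul B D _ _)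

theorem PU_coe (x : unitary (BR B R)) : ((PU B D x : unitary (BR B F)) : BR B F) = Pj B D x := rfl

theorem JU_coe (x : unitary (BR B F)) : ((JU B D x : unitary (BR B R)) : BR B R) = Jx B D x := rfl

theorem PU_JU (x : unitary (BR B F)) : PU B D (JU B D x) = x :=
  Subtype.ext (Pj_Jx B D _)

theorem conj_JU (y : unitary (BR B R)) (x : unitary (BR B F)) :
    y * JU B D x * y⁻¹ = JU B D (PU B D y * x * (PU B D y)⁻¹) := by
  apply Subtype.ext
  have h : (y : BR B R) * ((y⁻¹ : unitary (BR B R)) : BR B R) = 1 := by
    rw [← Submonoid.coe_mul, mul_inv_cancel]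
    rfl
  have h2 := conj_Jx B D h (x : BR B F)
  rw [JU_coe]
  change (y : BR B R) * Jx B D x * ((y⁻¹ : unitary (BR B R)) : BR B R) = _
  rw [h2, ← map_inv]
  rfl

variable [Fintype ι]

theorem continuous_PU : Continuous (PU B D) :=
  Continuous.subtype_mk ((continuous_Pj B D).comp continuous_subtype_val) _

theorem continuous_JU [IsTopologicalRing R] [IsTopologicalRing F] : Continuous (JU B D) :=
  Continuous.subtype_mk ((continuous_Jx B D).comp continuous_subtype_val) _

end groups

end Vale.Agent.P011.H74
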