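import Vale.Agent.P011.H74.Sw

/-!
# The unitary group of `M_n(F) × M_n(F)` is `GL_n(F)`
-/

open Module Matrix Topology

namespace Vale.Agent.P011.H74

namespace Sw

variable {n : ℕ} {F : Type*} [CommRing F]

/-- The unitary element `(g, (g⁻¹)ᵀ)`. -/
def ofGL (g : GL (Fin n) F) : Sw n F :=
  mk (g : Matrix (Fin n) (Fin n) F) (((g⁻¹ : GL (Fin n) F) : Matrix (Fin n) (Fin n) F))ᵀ

theorem ofGL_X (g : GL (Fin n) F) : (ofGL g).X = g := rfl

theorem ofGL_Y (g : GL (Fin n) F) :
    (ofGL g).Y = (((g⁻¹ : GL (Fin n) F) : Matrix (Fin n) (Fin n) F))ᵀ := rfl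

theorem ofGL_unitary (g : GL (Fin n) F) :
    star (ofGL g) * ofGL g = 1 ∧ ofGL g * star (ofGL g) = 1 := by
  rw [unitary_iff, ofGL_X, ofGL_Y, transpose_transpose, ← Units.val_mul, ← Units.val_mul,
    mul_inv_cancel, inv_mul_cancel]
  exact ⟨rfl, rfl⟩

theorem ofGL_mul (g h : GL (Fin n) F) : ofGL (g * h) = ofGL g * ofGL h := by
  refine ext rfl ?_
  rw [ofGL_Y, Y_mul, ofGL_Y, ofGL_Y, _root_.mul_inv_rev, Units.val_mul, transpose_mul]

/-- Every unitary element is of this form. -/
theorem exists_ofGL {x : Sw n F} (h1 : star x * x = 1) (h2 : x * star x = 1) :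
    ∃ g : GL (Fin n) F, ofGL g = x := by
  obtain ⟨h3, h4⟩ := (unitary_iff x).1 ⟨h1, h2⟩
  exact ⟨⟨x.X, (x.Y)ᵀ, h3, h4⟩, ext rfl (transpose_transpose _)⟩

variable [TopologicalSpace F]

theorem isClosedEmbedding_ofGL [IsTopologicalRing F] [T2Space F] :
    IsClosedEmbedding (ofGL : GL (Fin n) F → Sw n F) := by
  let e : (Matrix (Fin n) (Fin n) F × (Matrix (Fin n) (Fin n) F)ᵐᵒᵖ) ≃ₜ Sw n F :=
    { toFun := fun p => mk p.1 (p.2.unop)ᵀ
      invFun := fun x => (x.X, MulOpposite.op (x.Y)ᵀ)
      left_inv := fun _ => rfl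
      right_inv := fun _ => rfl
      continuous_toFun := continuous_mk continuous_fst
        ((MulOpposite.continuous_unop.comp continuous_snd).matrix_transpose)
      continuous_invFun := continuous_X.prodMk
        (MulOpposite.continuous_op.comp continuous_Y.matrix_transpose) }
  have h1 : IsEmbedding (ofGL : GL (Fin n) F → Sw n F) :=
    e.isEmbedding.comp Units.isEmbedding_embedProduct
  refine ⟨h1, ?_⟩
  have h2 : Set.range (ofGL : GL (Fin n) F → Sw n F) =
      {x | x.X * (x.Y)ᵀ = 1} ∩ {x | (x.Y)ᵀ * x.X = 1} := by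
    ext x
    constructor
    · rintro ⟨g, rfl⟩
      exact (unitary_iff _).1 (ofGL_unitary g)
    · rintro ⟨h3, h4⟩
      obtain ⟨h5, h6⟩ := (unitary_iff x).2 ⟨h3, h4⟩
      exact exists_ofGL h5 h6
  rw [h2]
  have h3 : Continuous fun x : Sw n F => x.X * (x.Y)ᵀ :=
    continuous_X.matrix_mul continuous_Y.matrix_transpose
  have h4 : Continuous fun x : Sw n F => (x.Y)ᵀ * x.X :=
    continuous_Y.matrix_transpose.matrix_mul continuous_X
  exact (isClosed_eq h3 continuous_const).inter (isClosed_eq h4 continuous_const)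

theorem isCompact_preimage [IsTopologicalRing F] [T2Space F] {C : Set (Sw n F)}
    (hC : IsCompact C) : IsCompact {g : GL (Fin n) F | ofGL g ∈ C} :=
  isClosedEmbedding_ofGL.isCompact_preimage hC

theorem continuous_ofGL [IsTopologicalRing F] [T2Space F] :
    Continuous (ofGL : GL (Fin n) F → Sw n F) := isClosedEmbedding_ofGL.continuous

end Sw

/-- The determinant of the left multiplication on `M_n(F)`. -/
theorem det_mulLeft {F : Type*} [Field F] {n : ℕ} (X : Matrix (Fin n) (Fin n) F) :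
    LinearMap.det (LinearMap.mulLeft F X) = X.det ^ n := by
  rw [← LinearMap.det_toMatrix (Matrix.stdBasis F (Fin n) (Fin n))]
  have h : LinearMap.toMatrix (Matrix.stdBasis F (Fin n) (Fin n))
      (Matrix.stdBasis F (Fin n) (Fin n)) (LinearMap.mulLeft F X) =
      Matrix.blockDiagonal (fun _ : Fin n => X) := by
    ext ⟨i, j⟩ ⟨i', j'⟩
    rw [LinearMap.toMatrix_apply, LinearMap.mulLeft_apply, Matrix.stdBasis_eq_single,
      Matrix.blockDiagonal_apply]
    have h1 : ∀ M : Matrix (Fin n) (Fin n) F,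
        (Matrix.stdBasis F (Fin n) (Fin n)).repr M (i, j) = M i j := by
      intro M
      simp [Matrix.stdBasis]
    rw [h1, Matrix.mul_apply]
    simp only
    by_cases hj : j = j'
    · subst hj
      rw [if_pos rfl, Finset.sum_eq_single i']
      · simp
      · intro l _ hl
        simp [Matrix.single, hl.symm]
      · simp
    · rw [if_neg hj]
      refine Finset.sum_eq_zero fun l _ => ?_
      simp [Matrix.single, Ne.symm hj]
  rw [h, Matrix.det_blockDiagonal]
  simp

end Vale.Agent.P011.H74
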