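import Vale.Agent.P011.H74.GProj
import Vale.Agent.P011.H74.SwGL

/-!
# Uniqueness of the base change; the unitary group at a split factor is `GL_n`
-/

open Module TensorProduct Topology Matrix

namespace Vale.Agent.P011.H74

namespace BCR

variable {k R A E E' ι : Type*} [Field k] [CommRing R] [TopologicalSpace R] [Algebra k R]
  [Ring A] [StarRing A] [Algebra k A] [Ring E] [StarRing E] [TopologicalSpace E] [Algebra R E]
  [Ring E'] [StarRing E'] [TopologicalSpace E'] [Algebra R E'] [Fintype ι] [DecidableEq ι]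
  (B₁ : BCR k R A E ι) (B₂ : BCR k R A E' ι)

/-- The isomorphism between two base changes. -/
noncomputable def iso : E ≃L[R] E' := B₁.φ.trans B₂.φ.symm

variable (h : B₁.a = B₂.a)

include h

theorem iso_j (x : A) : iso B₁ B₂ (B₁.j x) = B₂.j x := by
  rw [iso, ContinuousLinearEquiv.trans_apply, ContinuousLinearEquiv.symm_apply_eq]
  funext i
  rw [B₁.φ_eq, B₂.φ_eq, h]

theorem iso_mul (x y : E) : iso B₁ B₂ (x * y) = iso B₁ B₂ x * iso B₁ B₂ y := by
  have h1 : (LinearMap.mul R E).compr₂ (iso B₁ B₂ : E →ₗ[R] E') =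
      (LinearMap.mul R E').compl₁₂ (iso B₁ B₂ : E →ₗ[R] E') (iso B₁ B₂ : E →ₗ[R] E') := by
    refine B₁.b.ext fun i => B₁.b.ext fun l => ?_
    rw [LinearMap.compr₂_apply, LinearMap.compl₁₂_apply, LinearMap.mul_apply',
      LinearMap.mul_apply']
    change iso B₁ B₂ (B₁.b i * B₁.b l) = iso B₁ B₂ (B₁.b i) * iso B₁ B₂ (B₁.b l)
    rw [B₁.b_apply, B₁.b_apply, ← map_mul, iso_j B₁ B₂ h, iso_j B₁ B₂ h, iso_j B₁ B₂ h, map_mul]
  have h2 := LinearMap.congr_fun (LinearMap.congr_fun h1 x) y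
  exact h2

theorem iso_one : iso B₁ B₂ 1 = 1 := by
  rw [← map_one B₁.j, iso_j B₁ B₂ h, map_one]

theorem iso_star (x : E) : iso B₁ B₂ (star x) = star (iso B₁ B₂ x) := by
  have h1 : (iso B₁ B₂ : E →ₗ[R] E') ∘ₗ B₁.starL = B₂.starL ∘ₗ (iso B₁ B₂ : E →ₗ[R] E') := by
    refine B₁.b.ext fun i => ?_
    change iso B₁ B₂ (star (B₁.b i)) = star (iso B₁ B₂ (B₁.b i))
    rw [B₁.b_apply, ← B₁.j_star, iso_j B₁ B₂ h, iso_j B₁ B₂ h, B₂.j_star]
  exact LinearMap.congr_fun h1 x

/-- The isomorphism of the unitary groups. -/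
noncomputable def isoU : unitary E →* unitary E' where
  toFun x := ⟨iso B₁ B₂ x, by
    rw [Unitary.mem_iff, ← iso_star B₁ B₂ h, ← iso_mul B₁ B₂ h, ← iso_mul B₁ B₂ h]
    have h' := Unitary.mem_iff.1 x.2
    rw [h'.1, h'.2, iso_one B₁ B₂ h]
    exact ⟨rfl, rfl⟩⟩
  map_one' := Subtype.ext (iso_one B₁ B₂ h)
  map_mul' x y := Subtype.ext (iso_mul B₁ B₂ h _ _)

theorem isoU_coe (x : unitary E) : ((isoU B₁ B₂ h x : unitary E') : E') = iso B₁ B₂ x := rfl

theorem continuous_isoU : Continuous (isoU B₁ B₂ h) :=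
  Continuous.subtype_mk ((iso B₁ B₂).continuous.comp continuous_subtype_val) _

theorem isoU_isoU (x : unitary E) : isoU B₂ B₁ h.symm (isoU B₁ B₂ h x) = x := by
  apply Subtype.ext
  rw [isoU_coe, isoU_coe]
  simp [iso]

end BCR

namespace Sw

variable {n : ℕ} {F : Type*} [CommRing F]

/-- The unitary elements of `M_n(F) × M_n(F)` are `GL_n(F)`. -/
noncomputable def uGL : unitary (Sw n F) ≃* GL (Fin n) F where
  toFun x := ⟨(x : Sw n F).X, ((x : Sw n F).Y)ᵀ,
    ((unitary_iff _).1 (Unitary.mem_iff.1 x.2)).1, ((unitary_iff _).1 (Unitary.mem_iff.1 x.2)).2⟩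
  invFun g := ⟨ofGL g, Unitary.mem_iff.2 (ofGL_unitary g)⟩
  left_inv x := Subtype.ext (ext rfl (transpose_transpose _))
  right_inv g := Units.ext rfl
  map_mul' x y := Units.ext rfl

theorem uGL_val (x : unitary (Sw n F)) : ((uGL x : GL (Fin n) F) : Matrix (Fin n) (Fin n) F) =
    (x : Sw n F).X := rfl

theorem uGL_symm_val (g : GL (Fin n) F) : ((uGL.symm g : unitary (Sw n F)) : Sw n F) = ofGL g :=
  rfl

variable [TopologicalSpace F]

theorem continuous_uGL : Continuous (uGL : unitary (Sw n F) → GL (Fin n) F) := by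
  rw [Units.continuous_iff]
  refine ⟨continuous_X.comp continuous_subtype_val, ?_⟩
  exact (continuous_Y.comp continuous_subtype_val).matrix_transpose

theorem continuous_uGL_symm : Continuous (uGL.symm : GL (Fin n) F → unitary (Sw n F)) := by
  refine Continuous.subtype_mk ?_ _
  refine continuous_mk Units.continuous_val ?_
  exact (Units.continuous_coe_inv).matrix_transpose

end Sw

end Vale.Agent.P011.H74
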