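import Vale.Agent.P011.H74.Frob
import Vale.Agent.P011.H74.CocSub

/-!
# Cocompactness for orders in anisotropic algebras with involution, no archimedean place

`A` need not be a division algebra.  `R = k_S` with `S` a finite set of nonarchimedean places.
-/

open MeasureTheory Matrix Module Topology Filter

namespace Vale.Agent.P011.H74

/-- No archimedean place: a compact open subgroup `V` of `R` and an element `t` of `O` which
expands `V`. -/
def Expand (k R : Type*) [Field k] [CommRing R] [TopologicalSpace R] [Algebra k R]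
    (O : Subring k) : Prop :=
  ∃ (V : AddSubgroup R) (t : k), IsOpen (V : Set R) ∧ IsCompact (V : Set R) ∧ t ∈ O ∧ t ≠ 0 ∧
    (∀ r ∈ V, algebraMap k R t⁻¹ * r ∈ V) ∧ (∀ r : R, ∃ j : ℕ, algebraMap k R t⁻¹ ^ j * r ∈ V) ∧
    ∀ U ∈ 𝓝 (0 : R), ∃ j : ℕ, ∀ r ∈ V, algebraMap k R t⁻¹ ^ j * r ∈ U

namespace BCR

variable {k R A E ι : Type*} [Field k] [CommRing R] [TopologicalSpace R] [IsTopologicalRing R]
  [Algebra k R] [Ring A] [StarRing A] [Algebra k A] [Ring E] [StarRing E] [TopologicalSpace E]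
  [IsTopologicalRing E] [Algebra R E] [Fintype ι] [DecidableEq ι] (B : BCR k R A E ι)

include B

omit [IsTopologicalRing R] [IsTopologicalRing E] in
theorem star_smul_A [Nontrivial R] (c : k) (y : A) : star (c • y) = c • star y := by
  apply B.j_inj
  rw [B.j_star, B.j_smul, B.star_smul, B.j_smul, B.j_star]

omit [IsTopologicalRing R] [IsTopologicalRing E] in
theorem j_smul_one (c : k) (x : E) : B.j (c • (1 : A)) * x = algebraMap k R c • x := by
  rw [B.j_smul, map_one, smul_mul_assoc, one_mul]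

/-- Elements near `1` are units. -/
theorem eventually_isUnit (hunits : ∀ᶠ r in 𝓝 (1 : R), IsUnit r) :
    ∀ᶠ x in 𝓝 (1 : E), IsUnit x := by
  have hc : Continuous (fun x : E => LinearMap.det (LinearMap.mulLeft R x)) := by
    have h1 : (fun x : E => LinearMap.det (LinearMap.mulLeft R x)) =
        fun x : E => (LinearMap.toMatrix B.b B.b (LinearMap.mulLeft R x)).det := by
      funext x
      rw [LinearMap.det_toMatrix]
    rw [h1]
    refine Continuous.matrix_det ?_
    refine continuous_matrix fun i l => ?_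
    have h2 : (fun x : E => LinearMap.toMatrix B.b B.b (LinearMap.mulLeft R x) i l) =
        fun x : E => B.φ (x * B.b l) i := by
      funext x
      rw [LinearMap.toMatrix_apply, LinearMap.mulLeft_apply]
      rfl
    rw [h2]
    exact (continuous_apply i).comp (B.φ.continuous.comp (continuous_mul_const _))
  have h1 : ∀ᶠ x in 𝓝 (1 : E), IsUnit (LinearMap.det (LinearMap.mulLeft R x)) := by
    have h2 := hc.tendsto 1
    have h3 : LinearMap.det (LinearMap.mulLeft R (1 : E)) = 1 := by
      rw [LinearMap.mulLeft_one, LinearMap.det_id]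
    rw [h3] at h2
    exact h2.eventually hunits
  refine h1.mono fun x hx => ?_
  have h2 : IsUnit (LinearMap.mulLeft R x) := by
    have : IsUnit (LinearMap.toMatrix B.b B.b (LinearMap.mulLeft R x)) := by
      rw [Matrix.isUnit_iff_isUnit_det, LinearMap.det_toMatrix]
      exact hx
    obtain ⟨u, hu⟩ := this
    have h3 : LinearMap.mulLeft R x * Matrix.toLin B.b B.b ((u⁻¹ : (Matrix ι ι R)ˣ) :
        Matrix ι ι R) = 1 := by
      apply (LinearMap.toMatrix B.b B.b).injective
      rw [LinearMap.toMatrix_mul, LinearMap.toMatrix_toLin, ← hu, Units.mul_inv]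
      exact (LinearMap.toMatrix_one B.b).symm
    have h4 : Matrix.toLin B.b B.b ((u⁻¹ : (Matrix ι ι R)ˣ) :
        Matrix ι ι R) * LinearMap.mulLeft R x = 1 := by
      apply (LinearMap.toMatrix B.b B.b).injective
      rw [LinearMap.toMatrix_mul, LinearMap.toMatrix_toLin, ← hu, Units.inv_mul]
      exact (LinearMap.toMatrix_one B.b).symm
    exact ⟨⟨_, _, h3, h4⟩, rfl⟩
  rw [Module.End.isUnit_iff] at h2
  obtain ⟨y, hy⟩ := h2.2 1
  rw [LinearMap.mulLeft_apply] at hy
  refine ⟨⟨x, y, hy, ?_⟩, rfl⟩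
  apply h2.1
  rw [LinearMap.mulLeft_apply, LinearMap.mulLeft_apply, ← mul_assoc, hy, one_mul, mul_one]

omit [IsTopologicalRing R] [IsTopologicalRing E] in
/-- An element of `A` which is a unit of `E` is a unit of `A`. -/
theorem isUnit_of_j [Nontrivial R] {x : A} (h : IsUnit (B.j x)) : IsUnit x := by
  have : FiniteDimensional k A := Module.Finite.of_basis B.a
  have hinj : Function.Injective (LinearMap.mulLeft k x) := by
    intro y z hyz
    rw [LinearMap.mulLeft_apply, LinearMap.mulLeft_apply] at hyz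
    apply B.j_inj
    apply h.mul_left_cancel
    rw [← map_mul, hyz, map_mul]
  have hsurj := LinearMap.surjective_of_injective hinj
  obtain ⟨y, hy⟩ := hsurj 1
  rw [LinearMap.mulLeft_apply] at hy
  refine ⟨⟨x, y, hy, ?_⟩, rfl⟩
  apply hinj
  rw [LinearMap.mulLeft_apply, LinearMap.mulLeft_apply, ← mul_assoc, hy, one_mul, mul_one]

/-- **Cocompactness of the unitary group of an order in an anisotropic algebra.** -/
theorem unitary_cocompact_aniso [Nontrivial R] [LocallyCompactSpace R] [T2Space R]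
    (hR : H544.DetOne R) (hF : Frob k A) (haniso : ∀ x : A, star x * x = 0 → x = 0)
    (hunits : ∀ᶠ r in 𝓝 (1 : R), IsUnit r) {O : Subring k}
    (hOd : ∀ K : Set R, IsCompact K → {c : k | c ∈ O ∧ algebraMap k R c ∈ K}.Finite)
    (hOc : ∃ K : Set R, IsCompact K ∧ ∀ r : R, ∃ c ∈ O, r - algebraMap k R c ∈ K)
    (hfrac : ∀ x : k, ∃ d ∈ O, d ≠ 0 ∧ d * x ∈ O) (hexp : Expand k R O)
    {Lam : Subring A} [Countable Lam] (H : IsOrdR B.a O Lam)
    (hOL : ∀ c ∈ O, c • (1 : A) ∈ Lam) :
    ∃ C : Set E, IsCompact C ∧ ∀ x : E, star x * x = 1 → x * star x = 1 →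
      ∃ w ∈ Lam, star w * w = 1 ∧ w * star w = 1 ∧ x * B.j w ∈ C := by
  classical
  have := B.continuousStar
  have := B.t2
  have := B.locallyCompact
  borelize E
  let μ : Measure E := Measure.addHaar
  obtain ⟨V, t, hVo, hVc, htO, ht0, hVt, hVun, hV0⟩ := hexp
  obtain ⟨K, hK, hcov⟩ := B.coc hOc H
  have hdisc := B.disc hOd H
  set O' : Subring E := Lam.map B.j with hO'
  have hmemO' : ∀ x : E, x ∈ O' ↔ ∃ a ∈ Lam, B.j a = x := fun x => Iff.rfl
  have hcount : (O' : Set E).Countable := by
    have h1 : (O' : Set E) = B.j '' (Lam : Set A) := rfl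
    rw [h1]
    exact (Set.to_countable (Lam : Set A)).image _
  have hfin : ∀ C : Set E, IsCompact C → (C ∩ (O' : Set E)).Finite := by
    intro C hC
    refine ((hdisc C hC).image B.j).subset ?_
    rintro _ ⟨hz, x, hx, rfl⟩
    exact ⟨x, ⟨hx, hz⟩, rfl⟩
  -- the element `t`
  have htt : algebraMap k R t * algebraMap k R t⁻¹ = 1 := by
    rw [← map_mul, mul_inv_cancel₀ ht0, map_one]
  have htt' : algebraMap k R t⁻¹ * algebraMap k R t = 1 := by rw [mul_comm, htt]
  have hpow : ∀ (c : k) (j : ℕ), B.j (c • (1 : A)) ^ j = B.j ((c ^ j) • (1 : A)) := by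
    intro c j
    rw [← map_pow, smul_pow, one_pow]
  have hpowmul : ∀ (c : k) (j : ℕ) (x : E), B.j (c • (1 : A)) ^ j * x =
      (algebraMap k R c) ^ j • x := by
    intro c j x
    rw [hpow, B.j_smul_one, map_pow]
  -- the subgroup `W`
  let W : AddSubgroup E := AddSubgroup.comap
    ((B.φ : E →ₗ[R] (ι → R)).toAddMonoidHom) (AddSubgroup.pi Set.univ fun _ => V)
  have hW : ∀ x : E, x ∈ W ↔ ∀ i, B.φ x i ∈ V := by
    intro x
    simp only [W, AddSubgroup.mem_comap, AddSubgroup.mem_pi, Set.mem_univ, forall_true_left]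
    rfl
  have hWset : (W : Set E) = B.φ ⁻¹' (Set.pi Set.univ fun _ : ι => (V : Set R)) := by
    ext x
    rw [SetLike.mem_coe, hW]
    simp
  have hWo : IsOpen (W : Set E) := by
    rw [hWset]
    exact (isOpen_set_pi Set.finite_univ fun _ _ => hVo).preimage B.φ.continuous
  have hWc : IsCompact (W : Set E) := by
    have h1 : (W : Set E) = B.φ.symm '' (Set.pi Set.univ fun _ : ι => (V : Set R)) := by
      rw [hWset, ContinuousLinearEquiv.image_symm_eq_preimage]
    rw [h1]
    exact (isCompact_univ_pi fun _ => hVc).image B.φ.symm.continuous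
  have hφs : ∀ (r : R) (x : E) (i : ι), B.φ (r • x) i = r * B.φ x i := by
    intro r x i
    rw [map_smul]
    rfl
  obtain ⟨C, hC, h⟩ := cocompact_unitary_aniso μ O' hcount
    (by
      rintro _ ⟨x, hx, rfl⟩
      exact ⟨star x, H.star_mem x hx, B.j_star x⟩)
    hfin K hK
    (by
      intro x
      obtain ⟨a, ha, hxa⟩ := hcov x
      exact ⟨_, hxa, B.j a, ⟨a, ha, rfl⟩, by abel⟩)
    (fun u hu s _ => B.haar_unitary hR hF μ u (Unitary.mem_iff.1 hu).1 s)
    (by
      rintro _ ⟨x, hx, rfl⟩ h0 h1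
      apply h0
      have h2 : B.j (star x * x) = B.j 0 := by
        rw [map_mul, B.j_star, map_zero]
        exact h1
      have h3 := B.j_inj h2
      rw [haniso x h3, map_zero])
    W hWo hWc (B.j (t • (1 : A))) (B.j (t⁻¹ • (1 : A))) ⟨_, hOL t htO, rfl⟩
    (by
      intro a
      rw [B.j_smul, map_one, smul_mul_assoc, one_mul, mul_smul_comm, mul_one])
    (by
      rw [B.j_smul_one, B.j_smul, map_one, smul_smul, htt, one_smul])
    (by
      intro w hw
      refine ⟨algebraMap k R t⁻¹ • w, (hW _).2 fun i => ?_, ?_⟩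
      · rw [hφs]
        exact hVt _ ((hW w).1 hw i)
      · rw [B.j_smul_one, smul_smul, htt, one_smul])
    (by
      intro x
      choose j hj using fun i => hVun (B.φ x i)
      have hmono : ∀ (r : R) (j l : ℕ), j ≤ l → algebraMap k R t⁻¹ ^ j * r ∈ V →
          algebraMap k R t⁻¹ ^ l * r ∈ V := by
        intro r j l hjl hr
        induction l, hjl using Nat.le_induction with
        | base => exact hr
        | succ l _ ih =>
          rw [pow_succ', mul_assoc]
          exact hVt _ ih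
      set J := Finset.univ.sup j with hJ
      refine ⟨J, (algebraMap k R t⁻¹) ^ J • x, (hW _).2 fun i => ?_, ?_⟩
      · rw [hφs]
        exact hmono _ _ _ (Finset.le_sup (Finset.mem_univ i)) (hj i)
      · rw [hpowmul, smul_smul, ← mul_pow, htt, one_pow, one_smul])
    (by
      intro U hU
      have h1 : B.φ.symm ⁻¹' U ∈ 𝓝 (0 : ι → R) := by
        have h2 := B.φ.symm.continuous.continuousAt (x := (0 : ι → R))
        rw [ContinuousAt, map_zero] at h2
        exact h2 hU
      rw [nhds_pi, Filter.mem_pi'] at h1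
      obtain ⟨I, U', hU', hI⟩ := h1
      have h3 : (⋂ i ∈ (Finset.univ : Finset ι), U' i) ∈ 𝓝 (0 : R) := by
        rw [Filter.biInter_finset_mem]
        exact fun i _ => hU' i
      obtain ⟨j, hj⟩ := hV0 _ h3
      refine ⟨j, fun w hw => ?_⟩
      rw [hpowmul]
      have h4 : B.φ (algebraMap k R t⁻¹ ^ j • w) ∈ B.φ.symm ⁻¹' U := by
        apply hI
        intro i _
        rw [hφs]
        have := hj _ ((hW w).1 hw i)
        simp only [Set.mem_iInter] at this
        exact this i (Finset.mem_univ i)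
      rw [Set.mem_preimage, ContinuousLinearEquiv.symm_apply_apply] at h4
      exact h4)
    (B.eventually_isUnit hunits)
    (by
      rintro _ ⟨x, hx, rfl⟩ hux
      obtain ⟨u, rfl⟩ := B.isUnit_of_j hux
      obtain ⟨d, hd, hlo⟩ := H.lo
      -- a common denominator
      obtain ⟨m, hmO, hm0, hm⟩ : ∃ m ∈ O, m ≠ 0 ∧
          ∀ i, m * (d⁻¹ * B.a.repr ((u⁻¹ : Aˣ) : A) i) ∈ O := by
        have hall : ∀ s : Finset ι, ∃ m ∈ O, m ≠ 0 ∧
            ∀ i ∈ s, m * (d⁻¹ * B.a.repr ((u⁻¹ : Aˣ) : A) i) ∈ O := by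
          intro s
          induction s using Finset.induction_on with
          | empty => exact ⟨1, O.one_mem, one_ne_zero, by simp⟩
          | insert i s hi ih =>
            obtain ⟨m, hmO, hm0, hm⟩ := ih
            obtain ⟨e, heO, he0, he⟩ := hfrac (d⁻¹ * B.a.repr ((u⁻¹ : Aˣ) : A) i)
            refine ⟨m * e, O.mul_mem hmO heO, mul_ne_zero hm0 he0, fun l hl => ?_⟩
            rcases Finset.mem_insert.1 hl with rfl | hl
            · rw [mul_assoc]
              exact O.mul_mem hmO he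
            · rw [mul_comm m e, mul_assoc]
              exact O.mul_mem heO (hm l hl)
        obtain ⟨m, hmO, hm0, hm⟩ := hall Finset.univ
        exact ⟨m, hmO, hm0, fun i => hm i (Finset.mem_univ i)⟩
      have hmR : algebraMap k R m⁻¹ * algebraMap k R m = 1 := by
        rw [← map_mul, inv_mul_cancel₀ hm0, map_one]
      have hmR' : algebraMap k R m * algebraMap k R m⁻¹ = 1 := by rw [mul_comm, hmR]
      refine ⟨B.j ((u⁻¹ : Aˣ) : A), B.j (m • (1 : A)), ?_, ?_, ⟨_, hOL m hmO, rfl⟩, ?_, ?_, ?_,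
        ?_, ?_⟩
      · rw [← map_mul, Units.mul_inv, map_one]
      · rw [← map_mul, Units.inv_mul, map_one]
      · rw [← B.j_star, B.star_smul_A, star_one]
      · intro a
        rw [B.j_smul, map_one, smul_mul_assoc, one_mul, mul_smul_comm, mul_one]
      · intro a b hab
        rw [B.j_smul_one, B.j_smul_one] at hab
        calc a = (algebraMap k R m⁻¹ * algebraMap k R m) • a := by rw [hmR, one_smul]
          _ = (algebraMap k R m⁻¹ * algebraMap k R m) • b := by rw [mul_smul, hab, ← mul_smul]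
          _ = b := by rw [hmR, one_smul]
      · refine ⟨_, hlo _ hm, ?_⟩
        rw [← map_mul, smul_mul_assoc, one_mul]
        congr 1
        conv_rhs => rw [← B.a.sum_repr ((u⁻¹ : Aˣ) : A), Finset.smul_sum]
        refine Finset.sum_congr rfl fun i _ => ?_
        rw [smul_smul]
        congr 1
        field_simp
      · refine ⟨((fun z => B.j (m • (1 : A)) ^ 3 * z) '' K) ∩ (O' : Set E),
          hfin _ (hK.image (continuous_const_mul _)), ?_⟩
        intro x hx
        obtain ⟨a, ha, hxa⟩ := hcov ((algebraMap k R m⁻¹) ^ 3 • x)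
        have h1 : B.j (m • (1 : A)) ^ 3 * ((algebraMap k R m⁻¹) ^ 3 • x - B.j a) =
            x - B.j (m • (1 : A)) ^ 3 * B.j a := by
          rw [mul_sub, hpowmul, smul_smul, ← mul_pow, hmR', one_pow, one_smul]
        refine ⟨x - B.j (m • (1 : A)) ^ 3 * B.j a, ⟨⟨_, hxa, h1⟩, ?_⟩, B.j a, ⟨a, ha, rfl⟩,
          by abel⟩
        refine O'.sub_mem hx (O'.mul_mem (O'.pow_mem ⟨_, hOL m hmO, rfl⟩ 3) ⟨a, ha, rfl⟩))
  refine ⟨C, hC, fun x hx hx' => ?_⟩
  obtain ⟨_, ⟨w, hw, rfl⟩, hwU, hwC⟩ := h x (Unitary.mem_iff.2 ⟨hx, hx'⟩)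
  refine ⟨w, hw, B.j_inj ?_, B.j_inj ?_, hwC⟩
  · rw [map_mul, B.j_star, map_one]
    exact (Unitary.mem_iff.1 hwU).1
  · rw [map_mul, B.j_star, map_one]
    exact (Unitary.mem_iff.1 hwU).2

end BCR

end Vale.Agent.P011.H74
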