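import Vale.Agent.P011.H521.LocComm

/-!
# The move and the commutator in a ternary unitary group, every characteristic

The same as helper521's `exists_move` and `exists_move_comm`, with an element `s₀` which is not
fixed by the involution and a fixed element `t` with `t ^ 4 ≠ 1` instead of characteristic zero.
-/

set_option linter.unusedSectionVars false

open Matrix

namespace Vale.Agent.P011.H74.LCF

open Vale.Agent.P011.H521.LC

variable {K : Type*} [Field K] [StarRing K] {H : Matrix (Fin 3) (Fin 3) K}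

/-- The trace is surjective. -/
theorem exists_half {s₀ : K} (hs₀ : star s₀ ≠ s₀) : ∃ ρ : K, ρ + star ρ = 1 := by
  by_cases h2 : (2 : K) = 0
  · have h1 : s₀ + star s₀ ≠ 0 := by
      intro h
      apply hs₀
      linear_combination h - s₀ * h2
    refine ⟨s₀ / (s₀ + star s₀), ?_⟩
    rw [star_div₀, star_add, star_star, add_comm (star s₀), ← add_div, div_self h1]
  · have h2' : star (2 : K) = 2 := by
      have : (2 : K) = 1 + 1 := by norm_num
      rw [this, star_add, star_one]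
    refine ⟨1 / 2, ?_⟩
    rw [star_div₀, star_one, h2']
    field_simp
    norm_num

/-- a matrix whose form vanishes on all isotropic vectors is a multiple of `H` -/
theorem eq_smul_of_isotropic' (hH : Hᴴ = H) {s₀ t : K} (hs₀ : star s₀ ≠ s₀) (ht : star t = t)
    (ht0 : t ≠ 0) (ht1 : t ≠ 1) {a b : Fin 3 → K} (haa : hf H a a = 0)
    (hbb : hf H b b = 0) (hab : hf H a b = 1) {Y : Matrix (Fin 3) (Fin 3) K}
    (hY : ∀ e : Fin 3 → K, hf H e e = 0 → star e ⬝ᵥ (Y *ᵥ e) = 0) :
    ∃ c : K, Y = c • H := by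
  obtain ⟨ρ, hρ⟩ := exists_half hs₀
  obtain ⟨m, hma, hmb, hP⟩ := exists_basis hH haa hbb hab one_ne_zero
  have hba : hf H b a = 1 := by rw [← star_hf hH, hab, star_one]
  have ham : hf H a m = 0 := by rw [← star_hf hH, hma, star_zero]
  have hbm : hf H b m = 0 := by rw [← star_hf hH, hmb, star_zero]
  set η := hf H m m with hη
  have hsη : star η = η := star_hf hH m m
  set Φ : (Fin 3 → K) → (Fin 3 → K) → K := fun x y => star y ⬝ᵥ (Y *ᵥ x) with hΦ
  have Φal : ∀ x x' y, Φ (x + x') y = Φ x y + Φ x' y := by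
    intro x x' y; simp [hΦ, mulVec_add, dotProduct_add]
  have Φsl : ∀ (c : K) x y, Φ (c • x) y = c * Φ x y := by
    intro c x y; simp [hΦ, mulVec_smul]
  have Φar : ∀ x y y', Φ x (y + y') = Φ x y + Φ x y' := by
    intro x y y'; simp [hΦ, add_dotProduct]
  have Φsr : ∀ (c : K) x y, Φ x (c • y) = star c * Φ x y := by
    intro c x y; simp [hΦ, star_smul, smul_dotProduct]
  have hΦ0 : ∀ e, hf H e e = 0 → Φ e e = 0 := hY
  have Φaa := hΦ0 a haa
  have Φbb := hΦ0 b hbb
  -- the general isotropic vector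
  have hgen : ∀ s r : K, r + star r = -(η * s * star s) →
      star s * Φ a m + s * Φ m a + s * star s * Φ m m + star r * Φ a b + r * Φ b a +
        s * star r * Φ m b + r * star s * Φ b m = 0 := by
    intro s r hr
    have hv : hf H (a + s • m + r • b) (a + s • m + r • b) = 0 := by
      simp only [hf_add_left, hf_smul_left, hf_add_right, hf_smul_right, haa, hbb, hab, hba, hma,
        hmb, ham, hbm, ← hη]
      linear_combination hr
    have h3 := hΦ0 _ hv
    simp only [Φal, Φsl, Φar, Φsr, Φaa, Φbb] at h3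
    linear_combination h3
  set τ := s₀ - star s₀ with hτ
  have hτ0 : τ ≠ 0 := sub_ne_zero.2 (Ne.symm hs₀)
  have hsτ : star τ = -τ := by rw [hτ, star_sub, star_star, neg_sub]
  have e1 : Φ a b = Φ b a := by
    have h3 := hgen 0 τ (by rw [hsτ]; ring)
    rw [hsτ, star_zero] at h3
    have h4 : τ * (Φ b a - Φ a b) = 0 := by linear_combination h3
    exact (sub_eq_zero.1 ((mul_eq_zero.1 h4).resolve_left hτ0)).symm
  -- a solution of the trace equation
  have hrs : ∀ s : K, -(η * s * star s) * ρ + star (-(η * s * star s) * ρ) =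
      -(η * s * star s) := by
    intro s
    have h3 : star (-(η * s * star s) * ρ) = -(η * s * star s) * star ρ := by
      rw [star_mul', star_neg, star_mul', star_mul', star_star, hsη]
      ring
    rw [h3, ← mul_add, hρ, mul_one]
  have e2 : ∀ s : K, s * Φ m b = star s * Φ b m := by
    intro s
    have h3 := hgen s _ (hrs s)
    have h4 := hgen s (-(η * s * star s) * ρ + τ) (by
      rw [star_add, hsτ]
      linear_combination hrs s)
    rw [star_add, hsτ] at h4
    have h5 : τ * (star s * Φ b m - s * Φ m b) = 0 := by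
      rw [e1] at h3 h4
      linear_combination h4 - h3
    exact (sub_eq_zero.1 ((mul_eq_zero.1 h5).resolve_left hτ0)).symm
  have e3 : Φ m b = Φ b m := by simpa using e2 1
  have e4 : Φ m b = 0 := by
    have h3 := e2 s₀
    rw [← e3] at h3
    have h4 : τ * Φ m b = 0 := by rw [hτ]; linear_combination h3
    exact (mul_eq_zero.1 h4).resolve_left hτ0
  have e5 : Φ b m = 0 := by rw [← e3, e4]
  have e6 : ∀ s : K, star s * Φ a m + s * Φ m a + s * star s * (Φ m m - η * Φ b a) = 0 := by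
    intro s
    have h3 := hgen s _ (hrs s)
    rw [e1, e4, e5] at h3
    linear_combination h3 - Φ b a * hrs s
  have e7 : Φ m m = η * Φ b a := by
    have h3 := e6 1
    have h4 := e6 t
    rw [star_one] at h3
    rw [ht] at h4
    have h5 : t * (t - 1) * (Φ m m - η * Φ b a) = 0 := by linear_combination h4 - t * h3
    exact sub_eq_zero.1 ((mul_eq_zero.1 h5).resolve_left
      (mul_ne_zero ht0 (sub_ne_zero.2 ht1)))
  have e8 : ∀ s : K, star s * Φ a m + s * Φ m a = 0 := by
    intro s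
    have h3 := e6 s
    rw [e7] at h3
    linear_combination h3
  have e9 : Φ m a = - Φ a m := by
    have h3 := e8 1
    simp only [star_one] at h3
    linear_combination h3
  have e10 : Φ a m = 0 := by
    have h3 := e8 s₀
    rw [e9] at h3
    have h4 : τ * Φ a m = 0 := by rw [hτ]; linear_combination -h3
    exact (mul_eq_zero.1 h4).resolve_left hτ0
  have e11 : Φ m a = 0 := by rw [e9, e10, neg_zero]
  refine ⟨Φ b a, ?_⟩
  set P : Matrix (Fin 3) (Fin 3) K := (Matrix.of ![a, m, b])ᵀ with hPdef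
  obtain ⟨c0, c1, c2⟩ := col_of a m b
  have key : Pᴴ * Y * P = Pᴴ * (Φ b a • H) * P := by
    ext i j
    have h3 : (Pᴴ * Y * P) i j = Φ (P.col j) (P.col i) := by
      rw [hΦ, Matrix.mul_assoc, Matrix.mul_apply]
      exact Finset.sum_congr rfl fun l _ => rfl
    have h4 : (Pᴴ * (Φ b a • H) * P) i j = Φ b a * hf H (P.col j) (P.col i) := by
      rw [Matrix.mul_smul, Matrix.smul_mul, Matrix.smul_apply, H521.LC.gram_apply, smul_eq_mul]
    rw [h3, h4]
    fin_cases i <;> fin_cases j <;>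
      simp [hPdef, c0, c1, c2, haa, hbb, hab, hba, hma, hmb, ham, hbm, Φaa, Φbb, e1, e4, e5, e7,
        e10, e11, ← hη, mul_comm]
  have hPu : IsUnit P := (Matrix.isUnit_iff_isUnit_det P).2 (isUnit_iff_ne_zero.2 hP)
  have hPu' : IsUnit Pᴴ := by
    rw [Matrix.isUnit_iff_isUnit_det, det_conjTranspose]
    exact isUnit_iff_ne_zero.2 (by simpa using hP)
  exact hPu'.mul_left_cancel (hPu.mul_right_cancel key)

/-- **THE MOVE**, every characteristic. -/
theorem exists_move' (hH : Hᴴ = H) (hd : H.det ≠ 0) {s₀ t : K} (hs₀ : star s₀ ≠ s₀)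
    (ht : star t = t) (ht0 : t ≠ 0) (ht4 : t ^ 4 ≠ 1) {a b : Fin 3 → K} (haa : hf H a a = 0)
    (hbb : hf H b b = 0) (hab : hf H a b = 1) {Z W₀ : Matrix (Fin 3) (Fin 3) K}
    (hZ : Zᴴ * H * Z = H) (hW₀ : W₀ᴴ * H * W₀ = H)
    (hZ2 : ∀ α β γ : K, α • (Z * Z) + β • Z + γ • 1 = 0 → α = 0)
    (hW2 : ∀ c : K, W₀ ≠ c • 1) :
    ∃ (U : Matrix (Fin 3) (Fin 3) K) (θ : K) (f : Fin 3 → K), Uᴴ * H * U = H ∧ U.det = 1 ∧
      f ≠ 0 ∧ θ * star θ ≠ 1 ∧ star θ ≠ θ ∧ (U * Z * U⁻¹ * W₀⁻¹) *ᵥ f = θ • f := by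
  have ht1 : t ≠ 1 := by
    rintro rfl
    exact ht4 (one_pow 4)
  -- an isotropic vector moved by `W₀` off its orthogonal complement
  obtain ⟨f, hff, hB⟩ : ∃ f : Fin 3 → K, hf H f f = 0 ∧ hf H f (W₀ *ᵥ f) ≠ 0 := by
    by_contra hcon
    push Not at hcon
    have h3 : ∀ e : Fin 3 → K, hf H e e = 0 → star e ⬝ᵥ ((W₀ᴴ * H) *ᵥ e) = 0 := by
      intro e he
      have h4 := hcon e he
      unfold hf at h4
      rw [star_mulVec, ← dotProduct_mulVec, mulVec_mulVec] at h4
      exact h4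
    obtain ⟨c, hc⟩ := eq_smul_of_isotropic' hH hs₀ ht ht0 ht1 haa hbb hab h3
    have hHu : IsUnit H := (Matrix.isUnit_iff_isUnit_det H).2 (isUnit_iff_ne_zero.2 hd)
    have h5 : W₀ᴴ = c • 1 := by
      apply hHu.mul_right_cancel
      rw [hc, Matrix.smul_mul, Matrix.one_mul]
    apply hW2 (star c)
    have h6 := congrArg conjTranspose h5
    rw [conjTranspose_conjTranspose, conjTranspose_smul, conjTranspose_one] at h6
    exact h6
  set B := hf H f (W₀ *ᵥ f) with hBdef
  have hsB : star B ≠ 0 := by simpa using hB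
  -- an isotropic vector with a non real ratio
  obtain ⟨e, hee, hA⟩ : ∃ e : Fin 3 → K, hf H e e = 0 ∧
      hf H e (Z *ᵥ e) * star B ≠ star (hf H e (Z *ᵥ e)) * B := by
    by_contra hcon
    push Not at hcon
    have h3 : ∀ e : Fin 3 → K, hf H e e = 0 →
        star e ⬝ᵥ ((star B • (Zᴴ * H) - B • (H * Z)) *ᵥ e) = 0 := by
      intro e he
      have h4 := hcon e he
      have h4a : hf H e (Z *ᵥ e) = star e ⬝ᵥ ((Zᴴ * H) *ᵥ e) := by
        unfold hf
        rw [star_mulVec, ← dotProduct_mulVec, mulVec_mulVec]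
      have h4b : star (hf H e (Z *ᵥ e)) = star e ⬝ᵥ ((H * Z) *ᵥ e) := by
        rw [star_hf hH]
        unfold hf
        rw [mulVec_mulVec]
      rw [h4b, h4a] at h4
      rw [sub_mulVec, smul_mulVec, smul_mulVec, dotProduct_sub, dotProduct_smul, dotProduct_smul,
        smul_eq_mul, smul_eq_mul]
      linear_combination h4
    obtain ⟨c, hc⟩ := eq_smul_of_isotropic' hH hs₀ ht ht0 ht1 haa hbb hab h3
    have h5 : (star B • (Zᴴ * H) - B • (H * Z)) * Z = c • H * Z := by rw [hc]
    rw [sub_mul, Matrix.smul_mul, Matrix.smul_mul, hZ, Matrix.mul_assoc, Matrix.smul_mul] at h5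
    have hHu : IsUnit H := (Matrix.isUnit_iff_isUnit_det H).2 (isUnit_iff_ne_zero.2 hd)
    have h6 : H * (B • (Z * Z) + c • Z + (-star B) • 1) = H * 0 := by
      rw [Matrix.mul_zero, Matrix.mul_add, Matrix.mul_add, Matrix.mul_smul, Matrix.mul_smul,
        Matrix.mul_smul, Matrix.mul_one, neg_smul, ← h5]
      abel
    exact hB (hZ2 _ _ _ (hHu.mul_left_cancel h6))
  -- scaling
  obtain ⟨t', ht', ht0', hN⟩ : ∃ t : K, star t = t ∧ t ≠ 0 ∧
      (t * t * hf H e (Z *ᵥ e) / B) * star (t * t * hf H e (Z *ᵥ e) / B) ≠ 1 := by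
    by_cases h : (hf H e (Z *ᵥ e) / B) * star (hf H e (Z *ᵥ e) / B) = 1
    · refine ⟨t, ht, ht0, ?_⟩
      have h3 : t * t * hf H e (Z *ᵥ e) / B = t * t * (hf H e (Z *ᵥ e) / B) := by ring
      rw [h3, star_mul', star_mul', ht]
      have h5 : t * t * (hf H e (Z *ᵥ e) / B) * (t * t * star (hf H e (Z *ᵥ e) / B)) =
          t ^ 4 * ((hf H e (Z *ᵥ e) / B) * star (hf H e (Z *ᵥ e) / B)) := by ring
      rw [h5, h, mul_one]
      exact ht4
    · refine ⟨1, star_one K, one_ne_zero, ?_⟩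
      rw [one_mul, one_mul]
      exact h
  set A := hf H e (Z *ᵥ e) with hAdef
  have hA0 : A ≠ 0 := by
    intro h; rw [h, star_zero, zero_mul, zero_mul] at hA; exact hA rfl
  set θ := star (t' * t' * A / B) with hθ
  have hsθ : star θ = t' * t' * A / B := by rw [hθ, star_star]
  have hθ0 : θ ≠ 0 := by
    rw [hθ, star_ne_zero]
    exact div_ne_zero (mul_ne_zero (mul_ne_zero ht0' ht0') hA0) hB
  have hsθ0 : star θ ≠ 0 := by simpa using hθ0
  have hWd := det_ne_zero_of_unitary hd hW₀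
  have hWu : IsUnit W₀.det := isUnit_iff_ne_zero.2 hWd
  set f' := W₀⁻¹ *ᵥ f with hf'
  have hWf' : W₀ *ᵥ f' = f := by
    rw [hf', mulVec_mulVec, Matrix.mul_nonsing_inv _ hWu, one_mulVec]
  have hf'f' : hf H f' f' = 0 := by rw [← hf_mulVec hW₀, hWf', hff]
  have hf'f : hf H f' f = B := by rw [← hf_mulVec hW₀, hWf']
  -- the two hyperbolic pairs
  set e1 := t' • e with he1
  set e2 := θ⁻¹ • (Z *ᵥ e1) with he2
  have he1e1 : hf H e1 e1 = 0 := by rw [he1, hf_smul_left, hf_smul_right, hee, mul_zero, mul_zero]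
  have he2e2 : hf H e2 e2 = 0 := by
    rw [he2, hf_smul_left, hf_smul_right, hf_mulVec hZ, he1e1, mul_zero, mul_zero]
  have he12 : hf H e1 e2 = B := by
    rw [he2, hf_smul_right, he1, mulVec_smul, hf_smul_left, hf_smul_right, ← hAdef, star_inv₀,
      hsθ, ht']
    field_simp
  obtain ⟨U, hU, hUdet, hUe1, hUe2⟩ := witt hH he1e1 he2e2 hf'f' hff
    (he12.trans hf'f.symm) (by rw [he12]; exact hB)
  have hUu : IsUnit U.det := by rw [hUdet]; exact isUnit_one
  have hUinv : U⁻¹ *ᵥ f' = e1 := by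
    rw [← hUe1, mulVec_mulVec, Matrix.nonsing_inv_mul _ hUu, one_mulVec]
  refine ⟨U, θ, f, hU, hUdet, ?_, ?_, ?_, ?_⟩
  · intro h
    rw [hBdef, h, hf_zero_left] at hB
    exact hB rfl
  · rw [hsθ, hθ, mul_comm]; exact hN
  · intro h
    apply hA
    rw [hsθ, hθ, star_div₀, star_mul', star_mul', ht'] at h
    have h3 : (t' * t') * (A * star B) = (t' * t') * (star A * B) := by
      field_simp at h
      linear_combination (t' * t') * h
    exact mul_left_cancel₀ (mul_ne_zero ht0' ht0') h3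
  · rw [← mulVec_mulVec, ← mulVec_mulVec, ← mulVec_mulVec, ← hf', hUinv]
    have h3 : Z *ᵥ e1 = θ • e2 := by rw [he2, smul_smul, mul_inv_cancel₀ hθ0, one_smul]
    rw [h3, mulVec_smul, hUe2]

end Vale.Agent.P011.H74.LCF
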