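import Vale.Agent.P011.H74.TopR
import Vale.Agent.P011.H271.Places
import Vale.Agent.P011.H973.OrderLow

/-!
# Orders of the lattice spanned by a basis, over a Dedekind domain with finite class group

The hypotheses of `H973.exists_low_loc` for the orders `ordO B O`.
-/

open Module Polynomial IsDedekindDomain HeightOneSpectrum Filter Topology

namespace Vale.Agent.P011.H74

open Vale.Agent.P011.H271

set_option linter.unusedSectionVars false

section ideal

variable {R k : Type*} [CommRing R] [IsDedekindDomain R] [Field k] [Algebra R k]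
  [IsFractionRing R k]

/-- In a Dedekind domain with finite class group every element of the field has a denominator
which lies only in the primes where the element is not integral. -/
theorem exists_denom_support [Finite (ClassGroup R)] (z : k) :
    ∃ t : R, t ≠ 0 ∧ (∃ r : R, algebraMap R k r = algebraMap R k t * z) ∧
      ∀ w : HeightOneSpectrum R, t ∈ w.asIdeal → z ∉ hosV k w := by
  classical
  -- the denominator ideal
  let J : Ideal R :=
    { carrier := {r | ∃ s : R, algebraMap R k s = algebraMap R k r * z}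
      add_mem' := by
        rintro a b ⟨s, hs⟩ ⟨s', hs'⟩
        exact ⟨s + s', by rw [map_add, map_add, hs, hs', add_mul]⟩
      zero_mem' := ⟨0, by rw [map_zero, zero_mul]⟩
      smul_mem' := by
        rintro c a ⟨s, hs⟩
        exact ⟨c * s, by rw [smul_eq_mul, map_mul, map_mul, hs, mul_assoc]⟩ }
  have hJmem : ∀ r, r ∈ J ↔ ∃ s : R, algebraMap R k s = algebraMap R k r * z := fun r => Iff.rfl
  have hJ0 : J ≠ ⊥ := by
    obtain ⟨a, ha, r, hr⟩ := H973.exists_mul_mem (R := R) z
    intro h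
    exact ha (by rw [← Ideal.mem_bot, ← h]; exact ⟨r, hr⟩)
  have : Fintype (ClassGroup R) := Fintype.ofFinite _
  set h := Fintype.card (ClassGroup R) with hh
  have hpos : h ≠ 0 := Fintype.card_ne_zero
  have hpr : (J ^ h).IsPrincipal := by
    have hJ0' : J ^ h ≠ 0 := pow_ne_zero _ hJ0
    have h1 : ClassGroup.mk0 ⟨J, mem_nonZeroDivisors_iff_ne_zero.2 hJ0⟩ ^ h = 1 := pow_card_eq_one
    have h2 : (⟨J, mem_nonZeroDivisors_iff_ne_zero.2 hJ0⟩ : nonZeroDivisors (Ideal R)) ^ h =
        ⟨J ^ h, mem_nonZeroDivisors_iff_ne_zero.2 hJ0'⟩ := Subtype.ext rfl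
    rw [← map_pow, h2] at h1
    exact (ClassGroup.mk0_eq_one_iff (mem_nonZeroDivisors_iff_ne_zero.2 hJ0')).1 h1
  obtain ⟨t, ht⟩ := hpr.principal
  have htJ : t ∈ J ^ h := by rw [ht]; exact Ideal.mem_span_singleton_self t
  have ht0 : t ≠ 0 := by
    rintro rfl
    apply pow_ne_zero h hJ0
    rw [ht]
    simp
  refine ⟨t, ht0, (hJmem t).1 (Ideal.pow_le_self hpos htJ), fun w hw hz => ?_⟩
  have h3 : J ^ h ≤ w.asIdeal := by
    rw [ht]
    exact (Ideal.span_singleton_le_iff_mem _).2 hw
  have h4 : J ≤ w.asIdeal := w.isPrime.le_of_pow_le h3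
  obtain ⟨a, s, hs⟩ := exists_primeCompl_mul_eq_of_integer w z hz
  exact s.2 (h4 ((hJmem _).2 ⟨a, by rw [← hs, mul_comm]⟩))

/-- The same for finitely many elements. -/
theorem exists_denom_supports [Finite (ClassGroup R)] {ι : Type*} [Finite ι] (z : ι → k)
    {B₁ : Set (HeightOneSpectrum R)} (hz : ∀ i, ∀ w : HeightOneSpectrum R, w ∉ B₁ →
      z i ∈ hosV k w) :
    ∃ t : R, t ≠ 0 ∧ (∀ i, ∃ r : R, algebraMap R k r = algebraMap R k t * z i) ∧
      ∀ w : HeightOneSpectrum R, t ∈ w.asIdeal → w ∈ B₁ := by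
  classical
  have : Fintype ι := Fintype.ofFinite ι
  choose t ht0 ht htw using fun i => exists_denom_support (R := R) (z i)
  refine ⟨∏ i, t i, Finset.prod_ne_zero_iff.2 fun i _ => ht0 i, fun i => ?_, fun w hw => ?_⟩
  · obtain ⟨r, hr⟩ := ht i
    refine ⟨(∏ j ∈ Finset.univ.erase i, t j) * r, ?_⟩
    rw [← Finset.mul_prod_erase _ _ (Finset.mem_univ i), map_mul, map_mul, hr]
    ring
  · obtain ⟨i, -, hi⟩ := (w.isPrime.prod_mem_iff).1 hw
    by_contra hcon
    exact htw i w hi (hz i w hcon)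

end ideal

section order

variable {R k A ι : Type*} [CommRing R] [IsDedekindDomain R] [Field k] [Algebra R k]
  [IsFractionRing R k] [Ring A] [StarRing A] [Algebra k A] [StarLinR k A] [Algebra R A]
  [IsScalarTower R k A] [Fintype ι] (B : Basis ι k A)

/-- The order of the lattice spanned by the basis, as an algebra. -/
def ordA (O : Subring k) (hO : ∀ r : R, algebraMap R k r ∈ O) : Subalgebra R A where
  toSubsemiring := (ordO B O).toSubsemiring
  algebraMap_mem' r := by
    have h := smul_one_mem_ordO B (hO r)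
    rw [← Algebra.algebraMap_eq_smul_one, ← IsScalarTower.algebraMap_apply] at h
    exact h

theorem mem_ordA {O : Subring k} (hO : ∀ r : R, algebraMap R k r ∈ O) {x : A} :
    x ∈ ordA B O hO ↔ x ∈ ordO B O := Iff.rfl

theorem ordA_toSubring {O : Subring k} (hO : ∀ r : R, algebraMap R k r ∈ O) :
    (ordA B O hO).toSubring = ordO B O := by
  ext x
  rfl

theorem mem_ordO_iff {O : Subring k} {x : A} :
    x ∈ ordO B O ↔ ∀ l, InL B O (x * B l) ∧ InL B O (star x * B l) := by
  classical
  have hB : ∀ l, InL B O (B l) := by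
    intro l i
    rw [B.repr_self, Finsupp.single_apply]
    split_ifs
    · exact O.one_mem
    · exact O.zero_mem
  have hL : ∀ z : A, (∀ l, InL B O (z * B l)) → ∀ y, InL B O y → InL B O (z * y) := by
    intro z hz y hy
    rw [← B.sum_repr y, Finset.mul_sum]
    refine InL.sum B _ _ fun l _ => ?_
    rw [mul_smul_comm]
    exact InL.smul B (hy l) (hz l)
  constructor
  · rintro ⟨h1, h2⟩ l
    exact ⟨h1 _ (hB l), h2 _ (hB l)⟩
  · intro h
    exact ⟨hL x fun l => (h l).1, hL (star x) fun l => (h l).2⟩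

theorem ordO_mono {O O' : Subring k} (h : O ≤ O') : ordO B O ≤ ordO B O' := by
  intro x hx
  rw [mem_ordO_iff] at hx ⊢
  exact fun l => ⟨fun i => h ((hx l).1 i), fun i => h ((hx l).2 i)⟩

/-- The image of `R` in `k`. -/
abbrev imR (R k : Type*) [CommRing R] [Field k] [Algebra R k] : Subring k :=
  (algebraMap R k).range

theorem mem_imR (r : R) : algebraMap R k r ∈ imR R k := ⟨r, rfl⟩

theorem den_imR (x : k) : ∃ d ∈ imR R k, d ≠ 0 ∧ d * x ∈ imR R k := by
  obtain ⟨a, ha, r, hr⟩ := H973.exists_mul_mem (R := R) x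
  refine ⟨algebraMap R k a, mem_imR a, ?_, ?_⟩
  · rw [Ne, map_eq_zero_iff _ (IsFractionRing.injective R k)]
    exact ha
  · rw [← hr]
    exact mem_imR r

theorem ordA_fg : (Subalgebra.toSubmodule (ordA B (imR R k) mem_imR)).FG := by
  classical
  obtain ⟨d, ⟨c, hc⟩, hd⟩ := exists_denR B (imR R k) den_imR
  have hup := (isOrdR_ordO B hd).2
  have hc0 : algebraMap R k c ≠ 0 := by rw [hc]; exact hd.ne
  set N : Submodule R A := Submodule.span R (Set.range B) with hN
  have hNfg : N.FG := Submodule.fg_span (Set.finite_range B)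
  have hNn : IsNoetherian R N := isNoetherian_of_fg_of_noetherian N hNfg
  set P := Subalgebra.toSubmodule (ordA B (imR R k) mem_imR) with hP
  have hmem : ∀ x ∈ P, c • x ∈ N := by
    intro x hx
    have h1 : c • x = ∑ i, (d * B.repr x i) • B i := by
      conv_lhs => rw [← B.sum_repr x]
      rw [← algebraMap_smul k c, hc, Finset.smul_sum]
      exact Finset.sum_congr rfl fun i _ => smul_smul _ _ _
    rw [h1]
    refine N.sum_mem fun i _ => ?_
    obtain ⟨r, hr⟩ := hup x hx i
    rw [← hr, algebraMap_smul]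
    exact N.smul_mem r (Submodule.subset_span ⟨i, rfl⟩)
  let f : P →ₗ[R] N :=
    { toFun := fun x => ⟨c • (x : A), hmem x x.2⟩
      map_add' := fun x y => Subtype.ext (smul_add _ _ _)
      map_smul' := fun r x => Subtype.ext (smul_comm _ _ _) }
  have hf : Function.Injective f := by
    intro x y h
    have h1 : c • (x : A) = c • (y : A) := congrArg Subtype.val h
    rw [← algebraMap_smul k c, ← algebraMap_smul k c (y : A)] at h1
    exact Subtype.ext (smul_right_injective A hc0 h1)
  have hPn : IsNoetherian R P := isNoetherian_of_injective f hf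
  exact Module.Finite.iff_fg.1 inferInstance

theorem ordA_frac (x : A) : ∃ a : R, a ≠ 0 ∧ a • x ∈ ordA B (imR R k) mem_imR := by
  classical
  obtain ⟨d, -, hd⟩ := exists_denR B (imR R k) den_imR
  obtain ⟨e, he, hlo⟩ := (isOrdR_ordO B hd).1.lo
  obtain ⟨_, ⟨a, rfl⟩, ha0, ha⟩ := common_den (O := imR R k) den_imR Finset.univ
    fun i => e⁻¹ * B.repr x i
  refine ⟨a, fun h => ha0 (by rw [h, map_zero]), ?_⟩
  have h1 : a • x = ∑ i, (e * (algebraMap R k a * (e⁻¹ * B.repr x i))) • B i := by
    conv_lhs => rw [← B.sum_repr x]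
    rw [← algebraMap_smul k a, Finset.smul_sum]
    refine Finset.sum_congr rfl fun i _ => ?_
    rw [smul_smul]
    congr 1
    field_simp
  rw [h1]
  exact hlo _ fun i => ha i (Finset.mem_univ i)

/-- A larger ring of coefficients is a localisation. -/
theorem ordA_loc [Finite (ClassGroup R)] {O : Subring k} (hO : ∀ r : R, algebraMap R k r ∈ O)
    {B₁ : Set (HeightOneSpectrum R)} (hB₁ : ∀ w : HeightOneSpectrum R, w ∉ B₁ →
      ∀ z ∈ O, z ∈ hosV k w) (y : A) (hy : y ∈ ordA B O hO) :
    ∃ t ∈ {t : R | t ≠ 0 ∧ ∀ w : HeightOneSpectrum R, t ∈ w.asIdeal → w ∈ B₁},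
      t • y ∈ ordA B (imR R k) mem_imR := by
  classical
  have hy' := (mem_ordO_iff B).1 hy
  obtain ⟨t, ht0, ht, htw⟩ := exists_denom_supports (R := R) (ι := (ι × ι) ⊕ (ι × ι))
    (Sum.elim (fun p => B.repr (y * B p.1) p.2) (fun p => B.repr (star y * B p.1) p.2))
    (B₁ := B₁) (by
      rintro (p | p) w hw
      · exact hB₁ w hw _ ((hy' p.1).1 p.2)
      · exact hB₁ w hw _ ((hy' p.1).2 p.2))
  refine ⟨t, ⟨ht0, htw⟩, (mem_ordO_iff B).2 fun l => ⟨fun i => ?_, fun i => ?_⟩⟩
  · obtain ⟨r, hr⟩ := ht (Sum.inl (l, i))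
    rw [← algebraMap_smul k t, smul_mul_assoc, map_smul, Finsupp.smul_apply, smul_eq_mul]
    exact ⟨r, hr⟩
  · obtain ⟨r, hr⟩ := ht (Sum.inr (l, i))
    rw [← algebraMap_smul k t, StarLinR.star_smul', smul_mul_assoc, map_smul, Finsupp.smul_apply,
      smul_eq_mul]
    exact ⟨r, hr⟩

end order

end Vale.Agent.P011.H74
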