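import Vale.Agent.P011.H74.PairAbs

/-!
# The move at one place, in a matrix model
-/

set_option linter.unusedSectionVars false

open Matrix Topology Filter Module

namespace Vale.Agent.P011.H74

open Vale.Agent.P011.H775 Vale.Agent.P011.H929 Vale.Agent.P011.H182 Vale.Agent.P011.H74.LCF
  Vale.Agent.P011.H521.LC

section alg

variable {K : Type*} [Field K]

theorem e1_trace (X : Matrix (Fin 3) (Fin 3) K) : e1 X = X.trace := by
  rw [e1, Matrix.trace_fin_three]

theorem e2_trace (X : Matrix (Fin 3) (Fin 3) K) : e2 X = X.adjugate.trace := by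
  rw [e2, Matrix.trace_fin_three, Matrix.adjugate_fin_three]
  simp
  ring

theorem e1_conj {P Q X : Matrix (Fin 3) (Fin 3) K} (h : Q * P = 1) :
    e1 (P * X * Q) = e1 X := by
  rw [e1_trace, e1_trace, Matrix.trace_mul_cycle, h, Matrix.one_mul]

theorem e2_conj {P Q X : Matrix (Fin 3) (Fin 3) K} (h : Q * P = 1) :
    e2 (P * X * Q) = e2 X := by
  rw [e2_trace, e2_trace, Matrix.adjugate_mul_distrib, Matrix.adjugate_mul_distrib,
    Matrix.trace_mul_comm, Matrix.mul_assoc, ← Matrix.adjugate_mul_distrib, h,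
    Matrix.adjugate_one, Matrix.mul_one]

variable [StarRing K] {H : Matrix (Fin 3) (Fin 3) K}

/-- A hyperbolic pair from an isotropic vector. -/
theorem exists_hyp (hH : Hᴴ = H) (hd : H.det ≠ 0) {s₀ : K} (hs₀ : star s₀ ≠ s₀)
    {y : Fin 3 → K} (hy0 : y ≠ 0) (hy : hf H y y = 0) :
    ∃ a b : Fin 3 → K, hf H a a = 0 ∧ hf H b b = 0 ∧ hf H a b = 1 := by
  obtain ⟨ρ, hρ⟩ := exists_half hs₀
  obtain ⟨b₁, hb₁⟩ : ∃ b₁, hf H y b₁ ≠ 0 := by
    by_contra hcon
    push Not at hcon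
    exact hy0 (eq_zero_of_hf hd hcon)
  obtain ⟨b₀, hb₀⟩ : ∃ b₀, hf H y b₀ = 1 := by
    refine ⟨(star (hf H y b₁))⁻¹ • b₁, ?_⟩
    rw [hf_smul_right, star_inv₀, star_star, inv_mul_cancel₀ hb₁]
  have hb₀' : hf H b₀ y = 1 := by rw [← star_hf hH, hb₀, star_one]
  have hsβ : star (hf H b₀ b₀) = hf H b₀ b₀ := star_hf hH b₀ b₀
  refine ⟨y, b₀ - (hf H b₀ b₀ * ρ) • y, hy, ?_, ?_⟩
  · simp only [hf_sub_left, hf_sub_right, hf_smul_left, hf_smul_right, hy, hb₀, hb₀', star_mul',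
      hsβ]
    linear_combination -(hf H b₀ b₀) * hρ
  · rw [hf_sub_right, hf_smul_right, hy, mul_zero, sub_zero, hb₀]

end alg

section reg

variable {K : Type} [NontriviallyNormedField K] [StarRing K] {H : Matrix (Fin 3) (Fin 3) K}

/-- The derivative of the characteristic polynomial is invertible. -/
theorem dPm_det_ne (hH : Hᴴ = H) {W : Matrix (Fin 3) (Fin 3) K}
    (hW : Wᴴ * H * W = H) (hdet : W.det = 1) {s : K} (hs0 : s ≠ 0) (hs1 : s * s ≠ 1)
    {a b : Fin 3 → K} (haa : hf H a a = 0) (hbb : hf H b b = 0) (hab : hf H a b = 1)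
    (hWa : W *ᵥ a = s • a) (hWb : W *ᵥ b = s⁻¹ • b) : (dPm W).det ≠ 0 := by
  have hab0 : hf H a b ≠ 0 := by rw [hab]; exact one_ne_zero
  obtain ⟨m, hma, hmb, hP⟩ := exists_basis hH haa hbb hab one_ne_zero
  have hWm := fix_orth hH hW hdet hs0 haa hbb hab0 hWa hWb hma hmb hP
  obtain ⟨P, hPd⟩ : ∃ P, P = ((Matrix.of ![a, m, b])ᵀ : Matrix (Fin 3) (Fin 3) K) := ⟨_, rfl⟩
  rw [← hPd] at hP
  have hPu : IsUnit P.det := isUnit_iff_ne_zero.2 hP
  obtain ⟨Δ, hΔ⟩ : ∃ Δ : Matrix (Fin 3) (Fin 3) K, Δ = Matrix.diagonal ![s, 1, s⁻¹] := ⟨_, rfl⟩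
  have hWP : W * P = P * Δ := by
    obtain ⟨c0, c1, c2⟩ := col_of a m b
    ext i j
    have hcol : (W * P) i j = (W *ᵥ P.col j) i := rfl
    rw [hcol, hΔ, Matrix.mul_diagonal]
    fin_cases j
    · simp only [Fin.zero_eta, hPd, c0, hWa]
      simp [mul_comm]
    · simp only [Fin.mk_one, hPd, c1, hWm]
      simp
    · simp only [Fin.reduceFinMk, hPd, c2, hWb]
      simp [mul_comm]
  have hQP : P⁻¹ * P = 1 := Matrix.nonsing_inv_mul _ hPu
  have hPQ : P * P⁻¹ = 1 := Matrix.mul_nonsing_inv _ hPu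
  have hWe : W = P * Δ * P⁻¹ := by
    rw [← hWP, Matrix.mul_assoc, hPQ, Matrix.mul_one]
  have h1 : dPm W = P * dPm Δ * P⁻¹ := by
    have e1' : e1 W = e1 Δ := by rw [hWe, e1_conj hQP]
    have e2' : e2 W = e2 Δ := by rw [hWe, e2_conj hQP]
    have hWW : W * W = P * (Δ * Δ) * P⁻¹ := by
      calc W * W = P * Δ * (P⁻¹ * P) * Δ * P⁻¹ := by
            rw [hWe]; simp only [Matrix.mul_assoc]
        _ = _ := by rw [hQP]; simp only [Matrix.mul_assoc, Matrix.one_mul]
    rw [dPm, dPm, e1', e2', hWW]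
    nth_rewrite 1 [hWe]
    simp only [Matrix.mul_add, Matrix.mul_sub, Matrix.add_mul, Matrix.sub_mul, Matrix.mul_smul,
      Matrix.smul_mul, Matrix.mul_one, hPQ]
  have hs1' : s - 1 ≠ 0 := by
    intro h
    apply hs1
    rw [sub_eq_zero.1 h, one_mul]
  have h2 : dPm Δ = Matrix.diagonal ![(s - 1) * (s - s⁻¹), (1 - s) * (1 - s⁻¹),
      (s⁻¹ - s) * (s⁻¹ - 1)] := by
    have q1 : e1 Δ = s + 1 + s⁻¹ := by rw [hΔ, e1]; simp
    have q2 : e2 Δ = s + s * s⁻¹ + s⁻¹ := by rw [hΔ, e2]; simp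
    rw [dPm, q1, q2]
    ext i j
    rw [hΔ]
    fin_cases i <;> fin_cases j <;> simp [hs0] <;> field_simp <;> ring
  rw [h1, det_mul, det_mul, h2, det_diagonal, Fin.prod_univ_three]
  have hP' : (P⁻¹).det ≠ 0 := by
    intro h
    have := congrArg Matrix.det hQP
    rw [det_mul, h, zero_mul, det_one] at this
    exact zero_ne_one this
  have hsi : s - s⁻¹ ≠ 0 := by
    intro h
    apply hs1
    have h3 : s = s⁻¹ := sub_eq_zero.1 h
    nth_rewrite 2 [h3]
    exact mul_inv_cancel₀ hs0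
  have hsi1 : s⁻¹ - 1 ≠ 0 := by
    intro h
    apply hs1'
    rw [sub_eq_zero] at h ⊢
    exact inv_eq_one.1 h
  refine mul_ne_zero (mul_ne_zero hP ?_) hP'
  simp only [Matrix.cons_val_zero, Matrix.cons_val_one, Matrix.cons_val]
  refine mul_ne_zero (mul_ne_zero (mul_ne_zero hs1' hsi) (mul_ne_zero ?_ ?_))
    (mul_ne_zero ?_ hsi1)
  · intro h; exact hs1' (by linear_combination -h)
  · intro h; exact hsi1 (by linear_combination -h)
  · intro h; exact hsi (by linear_combination -h)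

end reg

section indep

variable {K D : Type} [Field K] [DivisionRing D] [Algebra K D]

theorem adj_le_span {z : D} {β γ : K} (hzz : z * z = β • z + γ • (1 : D)) :
    Subalgebra.toSubmodule (Algebra.adjoin K {z}) ≤ Submodule.span K {1, z} := by
  intro x hx
  have hx' : x ∈ Algebra.adjoin K {z} := hx
  clear hx
  induction hx' using Algebra.adjoin_induction with
  | mem x hx =>
    rw [Set.mem_singleton_iff] at hx
    subst hx
    exact Submodule.subset_span (by simp)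
  | algebraMap c =>
    rw [Algebra.algebraMap_eq_smul_one]
    exact Submodule.smul_mem _ _ (Submodule.subset_span (by simp))
  | add x y hx1 hy1 hx2 hy2 => exact add_mem hx2 hy2
  | mul x y hx1 hy1 hx2 hy2 =>
    obtain ⟨a, b, hab⟩ := Submodule.mem_span_pair.mp hx2
    obtain ⟨a', b', hab'⟩ := Submodule.mem_span_pair.mp hy2
    have e : x * y = (a * a' + b * b' * γ) • (1 : D) + (a * b' + b * a' + b * b' * β) • z := by
      have e0 : x * y = (a * a') • (1 : D) + (a * b' + b * a') • z + (b * b') • (z * z) := by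
        rw [← hab, ← hab']
        simp only [add_mul, mul_add, smul_mul_assoc, mul_smul_comm, one_mul, mul_one]
        module
      rw [e0, hzz]
      module
    rw [e]
    exact Submodule.mem_span_pair.mpr ⟨_, _, rfl⟩

/-- A noncentral element of a division algebra of degree three is not quadratic. -/
theorem quad_free [FiniteDimensional K D] [Algebra.IsCentral K D] (h : finrank K D = 3 ^ 2)
    {z : D} (hz : z ∉ Set.range (algebraMap K D)) {α β γ : K}
    (h0 : α • (z * z) + β • z + γ • (1 : D) = 0) : α = 0 := by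
  by_contra hα
  have hA : Algebra.adjoin K {z} ≠ ⊥ := by
    intro h1
    have : z ∈ Algebra.adjoin K {z} := Algebra.self_mem_adjoin_singleton K z
    rw [h1] at this
    exact hz (Algebra.mem_bot.mp this)
  have hA2 : Algebra.adjoin K {z} ≠ ⊤ := by
    intro h1
    apply hz
    have h2 : z ∈ Subalgebra.center K D := by
      rw [Subalgebra.mem_center_iff]
      intro x
      have hx : x ∈ Algebra.adjoin K {z} := h1 ▸ Algebra.mem_top
      have hle : Algebra.adjoin K {z} ≤ Subalgebra.centralizer K {z} :=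
        Algebra.adjoin_le (by
          rintro _ rfl
          exact (Subalgebra.mem_centralizer_iff K).mpr (by rintro _ rfl; rfl))
      exact ((Subalgebra.mem_centralizer_iff K).mp (hle hx) z rfl).symm
    rw [Algebra.IsCentral.center_eq_bot] at h2
    exact Algebra.mem_bot.mp h2
  have h3 := finrank_eq_of_ne Nat.prime_three h hA hA2
  have hzz : z * z = (-(β / α)) • z + (-(γ / α)) • (1 : D) := by
    have h5 : z * z = α⁻¹ • (α • (z * z)) := by rw [smul_smul, inv_mul_cancel₀ hα, one_smul]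
    have h6 : α • (z * z) = -(β • z) - γ • (1 : D) := by
      rw [eq_sub_iff_add_eq, eq_neg_iff_add_eq_zero, ← h0]
      abel
    rw [h5, h6, smul_sub, smul_neg, smul_smul, smul_smul, div_eq_inv_mul, div_eq_inv_mul,
      neg_smul, neg_smul]
    abel
  have h8 : finrank K (Algebra.adjoin K {z}) ≤ finrank K (Submodule.span K ({1, z} : Set D)) :=
    Submodule.finrank_mono (adj_le_span hzz)
  have h9 : finrank K (Submodule.span K ({1, z} : Set D)) ≤ 2 := by
    classical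
    have h10 := finrank_span_finset_le_card (R := K) (M := D) ({1, z} : Finset D)
    rw [Finset.coe_insert, Finset.coe_singleton] at h10
    exact h10.trans Finset.card_le_two
  omega

theorem li_pow [FiniteDimensional K D] [Algebra.IsCentral K D] (h : finrank K D = 3 ^ 2)
    {z : D} (hz : z ∉ Set.range (algebraMap K D)) :
    LinearIndependent K ![(1 : D), z, z * z] := by
  rw [Fintype.linearIndependent_iff]
  intro g hg
  rw [Fin.sum_univ_three] at hg
  simp only [Matrix.cons_val_zero, Matrix.cons_val_one, Matrix.cons_val] at hg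
  have h2 : g 2 = 0 := quad_free h hz (α := g 2) (β := g 1) (γ := g 0) (by rw [← hg]; abel)
  rw [h2, zero_smul, add_zero] at hg
  have h1 : g 1 = 0 := by
    by_contra hne
    apply hz
    refine ⟨-(g 0 / g 1), ?_⟩
    rw [Algebra.algebraMap_eq_smul_one]
    have h5 : z = (g 1)⁻¹ • (g 1 • z) := by rw [smul_smul, inv_mul_cancel₀ hne, one_smul]
    have h6 : g 1 • z = -(g 0 • (1 : D)) := by
      rw [eq_neg_iff_add_eq_zero, ← hg]
      abel
    rw [h5, h6, smul_neg, smul_smul, div_eq_inv_mul, neg_smul]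
  rw [h1, zero_smul, add_zero] at hg
  have h0 : g 0 = 0 := (smul_eq_zero.1 hg).resolve_right one_ne_zero
  intro i
  fin_cases i
  · exact h0
  · exact h1
  · exact h2

end indep

section main

variable {k K D : Type} [Field k] [Field K] [DivisionRing D] [StarRing D] [Algebra k D]
  [Algebra K D] {L : Type} [NontriviallyNormedField L] [StarRing L] {C : Cub K D} {N : ℕ}
  {B : Basis (Fin N) k D} {a : AbsoluteValue k ℝ} {φ : K →+* L} {H : Matrix (Fin 3) (Fin 3) L}
  {ρ : D →+* Matrix (Fin 3) (Fin 3) L}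

/-- A basis of the algebra is a basis of the matrices. -/
theorem MM.span_top [CompleteSpace L] (M : MM C B a φ H ρ) {ι : Type*} (b : Basis ι K D)
    [Finite ι] : Submodule.span L (Set.range fun i => ρ (b i)) = ⊤ := by
  have := Fintype.ofFinite ι
  have hmem : ∀ x, ρ x ∈ Submodule.span L (Set.range fun i => ρ (b i)) := by
    intro x
    rw [← b.sum_repr x, map_sum]
    refine Submodule.sum_mem _ fun i _ => ?_
    rw [M.smul]
    exact Submodule.smul_mem _ _ (Submodule.subset_span ⟨i, rfl⟩)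
  have hcl : IsClosed ((Submodule.span L (Set.range fun i => ρ (b i)) :
      Submodule L (Matrix (Fin 3) (Fin 3) L)) : Set (Matrix (Fin 3) (Fin 3) L)) := by
    exact Submodule.closed_of_finiteDimensional _
  rw [eq_top_iff]
  intro Y _
  have h1 : Y ∈ closure (Set.range ρ) := M.dense Y
  exact hcl.closure_subset_iff.2 (by rintro _ ⟨x, rfl⟩; exact hmem x) h1

/-- Independence over the centre gives independence of the matrices. -/
theorem MM.indep [CompleteSpace L] [FiniteDimensional K D] (M : MM C B a φ H ρ)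
    (h : finrank K D = 3 ^ 2) {ι : Type*} {v : ι → D} (hv : LinearIndependent K v) :
    LinearIndependent L fun i => ρ (v i) := by
  classical
  have hb := Basis.extend hv.linearIndepOn_id
  let b := Basis.extend hv.linearIndepOn_id
  have hfin : Finite (hv.linearIndepOn_id.extend (Set.subset_univ _)) :=
    Module.Finite.finite_basis b
  have := Fintype.ofFinite (hv.linearIndepOn_id.extend (Set.subset_univ _))
  have h1 := M.span_top b
  have h2 : LinearIndependent L fun i => ρ (b i) := by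
    refine linearIndependent_of_top_le_span_of_card_eq_finrank h1.ge ?_
    rw [← finrank_eq_card_basis b, h]
    simp [Module.finrank_matrix]
  have h3 : ∀ i, v i ∈ hv.linearIndepOn_id.extend (Set.subset_univ _) := fun i =>
    hv.linearIndepOn_id.subset_extend _ (Set.mem_range_self i)
  have h4 := h2.comp (fun i => (⟨v i, h3 i⟩ : hv.linearIndepOn_id.extend (Set.subset_univ _)))
    (fun i j hij => hv.injective (congrArg Subtype.val hij))
  have h5 : ((fun i => ρ (b i)) ∘ fun i =>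
      (⟨v i, h3 i⟩ : hv.linearIndepOn_id.extend (Set.subset_univ _))) = fun i => ρ (v i) := by
    funext i
    simp only [Function.comp_apply, b, Basis.extend_apply_self]
  rwa [h5] at h4

/-- Entrywise balls. -/
theorem exists_entry_nhds {Y : Matrix (Fin 3) (Fin 3) L} {O : Set (Matrix (Fin 3) (Fin 3) L)}
    (hO : O ∈ 𝓝 Y) : ∃ ε : ℝ, 0 < ε ∧ ∀ Z : Matrix (Fin 3) (Fin 3) L,
      (∀ i j, ‖(Z - Y) i j‖ < ε) → Z ∈ O := by
  let _ : SeminormedAddCommGroup (Matrix (Fin 3) (Fin 3) L) := Matrix.seminormedAddCommGroup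
  obtain ⟨ε, hε, h⟩ := Metric.mem_nhds_iff.1 hO
  refine ⟨ε, hε, fun Z hZ => h ?_⟩
  rw [Metric.mem_ball, dist_eq_norm, Matrix.norm_lt_iff hε]
  exact hZ

/-- **The move at one place.** -/
theorem MM.n3 [CompleteSpace L] [IsUltrametricDist L] [FiniteDimensional K D]
    [Algebra.IsCentral K D] (hD : finrank K D = 3 ^ 2) (M : MM C B a φ H ρ)
    (hst : ∀ x : L, ‖star x‖ = ‖x‖) (hH : Hᴴ = H) (hd : H.det ≠ 0) {s₀ t : L}
    (hs₀ : star s₀ ≠ s₀) (ht : star t = t) (ht0 : t ≠ 0) (ht4 : t ^ 4 ≠ 1)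
    (hiso : ∃ y : Fin 3 → L, y ≠ 0 ∧ hf H⁻¹ y y = 0) {S : Set D}
    (hS : ∀ u ∈ S, star u * u = 1 ∧ C.N u = 1)
    (hdense : ∀ U : Matrix (Fin 3) (Fin 3) L, Uᴴ * H⁻¹ * U = H⁻¹ → U.det = 1 →
      U ∈ closure (ρ '' S)) {z w₀ : D}
    (hz : star z * z = 1) (hw : star w₀ * w₀ = 1) (hzK : z ∉ Set.range (algebraMap K D))
    (hwK : w₀ ∉ Set.range (algebraMap K D)) (hN : C.N z = C.N w₀) :
    ∃ u₀ ∈ S, ∃ δ : ℝ, 0 < δ ∧ ∀ u ∈ S, na B a (u - u₀) < δ →
      LocPair1 C B a (u * z * u⁻¹ * w₀⁻¹) := by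
  have hHu : IsUnit H.det := isUnit_iff_ne_zero.2 hd
  have hHH : H * H⁻¹ = 1 := Matrix.mul_nonsing_inv _ hHu
  have hHH' : H⁻¹ * H = 1 := Matrix.nonsing_inv_mul _ hHu
  have hG : (H⁻¹)ᴴ = H⁻¹ := by rw [conjTranspose_nonsing_inv, hH]
  have hGd : (H⁻¹).det ≠ 0 := by
    intro h
    have := congrArg Matrix.det hHH
    rw [det_mul, h, mul_zero, det_one] at this
    exact zero_ne_one this
  -- conversion of the unitarity
  have conv : ∀ Y : Matrix (Fin 3) (Fin 3) L, H * Yᴴ * H⁻¹ * Y = 1 ↔ Yᴴ * H⁻¹ * Y = H⁻¹ := by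
    intro Y
    constructor
    · intro h
      calc Yᴴ * H⁻¹ * Y = H⁻¹ * (H * Yᴴ * H⁻¹ * Y) := by
            simp only [← Matrix.mul_assoc, hHH', Matrix.one_mul]
        _ = H⁻¹ := by rw [h, Matrix.mul_one]
    · intro h
      calc H * Yᴴ * H⁻¹ * Y = H * (Yᴴ * H⁻¹ * Y) := by simp only [Matrix.mul_assoc]
        _ = 1 := by rw [h, hHH]
  have uni : ∀ y : D, star y * y = 1 → (ρ y)ᴴ * H⁻¹ * ρ y = H⁻¹ := by
    intro y hy
    rw [← conv, ← M.star_eq hd, ← map_mul, hy, map_one]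
  have hne0 : ∀ y : D, star y * y = 1 → y ≠ 0 := by
    rintro y hy rfl
    rw [mul_zero] at hy
    exact zero_ne_one hy
  obtain ⟨y, hy0, hy⟩ := hiso
  obtain ⟨va, vb, haa, hbb, hab⟩ := exists_hyp hG hGd hs₀ hy0 hy
  have hZu := uni z hz
  have hWu := uni w₀ hw
  have hzli := M.indep hD (li_pow hD hzK)
  have hwli := M.indep hD (li_pow hD hwK)
  have hZ2 : ∀ α β γ : L, α • (ρ z * ρ z) + β • ρ z + γ • 1 = 0 → α = 0 := by
    intro α β γ h
    rw [Fintype.linearIndependent_iff] at hzli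
    refine hzli ![γ, β, α] ?_ 2
    rw [Fin.sum_univ_three]
    simp only [Matrix.cons_val_zero, Matrix.cons_val_one, Matrix.cons_val, map_one, map_mul]
    rw [← h]
    abel
  have hW2 : ∀ c : L, ρ w₀ ≠ c • 1 := by
    intro c h
    rw [Fintype.linearIndependent_iff] at hwli
    have := hwli ![-c, 1, 0] (by
      rw [Fin.sum_univ_three]
      simp only [Matrix.cons_val_zero, Matrix.cons_val_one, Matrix.cons_val, map_one]
      rw [h, zero_smul, one_smul, add_zero, neg_smul, neg_add_cancel]) 1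
    exact one_ne_zero this
  obtain ⟨U, θ, f, hU, hUd, hf0, hθ1, hθ2, hUf⟩ :=
    exists_move' hG hGd hs₀ ht ht0 ht4 haa hbb hab hZu hWu hZ2 hW2
  have hUdu : IsUnit U.det := by rw [hUd]; exact isUnit_one
  have hWd := det_ne_zero_of_unitary hGd hWu
  have hWdu : IsUnit (ρ w₀).det := isUnit_iff_ne_zero.2 hWd
  have hdetZ : (ρ z).det = (ρ w₀).det := by rw [M.det, M.det, hN]
  -- the map
  obtain ⟨Ψ, hΨ⟩ : ∃ Ψ : Matrix (Fin 3) (Fin 3) L → Matrix (Fin 3) (Fin 3) L,
      Ψ = fun V => V * ρ z * (H * Vᴴ * H⁻¹) * (ρ w₀)⁻¹ := ⟨_, rfl⟩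
  have hΨc : Continuous Ψ := by
    rw [hΨ]
    exact ((continuous_id.mul continuous_const).mul
      ((continuous_const.mul (continuous_starM hst)).mul continuous_const)).mul continuous_const
  have hUinv : U⁻¹ = H * Uᴴ * H⁻¹ := by
    have h1 : H * Uᴴ * H⁻¹ * U = 1 := (conv U).2 hU
    calc U⁻¹ = (H * Uᴴ * H⁻¹ * U) * U⁻¹ := by rw [h1, Matrix.one_mul]
      _ = H * Uᴴ * H⁻¹ := by
        rw [Matrix.mul_assoc _ U, Matrix.mul_nonsing_inv _ hUdu, Matrix.mul_one]
  have hΨU : Ψ U = U * ρ z * U⁻¹ * (ρ w₀)⁻¹ := by rw [hΨ, hUinv]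
  have hXu : (Ψ U)ᴴ * H⁻¹ * Ψ U = H⁻¹ := by
    rw [hΨU]
    exact isU_mul (isU_mul (isU_mul hU hZu) (isU_inv hGd hU)) (isU_inv hGd hWu)
  have hXd : (Ψ U).det = 1 := by
    rw [hΨU, det_mul, det_mul, det_mul, Matrix.det_nonsing_inv, Matrix.det_nonsing_inv, hUd,
      hdetZ, Ring.inverse_one, one_mul, mul_one, Ring.mul_inverse_cancel _ hWdu]
  have hgood : GoodEig (Ψ U) := ⟨θ, f, hf0, hθ1, hθ2, by rw [hΨU]; exact hUf⟩
  have hev := (hΨc.tendsto U).eventually (hgood.eventually hst hG hGd hXu hXd)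
  obtain ⟨O, hO, hOo, hUO⟩ := _root_.mem_nhds_iff.1 hev
  obtain ⟨_, hu₀O, u₀, hu₀, rfl⟩ := mem_closure_iff.1 (hdense U hU hUd) O hOo hUO
  obtain ⟨ε, hε, hεO⟩ := exists_entry_nhds (hOo.mem_nhds hu₀O)
  obtain ⟨C1, hC1, hup⟩ := M.up
  refine ⟨u₀, hu₀, ε / C1, by positivity, fun u hu hnear => ?_⟩
  have huO : ρ u ∈ O := by
    refine hεO _ fun i j => ?_
    rw [← map_sub]
    refine (hup _ i j).trans_lt ?_
    rwa [lt_div_iff₀ hC1, mul_comm] at hnear
  have hgu := hO huO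
  obtain ⟨hu1, hu2⟩ := hS u hu
  have hu0 := hne0 u hu1
  have hw0 := hne0 w₀ hw
  have hz0 := hne0 z hz
  have huinv : u⁻¹ = star u := inv_eq_of_mul_eq_one_left hu1
  obtain ⟨x, hx⟩ : ∃ x, x = u * z * u⁻¹ * w₀⁻¹ := ⟨_, rfl⟩
  have hρx : ρ x = Ψ (ρ u) := by
    rw [hx, map_mul, map_mul, map_mul, M.inv hw0, huinv, M.star_eq hd, hΨ]
  have hxu : (ρ x)ᴴ * H⁻¹ * ρ x = H⁻¹ := by
    have h1 : ρ x = ρ u * ρ z * (ρ u)⁻¹ * (ρ w₀)⁻¹ := by
      rw [hx, map_mul, map_mul, map_mul, M.inv hw0, M.inv hu0]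
    rw [h1]
    exact isU_mul (isU_mul (isU_mul (uni u hu1) hZu) (isU_inv hGd (uni u hu1)))
      (isU_inv hGd hWu)
  have hudu : (ρ u).det = 1 := by rw [M.det, hu2, map_one]
  have hxd : (ρ x).det = 1 := by
    have h1 : ρ x = ρ u * ρ z * (ρ u)⁻¹ * (ρ w₀)⁻¹ := by
      rw [hx, map_mul, map_mul, map_mul, M.inv hw0, M.inv hu0]
    rw [h1, det_mul, det_mul, det_mul, Matrix.det_nonsing_inv, Matrix.det_nonsing_inv, hudu,
      hdetZ, Ring.inverse_one, one_mul, mul_one, Ring.mul_inverse_cancel _ hWdu]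
  have hgx : GoodEig (ρ x) := by
    rw [hρx]
    exact hgu (by rw [← hρx]; exact hxd)
  obtain ⟨θ', f', hf0', h1', h2', hXf'⟩ := hgx
  have hx0 : x ≠ 0 := by
    rw [hx]
    exact mul_ne_zero (mul_ne_zero (mul_ne_zero hu0 hz0) (inv_ne_zero hu0)) (inv_ne_zero hw0)
  have hx1 : x ≠ 1 := by
    intro h
    rw [h, map_one, one_mulVec] at hXf'
    have h3 : (1 - θ') • f' = 0 := by rw [sub_smul, one_smul, ← hXf', sub_self]
    have h4 : θ' = 1 := by
      have := (smul_eq_zero.1 h3).resolve_right hf0'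
      linear_combination -this
    apply h2'
    rw [h4, star_one]
  obtain ⟨Gm, W, hGm, hGmd, hW, hWd', hpair, ⟨a1, b1, q1, q2, q3, q4, q5⟩, hns⟩ :=
    exists_comm' hG hGd hxu hxd hXf' hf0' h1' h2' ht ht0 ht4
  have hs1 : t * t ≠ 1 := by
    intro h
    apply ht4
    calc t ^ 4 = (t * t) * (t * t) := by ring
      _ = 1 := by rw [h, one_mul]
  rw [← hx]
  exact M.locPair1 hst hd hx0 hx1 ((conv W).2 hW) ((conv Gm).2 hGm) hWd' hGmd
    (dPm_det_ne hG hW hWd' ht0 hs1 q1 q2 q3 q4 q5) hpair hns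

end main

end Vale.Agent.P011.H74
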