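import Vale.Agent.P011.H74.OnePlace

/-!
# One split place: determinants, and the special unitary group
-/

open Module Matrix Topology Filter

namespace Vale.Agent.P011.H74

open Vale.Agent.P011.H738 Vale.Agent.P011.H271

set_option linter.unusedSectionVars false

section det

variable {K A F : Type*} [Field K] [Ring A] [Algebra K A] [Field F] {n : ℕ}

/-- The determinant of the left multiplication after base change. -/
theorem det_base (hn : finrank K A = n ^ 2) (hn0 : n ≠ 0) (σ : K →+* F)
    (g : A →+* Matrix (Fin n) (Fin n) F)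
    (hg : ∀ c : K, g (algebraMap K A c) = algebraMap F _ (σ c))
    (hspan : Submodule.span F (Set.range g) = ⊤) (w : A) :
    σ (LinearMap.det (LinearMap.mulLeft K w)) = (g w).det ^ n := by
  have hfd : FiniteDimensional K A := by
    refine Module.finite_of_finrank_pos ?_
    rw [hn]
    positivity
  have hsm : ∀ (c : K) (x : A), g (c • x) = σ c • g x := by
    intro c x
    rw [Algebra.smul_def, map_mul, hg, ← Algebra.smul_def]
  let e := Module.finBasis K A
  have hsp : ⊤ ≤ Submodule.span F (Set.range fun i => g (e i)) := by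
    rw [← hspan, Submodule.span_le]
    rintro _ ⟨x, rfl⟩
    have h1 : g x = ∑ i, σ (e.repr x i) • g (e i) := by
      conv_lhs => rw [← e.sum_repr x]
      rw [map_sum]
      exact Finset.sum_congr rfl fun i _ => hsm _ _
    rw [SetLike.mem_coe, h1]
    exact Submodule.sum_mem _ fun i _ => Submodule.smul_mem _ _ (Submodule.subset_span ⟨i, rfl⟩)
  have hcard : Fintype.card (Fin (finrank K A)) = finrank F (Matrix (Fin n) (Fin n) F) := by
    rw [Fintype.card_fin, hn, Module.finrank_matrix, Fintype.card_fin, Module.finrank_self]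
    ring
  have hli := linearIndependent_of_top_le_span_of_card_eq_finrank hsp hcard
  let e' : Basis (Fin (finrank K A)) F (Matrix (Fin n) (Fin n) F) := Basis.mk hli hsp
  have he' : ∀ i, e' i = g (e i) := fun i => by rw [Basis.mk_apply]
  rw [← det_mulLeft, ← LinearMap.det_toMatrix e, ← LinearMap.det_toMatrix e', RingHom.map_det]
  congr 1
  ext i j
  rw [RingHom.mapMatrix_apply, Matrix.map_apply, LinearMap.toMatrix_apply,
    LinearMap.toMatrix_apply, LinearMap.mulLeft_apply, LinearMap.mulLeft_apply, he', ← map_mul]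
  have h1 : g (w * e j) = ∑ l, σ (e.repr (w * e j) l) • e' l := by
    conv_lhs => rw [← e.sum_repr (w * e j)]
    rw [map_sum]
    exact Finset.sum_congr rfl fun l _ => by rw [hsm, he']
  rw [h1, map_sum, Finsupp.finsetSum_apply]
  simp only [map_smul, Basis.repr_self, Finsupp.smul_single, smul_eq_mul, mul_one]
  rw [Finset.sum_eq_single i]
  · simp
  · intro l _ hl
    simp [hl]
  · simp

end det

section den

variable {k K A ι κ : Type*} [Field k] [Field K] [StarRing K] [Ring A] [StarRing A]
  [Algebra k K] [Algebra k A] [Algebra K A] [IsScalarTower k K A] [Fintype ι] [Fintype κ]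

/-- Every element of the algebra has a multiple in an order. -/
theorem exists_smul_mem {k A ι : Type*} [Field k] [Ring A] [StarRing A] [Algebra k A] [Fintype ι]
    {a : Basis ι k A} {O : Subring k} (hO : ∀ x : k, ∃ d ∈ O, d ≠ 0 ∧ d * x ∈ O) {Lam : Subring A}
    (H : IsOrdR a O Lam) (x : A) : ∃ d ∈ O, d ≠ 0 ∧ d • x ∈ Lam := by
  obtain ⟨d0, hd0, hlo⟩ := H.lo
  obtain ⟨D, hD, hD0, hD1⟩ := common_den hO (Finset.univ : Finset ι) (fun i => d0⁻¹ * a.repr x i)
  refine ⟨D, hD, hD0, ?_⟩
  have h1 := hlo (fun i => D * (d0⁻¹ * a.repr x i)) fun i => hD1 i (Finset.mem_univ i)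
  convert h1 using 1
  conv_lhs => rw [← a.sum_repr x, Finset.smul_sum]
  refine Finset.sum_congr rfl fun i _ => ?_
  rw [smul_smul]
  congr 1
  field_simp

/-- A common multiple for a finite family. -/
theorem exists_smul_mem_fam {k A ι : Type*} [Field k] [Ring A] [StarRing A] [Algebra k A]
    [Fintype ι]
    {a : Basis ι k A} {O : Subring k} (hO : ∀ x : k, ∃ d ∈ O, d ≠ 0 ∧ d * x ∈ O) {Lam : Subring A}
    (H : IsOrdR a O Lam) (hOL : ∀ c ∈ O, c • (1 : A) ∈ Lam) {κ : Type*} (s : Finset κ)
    (x : κ → A) : ∃ d ∈ O, d ≠ 0 ∧ ∀ i ∈ s, d • x i ∈ Lam := by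
  classical
  have hmul : ∀ c ∈ O, ∀ y ∈ Lam, c • y ∈ Lam := fun c hc y hy => by
    have := Lam.mul_mem (hOL c hc) hy
    rwa [smul_mul_assoc, one_mul] at this
  induction s using Finset.induction_on with
  | empty => exact ⟨1, O.one_mem, one_ne_zero, by simp⟩
  | insert i s hi ih =>
    obtain ⟨d, hd, hd0, hd1⟩ := ih
    obtain ⟨e, he, he0, he1⟩ := exists_smul_mem hO H (x i)
    refine ⟨d * e, O.mul_mem hd he, mul_ne_zero hd0 he0, fun j hj => ?_⟩
    rcases Finset.mem_insert.1 hj with rfl | hj
    · rw [mul_smul]; exact hmul _ hd _ he1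
    · rw [mul_comm, mul_smul]; exact hmul _ he _ (hd1 j hj)

theorem det_mem_subring {K : Type*} [CommRing K] (S : Subring K) {m : Type*} [Fintype m]
    [DecidableEq m] (M : Matrix m m K) (h : ∀ i j, M i j ∈ S) : M.det ∈ S := by
  rw [Matrix.det_apply]
  refine S.sum_mem fun σ _ => ?_
  rw [Units.smul_def, zsmul_eq_mul]
  exact S.mul_mem (intCast_mem _ _) (S.prod_mem fun i _ => h _ _)

/-- The determinants over `K` of the elements of an order have bounded denominators. -/
theorem det_den [FiniteDimensional K A] {O : Subring k}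
    (hO : ∀ x : k, ∃ d ∈ O, d ≠ 0 ∧ d * x ∈ O)
    {B : Basis ι k A} {Lam : Subring A} (H : IsOrdR B O Lam)
    {BK : Basis κ k K} {OK : Subring K} (HK : IsOrdR BK O OK) (hOK : ∀ c ∈ O, c • (1 : K) ∈ OK) :
    ∃ d : k, d ≠ 0 ∧ ∀ w ∈ Lam, ∀ i, d * BK.repr (LinearMap.det (LinearMap.mulLeft K w)) i ∈ O := by
  classical
  let e := Module.finBasis K A
  let M : A → Matrix (Fin (finrank K A)) (Fin (finrank K A)) K := fun w =>
    LinearMap.toMatrix e e (LinearMap.mulLeft K w)
  have hM : ∀ w i j, M w i j = e.repr (w * e j) i := fun w i j => by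
    simp only [M]
    rw [LinearMap.toMatrix_apply, LinearMap.mulLeft_apply]
  obtain ⟨d1, hd1, hup⟩ := H.up
  obtain ⟨d2, hd2, hd20, hd2'⟩ := exists_smul_mem_fam hO HK hOK
    (Finset.univ : Finset (ι × Fin (finrank K A) × Fin (finrank K A)))
    (fun p => M (B p.1) p.2.1 p.2.2)
  obtain ⟨d3, hd3, hupK⟩ := HK.up
  have hentry : ∀ w ∈ Lam, ∀ i j, algebraMap k K (d1 * d2) * M w i j ∈ OK := by
    intro w hw i j
    have h1 : M w i j = ∑ l, (B.repr w l) • M (B l) i j := by
      rw [hM]
      conv_lhs => rw [← B.sum_repr w, Finset.sum_mul, map_sum, Finsupp.finsetSum_apply]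
      refine Finset.sum_congr rfl fun l _ => ?_
      rw [smul_mul_assoc, ← algebraMap_smul K (B.repr w l) (B l * e j), map_smul,
        Finsupp.smul_apply, smul_eq_mul, ← Algebra.smul_def, hM]
    rw [h1, ← Algebra.smul_def, Finset.smul_sum]
    refine OK.sum_mem fun l _ => ?_
    have h2 : (d1 * d2) • (B.repr w l) • M (B l) i j =
        ((d1 * B.repr w l) • (1 : K)) * (d2 • M (B l) i j) := by
      rw [smul_mul_assoc, one_mul, smul_smul, smul_smul]
      congr 1
      ring
    rw [h2]
    exact OK.mul_mem (hOK _ (hup w hw l)) (hd2' (l, i, j) (Finset.mem_univ _))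
  refine ⟨d3 * (d1 * d2) ^ (finrank K A),
    mul_ne_zero hd3 (pow_ne_zero _ (mul_ne_zero hd1 hd20)), fun w hw i => ?_⟩
  have h1 : algebraMap k K ((d1 * d2) ^ (finrank K A)) *
      LinearMap.det (LinearMap.mulLeft K w) ∈ OK := by
    have h2 : algebraMap k K ((d1 * d2) ^ (finrank K A)) *
        LinearMap.det (LinearMap.mulLeft K w) = (algebraMap k K (d1 * d2) • M w).det := by
      rw [Matrix.det_smul, Fintype.card_fin, map_pow, ← LinearMap.det_toMatrix e]
    rw [h2]
    exact det_mem_subring OK _ fun i j => hentry w hw i j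
  have h2 := hupK _ h1 i
  rw [← Algebra.smul_def, map_smul, Finsupp.smul_apply, smul_eq_mul, ← mul_assoc] at h2
  exact h2

end den

end Vale.Agent.P011.H74
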