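import Vale.Agent.P011.H74.OneR
import Vale.Agent.P011.H74.SwGL
import Vale.Agent.P011.H519.SplitPlaceK

/-!
# One split place of a function field: the unitary group of an order in `GL_n(k_q)`

`k` a global function field, `A` central simple of degree `n` over the quadratic extension `K`
with anisotropic involution, `q` a place where `A` splits (`H519.exists_split_place`), `Lam` an
order of `A` over the ring `OSF {q}` of the functions regular outside `q`.
-/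

open Module Matrix Topology Filter

namespace Vale.Agent.P011.H74

open Vale.Agent.P011.H738 Vale.Agent.P011.H271

set_option linter.unusedSectionVars false

section abs

variable {G Γ T : Type*} [Group G] [TopologicalSpace G] [ContinuousMul G] [Group Γ] [Group T]

/-- Passing to the kernel of a homomorphism `ν` which takes only finitely many values on the
relevant elements. -/
theorem compact_ker (ι : Γ →* G) (ν : G →* T) {D : Set G} (hD : IsCompact D)
    (h : ∀ g : G, ∃ γ : Γ, g * ι γ ∈ D)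
    (hfin : {t | t ∈ ν '' D ∧ ∃ γ, ν (ι γ) = t}.Finite) :
    ∃ D' : Set G, IsCompact D' ∧ ∀ g : G, ν g = 1 → ∃ γ : Γ, ν (ι γ) = 1 ∧ g * ι γ ∈ D' := by
  classical
  have hrep : ∀ t : T, ∃ γ : Γ, (∃ γ', ν (ι γ') = t) → ν (ι γ) = t := by
    intro t
    by_cases ht : ∃ γ', ν (ι γ') = t
    · obtain ⟨γ', hγ'⟩ := ht
      exact ⟨γ', fun _ => hγ'⟩
    · exact ⟨1, fun h => absurd h ht⟩
  choose r hr using hrep
  refine ⟨⋃ t ∈ {t | t ∈ ν '' D ∧ ∃ γ, ν (ι γ) = t}, (fun d => d * ι (r t)⁻¹) '' D,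
    hfin.isCompact_biUnion fun t _ => hD.image (continuous_mul_const _), fun g hg => ?_⟩
  obtain ⟨γ, hγ⟩ := h g
  have h1 : ν (ι γ) = ν (g * ι γ) := by rw [map_mul, hg, one_mul]
  refine ⟨γ * (r (ν (ι γ)))⁻¹, ?_, Set.mem_biUnion (x := ν (ι γ)) ⟨⟨_, hγ, h1.symm⟩, γ, rfl⟩
    ⟨g * ι γ, hγ, ?_⟩⟩
  · rw [map_mul, map_mul, map_inv, map_inv, hr _ ⟨γ, rfl⟩, mul_inv_cancel]
  · simp only
    rw [map_mul, mul_assoc]

/-- Passing to a subgroup of finite index (kernel of a map to a finite group), keeping an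
additional homomorphism trivial. -/
theorem compact_finite {Q : Type*} [Group Q] [Finite Q] (ι : Γ →* G) (c : Γ →* Q) {P : G → Prop}
    {D : Set G} (hD : IsCompact D) (h : ∀ g : G, P g → ∃ γ : Γ, g * ι γ ∈ D) :
    ∃ D' : Set G, IsCompact D' ∧ ∀ g : G, P g → ∃ γ : Γ, c γ = 1 ∧ g * ι γ ∈ D' := by
  classical
  have hrep : ∀ t : Q, ∃ γ : Γ, (∃ γ', c γ' = t) → c γ = t := by
    intro t
    by_cases ht : ∃ γ', c γ' = t
    · obtain ⟨γ', hγ'⟩ := ht
      exact ⟨γ', fun _ => hγ'⟩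
    · exact ⟨1, fun h => absurd h ht⟩
  choose r hr using hrep
  refine ⟨⋃ t : Q, (fun d => d * ι (r t)⁻¹) '' D,
    isCompact_iUnion fun t => hD.image (continuous_mul_const _), fun g hg => ?_⟩
  obtain ⟨γ, hγ⟩ := h g hg
  refine ⟨γ * (r (c γ))⁻¹, ?_, Set.mem_iUnion.2 ⟨c γ, g * ι γ, hγ, ?_⟩⟩
  · rw [map_mul, map_inv, hr _ ⟨γ, rfl⟩, mul_inv_cancel]
  · simp only
    rw [map_mul, mul_assoc]

/-- From `g * γ` to `γ * g`. -/
theorem compact_left [ContinuousInv G] (ι : Γ →* G) {P : G → Prop} (hP : ∀ g, P g → P g⁻¹)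
    {R : Γ → Prop} (hR : ∀ γ, R γ → R γ⁻¹)
    {D : Set G} (hD : IsCompact D) (h : ∀ g : G, P g → ∃ γ : Γ, R γ ∧ g * ι γ ∈ D) :
    ∃ D' : Set G, IsCompact D' ∧ ∀ g : G, P g → ∃ γ : Γ, R γ ∧ ι γ * g ∈ D' := by
  refine ⟨D⁻¹, hD.inv, fun g hg => ?_⟩
  obtain ⟨γ, hγ, hgD⟩ := h g⁻¹ (hP g hg)
  refine ⟨γ⁻¹, hR γ hγ, ?_⟩
  rw [Set.mem_inv, _root_.mul_inv_rev, map_inv, inv_inv]
  exact hgD

end abs

section groups

variable {A : Type*} [Ring A] [StarRing A]

/-- The group of the unitary elements of `Lam`. -/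
def UL (Lam : Subring A) : Subgroup Aˣ where
  carrier := {g | (g : A) ∈ Lam ∧ ((g⁻¹ : Aˣ) : A) ∈ Lam ∧ (g : A) * star (g : A) = 1}
  mul_mem' := by
    rintro a b ⟨h1, h2, h3⟩ ⟨h4, h5, h6⟩
    refine ⟨Lam.mul_mem h1 h4, ?_, ?_⟩
    · rw [_root_.mul_inv_rev]
      exact Lam.mul_mem h5 h2
    · rw [Units.val_mul, star_mul, mul_assoc, ← mul_assoc (b : A), h6, one_mul, h3]
  one_mem' := ⟨Lam.one_mem, by rw [inv_one]; exact Lam.one_mem, by
    rw [Units.val_one, star_one, one_mul]⟩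
  inv_mem' := by
    rintro a ⟨h1, h2, h3⟩
    refine ⟨h2, by rw [inv_inv]; exact h1, ?_⟩
    have h4 : star (a : A) = ((a⁻¹ : Aˣ) : A) := by
      rw [← Units.mul_right_inj a, h3, Units.mul_inv]
    rw [← h4, star_star, h4, Units.inv_mul]

theorem star_eq_inv {a : Aˣ} (h : (a : A) * star (a : A) = 1) :
    star (a : A) = ((a⁻¹ : Aˣ) : A) := by
  rw [← Units.mul_right_inj a, h, Units.mul_inv]

theorem mem_UL_iff {Lam : Subring A} (hst : ∀ x ∈ Lam, star x ∈ Lam) {g : Aˣ} :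
    g ∈ UL Lam ↔ (g : A) ∈ Lam ∧ (g : A) * star (g : A) = 1 := by
  constructor
  · rintro ⟨h1, -, h2⟩
    exact ⟨h1, h2⟩
  · rintro ⟨h1, h2⟩
    refine ⟨h1, ?_, h2⟩
    rw [← star_eq_inv h2]
    exact hst _ h1

theorem exists_UL {Lam : Subring A} (hst : ∀ x ∈ Lam, star x ∈ Lam) {w : A} (hw : w ∈ Lam)
    (h1 : star w * w = 1) (h2 : w * star w = 1) : ∃ g ∈ UL Lam, (g : A) = w :=
  ⟨⟨w, star w, h2, h1⟩, (mem_UL_iff hst).2 ⟨hw, h2⟩, rfl⟩

end groups

section main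

variable {k K A : Type} [Field k] [GFF k] [Field K] [StarRing K] [Ring A] [StarRing A]
  [Algebra k K] [Algebra k A] [Algebra K A] [IsScalarTower k K A] [StarModule K A] {n : ℕ}
  (hA : Anis k K A n) {q : Place k} {f : A →+* Matrix (Fin n) (Fin n) q.comp}
  (hf : ∀ c : k, f (algebraMap k A c) = algebraMap q.comp _ (algebraMap k q.comp c))
  (hspan : Submodule.span q.comp (Set.range fun x : A => (f x, (f (star x)).transpose)) = ⊤)
  {N : ℕ} (B : Basis (Fin N) k A)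

include hA hf hspan

/-- **Cocompactness of the unitary group of an order at one split place.** -/
theorem one_unitary {Lam : Subring A} (H : IsOrdR B (OSF {q}) Lam)
    (hOL : ∀ c ∈ OSF {q}, c • (1 : A) ∈ Lam) :
    ∃ C : Set (Sw n q.comp), IsCompact C ∧ ∀ x : Sw n q.comp, star x * x = 1 → x * star x = 1 →
      ∃ w ∈ Lam, star w * w = 1 ∧ w * star w = 1 ∧ x * jSw f w ∈ C := by
  have := countable_GFF k
  have : Countable A := B.equivFun.toEquiv.countable_iff.2 inferInstance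
  have : FiniteDimensional k A := Module.Finite.of_basis B
  have := hA.simple
  obtain ⟨b', hb'⟩ := H519.basis_swap hA hf hspan B
  exact (bcrSw f B (H519.star_smul_of_anis hA) hf b' hb').unitary_cocompact_aniso (comp_detOne q)
    frob_of_simple hA.anisotropic (comp_isUnit q) (comp_disc q) (comp_coc q)
    (OSF_den ⟨q, Finset.mem_singleton_self q⟩) (comp_expand q) H hOL

/-- An order is discrete. -/
theorem one_disc {Lam : Subring A} (H : IsOrdR B (OSF {q}) Lam) (C : Set (Sw n q.comp))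
    (hC : IsCompact C) : {x : A | x ∈ Lam ∧ jSw f x ∈ C}.Finite := by
  obtain ⟨b', hb'⟩ := H519.basis_swap hA hf hspan B
  exact (bcrSw f B (H519.star_smul_of_anis hA) hf b' hb').disc (comp_disc q) H C hC

/-- An order is cocompact. -/
theorem one_coc {Lam : Subring A} (H : IsOrdR B (OSF {q}) Lam) :
    ∃ C : Set (Sw n q.comp), IsCompact C ∧ ∀ x, ∃ a ∈ Lam, x - jSw f a ∈ C := by
  obtain ⟨b', hb'⟩ := H519.basis_swap hA hf hspan B
  exact (bcrSw f B (H519.star_smul_of_anis hA) hf b' hb').coc (comp_coc q) H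

/-- `GL_n(k_q) = D U(Lam)`. -/
theorem one_GL {Lam : Subring A} (H : IsOrdR B (OSF {q}) Lam)
    (hOL : ∀ c ∈ OSF {q}, c • (1 : A) ∈ Lam) :
    ∃ D : Set (GL (Fin n) q.comp), IsCompact D ∧ ∀ g : GL (Fin n) q.comp, ∃ γ : UL Lam,
      g * Units.map (f : A →* Matrix (Fin n) (Fin n) q.comp) γ ∈ D := by
  obtain ⟨C, hC, h⟩ := one_unitary hA hf hspan B H hOL
  refine ⟨{g | Sw.ofGL g ∈ C}, Sw.isCompact_preimage hC, fun g => ?_⟩
  obtain ⟨h1, h2⟩ := Sw.ofGL_unitary g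
  obtain ⟨w, hw, hw1, hw2, hxw⟩ := h _ h1 h2
  obtain ⟨γ, hγ, rfl⟩ := exists_UL H.star_mem hw hw1 hw2
  refine ⟨⟨γ, hγ⟩, ?_⟩
  rw [Set.mem_ofPred_eq]
  convert hxw using 1
  rw [Sw.ofGL_mul]
  congr 1
  refine Sw.ext rfl ?_
  rw [Sw.ofGL_Y, jSw_Y, star_eq_inv hγ.2.2]
  rfl

/-- `U(Lam)` is discrete in `GL_n(k_q)`. -/
theorem one_GL_disc {Lam : Subring A} (H : IsOrdR B (OSF {q}) Lam)
    (D : Set (GL (Fin n) q.comp)) (hD : IsCompact D) :
    {γ : UL Lam | Units.map (f : A →* Matrix (Fin n) (Fin n) q.comp) γ ∈ D}.Finite := by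
  have h1 := one_disc hA hf hspan B H _ (hD.image Sw.continuous_ofGL)
  refine Set.Finite.of_finite_image (f := fun γ : UL Lam => ((γ : Aˣ) : A)) (h1.subset ?_)
    (fun γ _ γ' _ h => Subtype.ext (Units.ext h))
  rintro _ ⟨γ, hγ, rfl⟩
  refine ⟨γ.2.1, _, hγ, ?_⟩
  refine Sw.ext rfl ?_
  rw [Sw.ofGL_Y, jSw_Y, star_eq_inv γ.2.2.2]
  rfl

end main

end Vale.Agent.P011.H74
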