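import Vale.Agent.P011.H74.CocF

/-!
# One place: the ring `k_q` and the functions regular outside `q`
-/

open Topology Filter

namespace Vale.Agent.P011.H74

open Vale.Agent.P011.H738 Vale.Agent.P011.H271

set_option linter.unusedSectionVars false

variable {k : Type} [Field k] [GFF k] (q : Place k)

theorem comp_detOne : H544.DetOne q.comp := by
  refine H544.DetOne.field ?_
  obtain ⟨x, hx⟩ := q.normalized.2.1
  refine ⟨algebraMap k _ x, ?_, ?_⟩
  · intro h
    have h1 := norm_alg q x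
    rw [h, norm_zero, hx] at h1
    exact (qq_pos q).ne h1
  · intro h
    have h1 := norm_alg q x
    rw [h, norm_one, hx] at h1
    exact (one_lt_qq' q).ne h1

/-- The functions regular outside `q` of bounded absolute value at `q`. -/
theorem one_finite (R : ℝ) : {c : k | c ∈ OSF {q} ∧ q.abv c ≤ R}.Finite := by
  classical
  refine (place_finite_le (fun v => if v = q then R else 1) ?_).subset ?_
  · refine (Set.finite_singleton q).subset ?_
    intro v hv
    rw [Set.mem_ofPred_eq] at hv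
    by_contra h
    rw [if_neg (fun h' : v = q => h h')] at hv
    exact absurd hv (lt_irrefl _)
  · rintro c ⟨hc, hcR⟩ v
    by_cases h : v = q
    · subst h
      rw [if_pos rfl]
      exact hcR
    · rw [if_neg h]
      exact hc v (by simpa using h)

theorem comp_disc (K : Set q.comp) (hK : IsCompact K) :
    {c : k | c ∈ OSF {q} ∧ algebraMap k q.comp c ∈ K}.Finite := by
  obtain ⟨R, hR⟩ := (hK.image (f := fun x : q.comp => ‖x‖) (by fun_prop)).bddAbove
  refine (one_finite q R).subset ?_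
  rintro c ⟨hc, hcK⟩
  refine ⟨hc, ?_⟩
  rw [← norm_alg]
  exact hR ⟨_, hcK, rfl⟩

/-- Every element of `k_q` is within bounded distance of a function regular outside `q`. -/
theorem comp_near : ∃ R : ℝ, ∀ r : q.comp, ∃ c ∈ OSF {q}, ‖r - algebraMap k q.comp c‖ ≤ R := by
  classical
  obtain ⟨C, hC⟩ := place_strong q ∅ (by simp) one_pos
  refine ⟨max 1 C, fun r => ?_⟩
  obtain ⟨a, ha⟩ := dense_alg q r one_pos
  obtain ⟨y, -, hy2, hy3⟩ := hC (fun v => if v = q then a else 0) (by
    refine (Set.finite_singleton q).subset ?_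
    intro v hv
    rw [Set.mem_ofPred_eq] at hv
    by_contra h
    rw [if_neg (fun h' : v = q => h h'), map_zero] at hv
    exact absurd hv (not_lt.2 zero_le_one))
  rw [if_pos rfl] at hy3
  refine ⟨y, fun v hv => ?_, ?_⟩
  · have hvq : v ≠ q := by simpa using hv
    have h1 := hy2 v hvq
    rwa [if_neg hvq, zero_sub, AbsoluteValue.map_neg] at h1
  · have h1 : r - algebraMap k q.comp y = (r - algebraMap k q.comp a) +
        algebraMap k q.comp (a - y) := by
      rw [map_sub]; ring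
    rw [h1]
    refine (IsUltrametricDist.norm_add_le_max _ _).trans
      (max_le (ha.le.trans (le_max_left _ _)) ?_)
    rw [norm_alg]
    exact hy3.trans (le_max_right _ _)

theorem comp_coc : ∃ K : Set q.comp, IsCompact K ∧
    ∀ r : q.comp, ∃ c ∈ OSF {q}, r - algebraMap k q.comp c ∈ K := by
  obtain ⟨R, hR⟩ := comp_near q
  refine ⟨Metric.closedBall 0 R, isCompact_closedBall _ _, fun r => ?_⟩
  obtain ⟨c, hc, hr⟩ := hR r
  exact ⟨c, hc, by rwa [mem_closedBall_zero_iff]⟩

theorem comp_isUnit : ∀ᶠ r in 𝓝 (1 : q.comp), IsUnit r := by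
  have h : IsOpen {r : q.comp | r ≠ 0} := isOpen_ne
  filter_upwards [h.mem_nhds (one_ne_zero : (1 : q.comp) ≠ 0)] with r hr
  exact isUnit_iff_ne_zero.2 hr

/-- The integers of `k_q`. -/
def ballQ : AddSubgroup q.comp where
  carrier := {r | ‖r‖ ≤ 1}
  add_mem' := fun hx hy => (IsUltrametricDist.norm_add_le_max _ _).trans (max_le hx hy)
  zero_mem' := by
    rw [Set.mem_ofPred_eq, norm_zero]
    exact zero_le_one
  neg_mem' := by
    intro x hx
    rw [Set.mem_ofPred_eq, norm_neg]
    exact hx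

theorem ballQ_eq : (ballQ q : Set q.comp) = Metric.closedBall 0 1 := by
  ext r
  rw [mem_closedBall_zero_iff]
  rfl

theorem norm_inv_pow_mul (t : k) (j : ℕ) (r : q.comp) :
    ‖algebraMap k q.comp t⁻¹ ^ j * r‖ = (q.abv t)⁻¹ ^ j * ‖r‖ := by
  rw [norm_mul, norm_pow, norm_alg, map_inv₀]

theorem comp_expand : Expand k q.comp (OSF {q}) := by
  obtain ⟨t, ht, htS⟩ := exists_expanding {q}
  have ht1 : 1 < q.abv t := htS q (by simp)
  have hinv : (q.abv t)⁻¹ < 1 := inv_lt_one_of_one_lt₀ ht1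
  have hinv0 : 0 < (q.abv t)⁻¹ := inv_pos.2 (lt_trans one_pos ht1)
  refine ⟨ballQ q, t, ?_, ?_, ht, ?_, fun r hr => ?_, fun r => ?_, fun U hU => ?_⟩
  · rw [ballQ_eq]
    exact IsUltrametricDist.isOpen_closedBall _ one_ne_zero
  · rw [ballQ_eq]
    exact isCompact_closedBall _ _
  · rintro rfl
    rw [map_zero] at ht1
    exact absurd ht1 (not_lt.2 zero_le_one)
  · have h1 := norm_inv_pow_mul q t 1 r
    rw [pow_one, pow_one] at h1
    change ‖_‖ ≤ 1
    rw [h1]
    exact mul_le_one₀ hinv.le (norm_nonneg _) hr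
  · have hr0 : 0 < ‖r‖ + 1 := add_pos_of_nonneg_of_pos (norm_nonneg _) one_pos
    obtain ⟨j, hj⟩ := exists_pow_lt_of_lt_one (inv_pos.2 hr0) hinv
    refine ⟨j, ?_⟩
    change ‖_‖ ≤ 1
    rw [norm_inv_pow_mul]
    calc _ ≤ (‖r‖ + 1)⁻¹ * (‖r‖ + 1) :=
          mul_le_mul hj.le (by linarith) (norm_nonneg _) (inv_pos.2 hr0).le
      _ = 1 := inv_mul_cancel₀ hr0.ne'
  · obtain ⟨ε, hε, hεU⟩ := Metric.nhds_basis_closedBall.mem_iff.1 hU
    obtain ⟨j, hj⟩ := exists_pow_lt_of_lt_one hε hinv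
    refine ⟨j, fun r hr => hεU ?_⟩
    rw [mem_closedBall_zero_iff, norm_inv_pow_mul]
    have hr' : ‖r‖ ≤ 1 := hr
    calc _ ≤ ε * 1 := mul_le_mul hj.le hr' (norm_nonneg _) hε.le
      _ = ε := mul_one _

end Vale.Agent.P011.H74
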