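import Vale.Agent.P011.H74.OnePlace
import Vale.Agent.P011.H308.Count

/-!
# One split place: the symmetric elements of an order are a lattice in `M_n(k_q)`
-/

open Module Matrix Topology Filter

namespace Vale.Agent.P011.H74

open Vale.Agent.P011.H738 Vale.Agent.P011.H271

set_option linter.unusedSectionVars false

/-- An element of trace one. -/
theorem exists_trace_one {K : Type*} [Field K] [StarRing K] (hne : ∃ x : K, star x ≠ x) :
    ∃ θ : K, θ + star θ = 1 := by
  obtain ⟨z, hz⟩ := hne
  by_cases h : z + star z = 0
  · have h2 : (2 : K) ≠ 0 := by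
      intro h2
      apply hz
      have h3 : star z = -z := by linear_combination h
      have h4 : z + z = 0 := by rw [← two_mul, h2, zero_mul]
      rw [h3]
      linear_combination -h4
    refine ⟨2⁻¹, ?_⟩
    have h3 : star (2⁻¹ : K) = 2⁻¹ := by
      rw [star_inv₀]
      congr 1
      exact star_ofNat 2
    rw [h3]
    field_simp
    norm_num
  · refine ⟨z / (z + star z), ?_⟩
    rw [star_div₀, star_add, star_star, add_comm (star z) z]
    field_simp

section main

variable {k K A : Type} [Field k] [GFF k] [Field K] [StarRing K] [Ring A] [StarRing A]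
  [Algebra k K] [Algebra k A] [Algebra K A] [IsScalarTower k K A] [StarModule K A] {n : ℕ}
  (hA : Anis k K A n) {q : Place k} {f : A →+* Matrix (Fin n) (Fin n) q.comp}
  (hf : ∀ c : k, f (algebraMap k A c) = algebraMap q.comp _ (algebraMap k q.comp c))
  (hspan : Submodule.span q.comp (Set.range fun x : A => (f x, (f (star x)).transpose)) = ⊤)
  {N : ℕ} (B : Basis (Fin N) k A)

/-- The symmetric elements of `Lam`. -/
def symL (Lam : Subring A) : AddSubgroup (selfAdjoint A) where
  carrier := {x | (x : A) ∈ Lam}
  add_mem' := fun hx hy => Lam.add_mem hx hy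
  zero_mem' := Lam.zero_mem
  neg_mem' := fun hx => Lam.neg_mem hx

/-- The symmetric elements in `M_n(k_q)`. -/
noncomputable def symI (f : A →+* Matrix (Fin n) (Fin n) q.comp) :
    selfAdjoint A →+ Matrix (Fin n) (Fin n) q.comp :=
  (f : A →+ Matrix (Fin n) (Fin n) q.comp).comp (selfAdjoint A).subtype

theorem symI_apply (x : selfAdjoint A) : symI f x = f (x : A) := rfl

include hspan in
/-- The image of the centre is central. -/
theorem f_central (c : K) (v : Matrix (Fin n) (Fin n) q.comp) :
    f (algebraMap K A c) * v = v * f (algebraMap K A c) := by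
  have h1 := congrArg (Submodule.map (LinearMap.fst q.comp (Matrix (Fin n) (Fin n) q.comp)
    (Matrix (Fin n) (Fin n) q.comp))) hspan
  rw [Submodule.map_span, Submodule.map_top,
    LinearMap.range_eq_top.2 (Prod.fst_surjective), ← Set.range_comp] at h1
  have h2 : v ∈ Submodule.span q.comp (Set.range fun x : A => f x) := by
    have h3 : v ∈ (⊤ : Submodule q.comp (Matrix (Fin n) (Fin n) q.comp)) := trivial
    rw [← h1] at h3
    exact h3
  induction h2 using Submodule.span_induction with
  | mem x hx =>
    obtain ⟨y, rfl⟩ := hx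
    rw [← map_mul, ← map_mul, Algebra.commutes]
  | zero => rw [mul_zero, zero_mul]
  | add x y _ _ hx hy => rw [mul_add, add_mul, hx, hy]
  | smul r x _ hx => rw [mul_smul_comm, hx, smul_mul_assoc]

include hA hf hspan

/-- **The symmetric elements of an order are a lattice in `M_n(k_q)`.** -/
theorem sym_isLat {Lam : Subring A} (H : IsOrdR B (OSF {q}) Lam) :
    H308.IsLat (symI f) (symL Lam) where
  disc := by
    intro C hC
    have hc : Continuous fun X : Matrix (Fin n) (Fin n) q.comp => Sw.mk X Xᵀ :=
      Sw.continuous_mk continuous_id continuous_id.matrix_transpose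
    have h1 := one_disc hA hf hspan B H _ (hC.image hc)
    refine Set.Finite.of_finite_image (f := fun x : selfAdjoint A => (x : A)) (h1.subset ?_)
      (fun x _ y _ h => Subtype.ext h)
    rintro _ ⟨x, ⟨hx, hxC⟩, rfl⟩
    refine ⟨hx, _, hxC, ?_⟩
    refine Sw.ext rfl ?_
    rw [jSw_Y, show star (x : A) = (x : A) from x.2]
    rfl
  coc := by
    obtain ⟨C, hC, hcov⟩ := one_coc hA hf hspan B H
    obtain ⟨θ, hθ⟩ := exists_trace_one hA.star_ne
    have hc : Continuous fun x : Sw n q.comp => x.X + (x.Y)ᵀ :=
      Sw.continuous_X.add Sw.continuous_Y.matrix_transpose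
    refine ⟨_, hC.image hc, fun v => ?_⟩
    have hst : star (algebraMap K A θ) = algebraMap K A (star θ) := by
      rw [Algebra.algebraMap_eq_smul_one, star_smul, star_one, ← Algebra.algebraMap_eq_smul_one]
    obtain ⟨a, ha, hy⟩ := hcov (Sw.mk (v * f (algebraMap K A θ)) ((f (algebraMap K A (star θ)) * v)ᵀ))
    refine ⟨⟨a + star a, by rw [selfAdjoint.mem_iff, star_add, star_star, add_comm]⟩,
      Lam.add_mem ha (H.star_mem a ha), _, hy, ?_⟩
    rw [symI_apply]
    simp only [Sw.X_sub, Sw.Y_sub, Sw.X_mk, Sw.Y_mk, jSw_X, jSw_Y, transpose_sub,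
      transpose_transpose, map_add]
    have hcomm : f (algebraMap K A (star θ)) * v = v * f (algebraMap K A (star θ)) :=
      f_central hspan _ _
    have h2 : v * f (algebraMap K A θ) + f (algebraMap K A (star θ)) * v = v := by
      rw [hcomm, ← mul_add, ← map_add, ← map_add, hθ, map_one, map_one, mul_one]
    conv_rhs => rw [← h2]
    abel

end main

end Vale.Agent.P011.H74
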