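import Vale.Agent.P011.H74.GoodEig
import Vale.Agent.P011.H74.Nonspec
import Vale.Agent.P011.H929.DP
import Vale.Agent.P011.H182.Nma

/-!
# An exact pair in a matrix model gives an approximate pair in the algebra
-/

set_option linter.unusedSectionVars false

open Matrix Topology Filter Module

namespace Vale.Agent.P011.H74

open Vale.Agent.P011.H775 Vale.Agent.P011.H929 Vale.Agent.P011.H182 Vale.Agent.P011.H74.LCF

section defs

variable {k K D : Type} [Field k] [Field K] [DivisionRing D] [StarRing D] [Algebra k D]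
  [Algebra K D]

/-- Approximate local pairs `x w g = g w` of unitary elements of norm one, with uniform bounds:
`m` is the inverse of the derivative of the characteristic polynomial at `w`, and `w` is not
special. -/
def LocPair1 (C : Cub K D) {N : ℕ} (B : Basis (Fin N) k D) (a : AbsoluteValue k ℝ) (x : D) :
    Prop :=
  ∃ R c : ℝ, 0 < c ∧ ∀ δ : ℝ, 0 < δ → ∃ w g m : D, na B a w ≤ R ∧ na B a g ≤ R ∧ na B a m ≤ R ∧
    dP C w * m = 1 ∧ na B a (star w * w - 1) < δ ∧ na B a (star g * g - 1) < δ ∧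
    na B a (x * w * g - g * w) < δ ∧ na B a (algebraMap K D (C.N w) - 1) < δ ∧
    na B a (algebraMap K D (C.N g) - 1) < δ ∧
    ∀ e : K, c ≤ na B a (w * (x - 1) * w - e • (x⁻¹ - 1))

variable {L : Type} [NontriviallyNormedField L] [StarRing L]

/-- A matrix model of the algebra at a place. -/
structure MM (C : Cub K D) {N : ℕ} (B : Basis (Fin N) k D) (a : AbsoluteValue k ℝ) (φ : K →+* L)
    (H : Matrix (Fin 3) (Fin 3) L) (ρ : D →+* Matrix (Fin 3) (Fin 3) L) : Prop where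
  dense : DenseRange ρ
  lo : ∃ C0 : ℝ, 0 ≤ C0 ∧ ∀ (c : ℝ) (x : D), 0 ≤ c → (∀ i j, ‖ρ x i j‖ ≤ c) →
    na B a x ≤ C0 * c
  up : ∃ C1 : ℝ, 0 < C1 ∧ ∀ (x : D) i j, ‖ρ x i j‖ ≤ C1 * na B a x
  smul : ∀ (c : K) (x : D), ρ (c • x) = φ c • ρ x
  star' : ∀ x, ρ (star x) * H = H * (ρ x)ᴴ
  tr : ∀ x, e1 (ρ x) = φ (C.T x)
  sn : ∀ x, e2 (ρ x) = φ (C.S x)
  det : ∀ x, (ρ x).det = φ (C.N x)

/-- The derivative of the characteristic polynomial at a matrix. -/
def dPm (Y : Matrix (Fin 3) (Fin 3) L) : Matrix (Fin 3) (Fin 3) L :=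
  (3 : L) • (Y * Y) - (2 * e1 Y) • Y + e2 Y • (1 : Matrix (Fin 3) (Fin 3) L)

end defs

section topo

variable {L : Type} [NontriviallyNormedField L]

theorem continuous_e1 : Continuous (e1 : Matrix (Fin 3) (Fin 3) L → L) := by
  unfold e1
  fun_prop

theorem continuous_e2 : Continuous (e2 : Matrix (Fin 3) (Fin 3) L → L) := by
  unfold e2
  fun_prop

theorem continuous_dPm : Continuous (dPm : Matrix (Fin 3) (Fin 3) L → _) := by
  have h1 := continuous_e1 (L := L)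
  have h2 := continuous_e2 (L := L)
  unfold dPm
  fun_prop

theorem continuousAt_matInv {Y : Matrix (Fin 3) (Fin 3) L} (hY : Y.det ≠ 0) :
    ContinuousAt (fun Z : Matrix (Fin 3) (Fin 3) L => Z⁻¹) Y := by
  have h : (fun Z : Matrix (Fin 3) (Fin 3) L => Z⁻¹) = fun Z => Z.det⁻¹ • Z.adjugate := by
    funext Z
    rw [Matrix.inv_def, Ring.inverse_eq_inv']
  rw [h]
  have h1 : Continuous fun Z : Matrix (Fin 3) (Fin 3) L => Z.det := continuous_id.matrix_det
  have h2 : Continuous fun Z : Matrix (Fin 3) (Fin 3) L => Z.adjugate :=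
    continuous_id.matrix_adjugate
  exact (h1.continuousAt.inv₀ hY).smul h2.continuousAt

/-- Entries are eventually bounded. -/
theorem eventually_entries {β : Type*} {l : Filter β} {F : β → Matrix (Fin 3) (Fin 3) L}
    {Y : Matrix (Fin 3) (Fin 3) L} (h : Tendsto F l (𝓝 Y)) {c : ℝ} (hc : ∀ i j, ‖Y i j‖ < c) :
    ∀ᶠ b in l, ∀ i j, ‖F b i j‖ ≤ c := by
  have h1 : ∀ i j, ∀ᶠ b in l, ‖F b i j‖ ≤ c := by
    intro i j
    have hc' : Continuous fun Y : Matrix (Fin 3) (Fin 3) L => ‖Y i j‖ := by fun_prop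
    have h2 : Tendsto (fun b => ‖F b i j‖) l (𝓝 ‖Y i j‖) := (hc'.tendsto Y).comp h
    exact (h2.eventually_lt_const (hc i j)).mono fun b hb => hb.le
  exact eventually_all.2 fun i => eventually_all.2 fun j => h1 i j

theorem exists_entry_bound (Y : Matrix (Fin 3) (Fin 3) L) : ∃ c : ℝ, 0 ≤ c ∧ ∀ i j, ‖Y i j‖ < c := by
  refine ⟨∑ i, ∑ j, ‖Y i j‖ + 1, by positivity, fun i j => ?_⟩
  have h1 := Finset.single_le_sum (f := fun i => ∑ j, ‖Y i j‖)
    (fun _ _ => Finset.sum_nonneg fun _ _ => norm_nonneg _) (Finset.mem_univ i)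
  have h2 := Finset.single_le_sum (f := fun j => ‖Y i j‖)
    (fun _ _ => norm_nonneg _) (Finset.mem_univ j)
  beta_reduce at h1 h2
  linarith

/-- A minor which shows that `A` is not a multiple of `P`. -/
theorem exists_minor {F : Type*} [Field F] {A P : Matrix (Fin 3) (Fin 3) F} (hP : P ≠ 0)
    (h : ∀ e : F, A ≠ e • P) : ∃ i j i' j', A i j * P i' j' - A i' j' * P i j ≠ 0 := by
  obtain ⟨i', j', h1⟩ : ∃ i' j', P i' j' ≠ 0 := by
    by_contra hcon
    push Not at hcon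
    exact hP (by ext i j; exact hcon i j)
  by_contra hcon
  push Not at hcon
  refine h (A i' j' / P i' j') ?_
  ext i j
  rw [Matrix.smul_apply, smul_eq_mul]
  have h2 := hcon i j i' j'
  field_simp
  linear_combination h2

end topo

section main

variable {k K D : Type} [Field k] [Field K] [DivisionRing D] [StarRing D] [Algebra k D]
  [Algebra K D] {L : Type} [NontriviallyNormedField L] [StarRing L] {C : Cub K D} {N : ℕ}
  {B : Basis (Fin N) k D} {a : AbsoluteValue k ℝ} {φ : K →+* L} {H : Matrix (Fin 3) (Fin 3) L}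
  {ρ : D →+* Matrix (Fin 3) (Fin 3) L}

theorem MM.inj (_ : MM C B a φ H ρ) : Function.Injective ρ := RingHom.injective ρ

theorem MM.alg (M : MM C B a φ H ρ) (c : K) :
    ρ (algebraMap K D c) = φ c • (1 : Matrix (Fin 3) (Fin 3) L) := by
  rw [Algebra.algebraMap_eq_smul_one, M.smul, map_one]

theorem MM.dP' (M : MM C B a φ H ρ) (w : D) : ρ (dP C w) = dPm (ρ w) := by
  rw [dP, dPm, map_add, map_sub, M.smul, M.smul, M.smul, map_mul, map_one, M.tr, M.sn, map_mul]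
  congr 3
  · rw [map_ofNat]
  · rw [map_ofNat]

theorem MM.inv (_ : MM C B a φ H ρ) {x : D} (hx : x ≠ 0) : ρ x⁻¹ = (ρ x)⁻¹ := by
  symm
  apply Matrix.inv_eq_right_inv
  rw [← map_mul, mul_inv_cancel₀ hx, map_one]

/-- Smallness in the model gives smallness in the algebra. -/
theorem MM.ev (M : MM C B a φ H ρ) {β : Type*} {l : Filter β} {F : β → D}
    (h : Tendsto (fun b => ρ (F b)) l (𝓝 0)) {δ : ℝ} (hδ : 0 < δ) :
    ∀ᶠ b in l, na B a (F b) < δ := by
  obtain ⟨C0, hC0, hlo⟩ := M.lo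
  have h1 := eventually_entries h (c := δ / (2 * (C0 + 1))) (fun i j => by
    rw [Matrix.zero_apply, norm_zero]
    positivity)
  filter_upwards [h1] with b hb
  refine (hlo _ _ (by positivity) hb).trans_lt ?_
  calc C0 * (δ / (2 * (C0 + 1))) = δ / 2 * (C0 / (C0 + 1)) := by field_simp
    _ ≤ δ / 2 * 1 := by
      gcongr
      rw [div_le_one (by positivity)]
      linarith
    _ < δ := by linarith

/-- Boundedness in the model gives boundedness in the algebra. -/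
theorem MM.evb (_ : MM C B a φ H ρ) {β : Type*} {l : Filter β} {F : β → D}
    {Y : Matrix (Fin 3) (Fin 3) L} {c : ℝ} (hc0 : 0 ≤ c) (hc : ∀ i j, ‖Y i j‖ < c) {C0 : ℝ}
    (hlo : ∀ (c : ℝ) (x : D), 0 ≤ c → (∀ i j, ‖ρ x i j‖ ≤ c) → na B a x ≤ C0 * c)
    (h : Tendsto (fun b => ρ (F b)) l (𝓝 Y)) : ∀ᶠ b in l, na B a (F b) ≤ C0 * c := by
  filter_upwards [eventually_entries h hc] with b hb
  exact hlo _ _ hc0 hb

/-- The pairs of elements of the algebra near a pair of matrices. -/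
theorem MM.neBot (M : MM C B a φ H ρ) (W G : Matrix (Fin 3) (Fin 3) L) :
    (comap (Prod.map ρ ρ) (𝓝 (W, G)) : Filter (D × D)).NeBot := by
  have h : DenseRange (Prod.map ρ ρ : D × D → _) := M.dense.prodMap M.dense
  refine comap_neBot fun t ht => ?_
  obtain ⟨_, h1, p, rfl⟩ := mem_closure_iff_nhds.1 (h (W, G)) t ht
  exact ⟨p, h1⟩

theorem continuous_starM (hst : ∀ x : L, ‖star x‖ = ‖x‖) :
    Continuous fun Y : Matrix (Fin 3) (Fin 3) L => Yᴴ := by
  have hcs : Continuous (star : L → L) := by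
    have h1 : Isometry (star : L → L) := Isometry.of_dist_eq fun x y => by
      rw [dist_eq_norm, dist_eq_norm, ← star_sub, hst]
    exact h1.continuous
  refine continuous_matrix fun i j => ?_
  exact hcs.comp (continuous_id.matrix_elem j i)

/-- The involution in the model. -/
theorem MM.star_eq (M : MM C B a φ H ρ) (hd : H.det ≠ 0) (x : D) :
    ρ (star x) = H * (ρ x)ᴴ * H⁻¹ := by
  have hHu : IsUnit H.det := isUnit_iff_ne_zero.2 hd
  rw [← M.star' x, Matrix.mul_assoc, Matrix.mul_nonsing_inv _ hHu, Matrix.mul_one]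

theorem MM.lim_star (M : MM C B a φ H ρ) (hst : ∀ x : L, ‖star x‖ = ‖x‖) (hd : H.det ≠ 0)
    {β : Type*} {l : Filter β} {F : β → D} {Y : Matrix (Fin 3) (Fin 3) L}
    (h : Tendsto (fun b => ρ (F b)) l (𝓝 Y)) (hY : H * Yᴴ * H⁻¹ * Y = 1) :
    Tendsto (fun b => ρ (star (F b) * F b - 1)) l (𝓝 0) := by
  have hcH := continuous_starM hst
  have h1 : (fun b => ρ (star (F b) * F b - 1)) =
      fun b => H * (ρ (F b))ᴴ * H⁻¹ * ρ (F b) - 1 := by
    funext b
    rw [map_sub, map_mul, map_one, M.star_eq hd]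
  have h2 : Continuous fun Y : Matrix (Fin 3) (Fin 3) L => H * Yᴴ * H⁻¹ * Y - 1 :=
    ((((continuous_const.mul hcH).mul continuous_const).mul continuous_id).sub continuous_const)
  have h3 : H * Yᴴ * H⁻¹ * Y - 1 = 0 := by rw [hY, sub_self]
  rw [h1, ← h3]
  exact (h2.tendsto Y).comp h

theorem MM.lim_det (M : MM C B a φ H ρ) {β : Type*} {l : Filter β} {F : β → D}
    {Y : Matrix (Fin 3) (Fin 3) L} (h : Tendsto (fun b => ρ (F b)) l (𝓝 Y)) (hY : Y.det = 1) :
    Tendsto (fun b => ρ (algebraMap K D (C.N (F b)) - 1)) l (𝓝 0) := by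
  have h1 : (fun b => ρ (algebraMap K D (C.N (F b)) - 1)) =
      fun b => (ρ (F b)).det • (1 : Matrix (Fin 3) (Fin 3) L) - 1 := by
    funext b
    rw [map_sub, M.alg, map_one, M.det]
  have h2 : Continuous fun Y : Matrix (Fin 3) (Fin 3) L =>
      Y.det • (1 : Matrix (Fin 3) (Fin 3) L) - 1 :=
    (continuous_id.matrix_det.smul continuous_const).sub continuous_const
  have h3 : Y.det • (1 : Matrix (Fin 3) (Fin 3) L) - 1 = 0 := by rw [hY, one_smul, sub_self]
  rw [h1, ← h3]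
  exact (h2.tendsto Y).comp h

theorem MM.lim_pair (M : MM C B a φ H ρ) {x : D} {W G : Matrix (Fin 3) (Fin 3) L}
    (hpair : ρ x * W * G = G * W) :
    Tendsto (fun p : D × D => ρ (x * p.1 * p.2 - p.2 * p.1)) (comap (Prod.map ρ ρ) (𝓝 (W, G)))
      (𝓝 0) := by
  have _ := M
  have h1 : (fun p : D × D => ρ (x * p.1 * p.2 - p.2 * p.1)) =
      fun p => ρ x * ρ p.1 * ρ p.2 - ρ p.2 * ρ p.1 := by
    funext p
    rw [map_sub, map_mul, map_mul, map_mul]
  have h2 : Continuous fun q : Matrix (Fin 3) (Fin 3) L × Matrix (Fin 3) (Fin 3) L =>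
      ρ x * q.1 * q.2 - q.2 * q.1 :=
    ((continuous_const.mul continuous_fst).mul continuous_snd).sub
      (continuous_snd.mul continuous_fst)
  have h3 : ρ x * W * G - G * W = 0 := by rw [hpair, sub_self]
  have h4 : Tendsto (fun p : D × D => (ρ p.1, ρ p.2)) (comap (Prod.map ρ ρ) (𝓝 (W, G)))
    (𝓝 (W, G)) := tendsto_comap
  have h5 := (h2.tendsto (W, G)).comp h4
  beta_reduce at h5
  rw [h3] at h5
  rw [h1]
  exact h5

/-- The nonspecial condition, quantitative. -/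
theorem MM.nonspec_bound (M : MM C B a φ H ρ) {x : D} (hx : x ≠ 0) (hx1 : x ≠ 1)
    {W : Matrix (Fin 3) (Fin 3) L} (hns : ∀ e : L, W * (ρ x - 1) * W ≠ e • ((ρ x)⁻¹ - 1)) :
    ∃ c : ℝ, 0 < c ∧ ∀ {β : Type} {l : Filter β} {F : β → D},
      Tendsto (fun b => ρ (F b)) l (𝓝 W) →
      ∀ᶠ b in l, ∀ e : K, c ≤ na B a (F b * (x - 1) * F b - e • (x⁻¹ - 1)) := by
  obtain ⟨C1, hC1, hup⟩ := M.up
  have hinv := M.inv hx
  obtain ⟨P, hP⟩ : ∃ P, P = (ρ x)⁻¹ - 1 := ⟨_, rfl⟩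
  have hP0 : P ≠ 0 := by
    intro h
    rw [hP, sub_eq_zero, ← hinv, ← map_one ρ] at h
    exact hx1 (by rw [← inv_inv x, M.inj h, inv_one])
  rw [← hP] at hns
  obtain ⟨i, j, i', j', hmin⟩ := exists_minor hP0 hns
  obtain ⟨mu, hmu⟩ : ∃ mu : Matrix (Fin 3) (Fin 3) L → L, mu = fun Y =>
      (Y * (ρ x - 1) * Y) i j * P i' j' - (Y * (ρ x - 1) * Y) i' j' * P i j := ⟨_, rfl⟩
  have hmu0 : 0 < ‖mu W‖ := by rw [hmu]; exact norm_pos_iff.2 hmin
  have hq : Continuous fun Y : Matrix (Fin 3) (Fin 3) L => Y * (ρ x - 1) * Y :=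
    (continuous_id.mul continuous_const).mul continuous_id
  have hmuc : Continuous mu := by
    rw [hmu]
    exact ((hq.matrix_elem i j).mul continuous_const).sub
      ((hq.matrix_elem i' j').mul continuous_const)
  have hp0 : 0 < ‖P i j‖ + ‖P i' j'‖ + 1 := by positivity
  refine ⟨‖mu W‖ / (2 * C1 * (‖P i j‖ + ‖P i' j'‖ + 1)), by positivity, ?_⟩
  intro β l F hF
  have s6 : ∀ᶠ b in l, ‖mu W‖ / 2 < ‖mu (ρ (F b))‖ := by
    have h1 : Tendsto (fun b => ‖mu (ρ (F b))‖) l (𝓝 ‖mu W‖) :=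
      ((continuous_norm.comp hmuc).tendsto W).comp hF
    exact h1.eventually_const_lt (by linarith)
  filter_upwards [s6] with b r4 e
  have r1 : ρ (F b * (x - 1) * F b - e • (x⁻¹ - 1)) = ρ (F b) * (ρ x - 1) * ρ (F b) - φ e • P := by
    rw [map_sub, map_mul, map_mul, map_sub, map_one, M.smul, map_sub, map_one, hinv, hP]
  obtain ⟨T, hT⟩ : ∃ T : D, T = F b * (x - 1) * F b - e • (x⁻¹ - 1) := ⟨_, rfl⟩
  rw [← hT] at r1 ⊢
  have r2 : mu (ρ (F b)) = (ρ T) i j * P i' j' - (ρ T) i' j' * P i j := by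
    rw [r1, hmu]
    simp only [Matrix.sub_apply, Matrix.smul_apply, smul_eq_mul]
    ring
  have hn := na_nonneg B a T
  have r3 : ‖mu (ρ (F b))‖ ≤ C1 * na B a T * (‖P i j‖ + ‖P i' j'‖ + 1) := by
    rw [r2]
    calc ‖(ρ T) i j * P i' j' - (ρ T) i' j' * P i j‖ ≤
        ‖(ρ T) i j * P i' j'‖ + ‖(ρ T) i' j' * P i j‖ := norm_sub_le _ _
      _ = ‖(ρ T) i j‖ * ‖P i' j'‖ + ‖(ρ T) i' j'‖ * ‖P i j‖ := by rw [norm_mul, norm_mul]
      _ ≤ (C1 * na B a T) * ‖P i' j'‖ + (C1 * na B a T) * ‖P i j‖ := by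
        gcongr
        · exact hup T i j
        · exact hup T i' j'
      _ ≤ _ := by
        have : 0 ≤ C1 * na B a T := by positivity
        nlinarith
  rw [div_le_iff₀ (by positivity)]
  nlinarith

/-- **An exact pair in the model gives approximate pairs.** -/
theorem MM.locPair1 (M : MM C B a φ H ρ) (hst : ∀ x : L, ‖star x‖ = ‖x‖) (hd : H.det ≠ 0)
    {x : D} (hx : x ≠ 0) (hx1 : x ≠ 1) {W G : Matrix (Fin 3) (Fin 3) L}
    (hW : H * Wᴴ * H⁻¹ * W = 1) (hG : H * Gᴴ * H⁻¹ * G = 1) (hWd : W.det = 1) (hGd : G.det = 1)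
    (hreg : (dPm W).det ≠ 0) (hpair : ρ x * W * G = G * W)
    (hns : ∀ e : L, W * (ρ x - 1) * W ≠ e • ((ρ x)⁻¹ - 1)) : LocPair1 C B a x := by
  obtain ⟨C0, hC0, hlo⟩ := M.lo
  obtain ⟨cW, hcW0, hcW⟩ := exists_entry_bound W
  obtain ⟨cG, hcG0, hcG⟩ := exists_entry_bound G
  obtain ⟨cm, hcm0, hcm⟩ := exists_entry_bound (dPm W)⁻¹
  obtain ⟨c, hc, hcb⟩ := M.nonspec_bound hx hx1 hns
  refine ⟨max (max (C0 * cW) (C0 * cG)) (C0 * cm), c, hc, fun δ hδ => ?_⟩
  have hnb := M.neBot W G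
  have t0 : Tendsto (fun p : D × D => (ρ p.1, ρ p.2)) (comap (Prod.map ρ ρ) (𝓝 (W, G)))
    (𝓝 (W, G)) := tendsto_comap
  have s3 := M.ev (M.lim_pair hpair) hδ
  generalize comap (Prod.map ρ ρ) (𝓝 (W, G)) = l at hnb t0 s3
  have t1 : Tendsto (fun p : D × D => ρ p.1) l (𝓝 W) := (continuous_fst.tendsto _).comp t0
  have t2 : Tendsto (fun p : D × D => ρ p.2) l (𝓝 G) := (continuous_snd.tendsto _).comp t0
  -- the derivative
  have t3 : Tendsto (fun p : D × D => dPm (ρ p.1)) l (𝓝 (dPm W)) :=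
    (continuous_dPm.tendsto _).comp t1
  have t4 : Tendsto (fun p : D × D => (dPm (ρ p.1))⁻¹) l (𝓝 (dPm W)⁻¹) :=
    (continuousAt_matInv hreg).tendsto.comp t3
  have ne3 : ∀ᶠ p in l, (dPm (ρ p.1)).det ≠ 0 := by
    have h1 : Tendsto (fun p : D × D => (dPm (ρ p.1)).det) l (𝓝 (dPm W).det) :=
      ((continuous_id.matrix_det).tendsto _).comp t3
    exact h1.eventually_ne hreg
  have ne4 : ∀ᶠ p in l, dP C p.1 ≠ 0 := by
    filter_upwards [ne3] with p hp h0
    apply hp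
    rw [← M.dP', h0, map_zero, Matrix.det_zero]
  have t5 : Tendsto (fun p : D × D => ρ (dP C p.1)⁻¹) l (𝓝 (dPm W)⁻¹) := by
    refine t4.congr' ?_
    filter_upwards [ne4] with p hp
    rw [M.inv hp, M.dP']
  have s1 := M.ev (M.lim_star hst hd t1 hW) hδ
  have s2 := M.ev (M.lim_star hst hd t2 hG) hδ
  have s4 := M.ev (M.lim_det t1 hWd) hδ
  have s5 := M.ev (M.lim_det t2 hGd) hδ
  have b1 := M.evb hcW0 hcW hlo t1
  have b2 := M.evb hcG0 hcG hlo t2
  have b3 := M.evb hcm0 hcm hlo t5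
  obtain ⟨p, h0, h1, h2, h3, h4, h5, h6, h7, h8, h9⟩ := (ne4.and
    (b1.and (b2.and (b3.and (s1.and (s2.and (s3.and (s4.and (s5.and (hcb t1)))))))))).exists
  refine ⟨p.1, p.2, (dP C p.1)⁻¹, h1.trans ?_, h2.trans ?_, h3.trans ?_, mul_inv_cancel₀ h0, h4,
    h5, h6, h7, h8, h9⟩
  · exact (le_max_left _ _).trans (le_max_left _ _)
  · exact (le_max_right _ _).trans (le_max_left _ _)
  · exact le_max_right _ _

end main

end Vale.Agent.P011.H74
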