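import Vale.Agent.P011.H74.BCR
import Mathlib.Topology.Instances.Matrix

/-!
# `M_n(F) × M_n(F)` with the involution `(X, Y) ↦ (Yᵀ, Xᵀ)`
-/

open Module Matrix

namespace Vale.Agent.P011.H74

set_option linter.unusedSectionVars false

/-- `M_n(F) × M_n(F)`, with the involution `(X, Y) ↦ (Yᵀ, Xᵀ)`. -/
def Sw (n : ℕ) (F : Type*) : Type _ := Matrix (Fin n) (Fin n) F × Matrix (Fin n) (Fin n) F

namespace Sw

variable {n : ℕ} {F : Type*}

/-- The pair `(X, Y)`. -/
def mk (X Y : Matrix (Fin n) (Fin n) F) : Sw n F := (X, Y)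

/-- The first component. -/
def X (x : Sw n F) : Matrix (Fin n) (Fin n) F := Prod.fst x

/-- The second component. -/
def Y (x : Sw n F) : Matrix (Fin n) (Fin n) F := Prod.snd x

@[simp] theorem X_mk (X Y : Matrix (Fin n) (Fin n) F) : (mk X Y).X = X := rfl
@[simp] theorem Y_mk (X Y : Matrix (Fin n) (Fin n) F) : (mk X Y).Y = Y := rfl
@[simp] theorem mk_XY (x : Sw n F) : mk x.X x.Y = x := rfl

theorem ext {x y : Sw n F} (h1 : x.X = y.X) (h2 : x.Y = y.Y) : x = y := Prod.ext h1 h2

variable [CommRing F]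

instance : Ring (Sw n F) := inferInstanceAs
  (Ring (Matrix (Fin n) (Fin n) F × Matrix (Fin n) (Fin n) F))
instance : Algebra F (Sw n F) := inferInstanceAs
  (Algebra F (Matrix (Fin n) (Fin n) F × Matrix (Fin n) (Fin n) F))

@[simp] theorem X_add (x y : Sw n F) : (x + y).X = x.X + y.X := rfl
@[simp] theorem Y_add (x y : Sw n F) : (x + y).Y = x.Y + y.Y := rfl
@[simp] theorem X_sub (x y : Sw n F) : (x - y).X = x.X - y.X := rfl
@[simp] theorem Y_sub (x y : Sw n F) : (x - y).Y = x.Y - y.Y := rfl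
@[simp] theorem X_mul (x y : Sw n F) : (x * y).X = x.X * y.X := rfl
@[simp] theorem Y_mul (x y : Sw n F) : (x * y).Y = x.Y * y.Y := rfl
@[simp] theorem X_one : (1 : Sw n F).X = 1 := rfl
@[simp] theorem Y_one : (1 : Sw n F).Y = 1 := rfl
@[simp] theorem X_zero : (0 : Sw n F).X = 0 := rfl
@[simp] theorem Y_zero : (0 : Sw n F).Y = 0 := rfl
@[simp] theorem X_neg (x : Sw n F) : (-x).X = -x.X := rfl
@[simp] theorem Y_neg (x : Sw n F) : (-x).Y = -x.Y := rfl
@[simp] theorem X_smul (r : F) (x : Sw n F) : (r • x).X = r • x.X := rfl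
@[simp] theorem Y_smul (r : F) (x : Sw n F) : (r • x).Y = r • x.Y := rfl

/-- The components, as a linear equivalence. -/
def toProd : Sw n F ≃ₗ[F] (Matrix (Fin n) (Fin n) F × Matrix (Fin n) (Fin n) F) where
  toFun x := (x.X, x.Y)
  invFun p := mk p.1 p.2
  map_add' _ _ := rfl
  map_smul' _ _ := rfl
  left_inv _ := rfl
  right_inv _ := rfl

theorem toProd_apply (x : Sw n F) : toProd x = (x.X, x.Y) := rfl
theorem toProd_symm_apply (p : Matrix (Fin n) (Fin n) F × Matrix (Fin n) (Fin n) F) :
    toProd.symm p = mk p.1 p.2 := rfl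

instance : StarRing (Sw n F) where
  star x := mk (x.Y)ᵀ (x.X)ᵀ
  star_involutive x := by
    refine ext ?_ ?_
    · change ((x.X)ᵀ)ᵀ = x.X
      rw [transpose_transpose]
    · change ((x.Y)ᵀ)ᵀ = x.Y
      rw [transpose_transpose]
  star_mul x y := by
    refine ext ?_ ?_
    · rw [X_mk, Y_mul, X_mul, X_mk, X_mk, transpose_mul]
    · rw [Y_mk, X_mul, Y_mul, Y_mk, Y_mk, transpose_mul]
  star_add x y := by
    refine ext ?_ ?_
    · rw [X_mk, Y_add, X_add, X_mk, X_mk, transpose_add]
    · rw [Y_mk, X_add, Y_add, Y_mk, Y_mk, transpose_add]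

@[simp] theorem X_star (x : Sw n F) : (star x).X = (x.Y)ᵀ := rfl
@[simp] theorem Y_star (x : Sw n F) : (star x).Y = (x.X)ᵀ := rfl

theorem star_smul' (r : F) (x : Sw n F) : star (r • x) = r • star x := rfl

/-- A symmetric element is determined by its first component. -/
theorem star_eq_iff (x : Sw n F) : star x = x ↔ x.Y = (x.X)ᵀ := by
  constructor
  · intro h
    have h1 := congrArg Sw.Y h
    rw [Y_star] at h1
    exact h1.symm
  · intro h
    refine ext ?_ ?_
    · rw [X_star, h, transpose_transpose]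
    · rw [Y_star, h]

/-- A unitary element is `(g, (g⁻¹)ᵀ)`. -/
theorem unitary_iff (x : Sw n F) :
    (star x * x = 1 ∧ x * star x = 1) ↔ x.X * (x.Y)ᵀ = 1 ∧ (x.Y)ᵀ * x.X = 1 := by
  constructor
  · rintro ⟨h1, h2⟩
    exact ⟨by simpa using congrArg Sw.X h2, by simpa using congrArg Sw.X h1⟩
  · rintro ⟨h1, h2⟩
    refine ⟨ext ?_ ?_, ext ?_ ?_⟩
    · rw [X_mul, X_star, h2, X_one]
    · rw [Y_mul, Y_star, Y_one]
      have h3 := congrArg Matrix.transpose h2
      rwa [transpose_mul, transpose_transpose, transpose_one] at h3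
    · rw [X_mul, X_star, h1, X_one]
    · rw [Y_mul, Y_star, Y_one]
      have h3 := congrArg Matrix.transpose h1
      rwa [transpose_mul, transpose_transpose, transpose_one] at h3

section top

variable [TopologicalSpace F]

instance : TopologicalSpace (Sw n F) := inferInstanceAs
  (TopologicalSpace (Matrix (Fin n) (Fin n) F × Matrix (Fin n) (Fin n) F))

instance [IsTopologicalRing F] : IsTopologicalRing (Sw n F) := inferInstanceAs
  (IsTopologicalRing (Matrix (Fin n) (Fin n) F × Matrix (Fin n) (Fin n) F))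

theorem continuous_X : Continuous (X : Sw n F → _) := continuous_fst

theorem continuous_Y : Continuous (Y : Sw n F → _) := continuous_snd

theorem continuous_mk {T : Type*} [TopologicalSpace T] {f g : T → Matrix (Fin n) (Fin n) F}
    (hf : Continuous f) (hg : Continuous g) : Continuous (fun t => mk (f t) (g t)) :=
  hf.prodMk hg

/-- Linear maps out of `M_n(F) × M_n(F)` are continuous. -/
theorem cont_out [IsTopologicalRing F] {ι : Type*} (L : Sw n F →ₗ[F] (ι → F)) :
    Continuous L := by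
  have h2 : ∀ X : Matrix (Fin n) (Fin n) F,
      X = ∑ i, ∑ j, X i j • (Matrix.single i j 1 : Matrix (Fin n) (Fin n) F) := by
    intro X
    conv_lhs => rw [Matrix.matrix_eq_sum_single X]
    refine Finset.sum_congr rfl fun i _ => Finset.sum_congr rfl fun j _ => ?_
    rw [Matrix.smul_single, smul_eq_mul, mul_one]
  let L1 : Matrix (Fin n) (Fin n) F →ₗ[F] (ι → F) := L ∘ₗ toProd.symm.toLinearMap ∘ₗ
    LinearMap.inl F (Matrix (Fin n) (Fin n) F) (Matrix (Fin n) (Fin n) F)
  let L2 : Matrix (Fin n) (Fin n) F →ₗ[F] (ι → F) := L ∘ₗ toProd.symm.toLinearMap ∘ₗ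
    LinearMap.inr F (Matrix (Fin n) (Fin n) F) (Matrix (Fin n) (Fin n) F)
  have h : (L : Sw n F → (ι → F)) = fun x : Sw n F =>
      (∑ i, ∑ j, x.X i j • L1 (Matrix.single i j 1)) +
      ∑ i, ∑ j, x.Y i j • L2 (Matrix.single i j 1) := by
    funext x
    have h1 : L x = L1 x.X + L2 x.Y := by
      change L x = L (mk x.X 0) + L (mk 0 x.Y)
      rw [← map_add]
      congr 1
      refine ext ?_ ?_
      · rw [X_add, X_mk, X_mk, add_zero]
      · rw [Y_add, Y_mk, Y_mk, zero_add]
    rw [h1]
    conv_lhs => rw [h2 x.X, h2 x.Y]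
    simp only [map_sum, map_smul]
  rw [h]
  refine Continuous.add ?_ ?_
  · refine continuous_finsetSum _ fun i _ => continuous_finsetSum _ fun j _ => ?_
    exact (((continuous_apply j).comp ((continuous_apply i).comp continuous_X))).smul
      continuous_const
  · refine continuous_finsetSum _ fun i _ => continuous_finsetSum _ fun j _ => ?_
    exact (((continuous_apply j).comp ((continuous_apply i).comp continuous_Y))).smul
      continuous_const

/-- Linear maps into `M_n(F) × M_n(F)` are continuous. -/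
theorem cont_in [IsTopologicalRing F] {ι : Type*} [Finite ι] (L : (ι → F) →ₗ[F] Sw n F) :
    Continuous L := by
  let L1 : (ι → F) →ₗ[F] Matrix (Fin n) (Fin n) F :=
    (LinearMap.fst F (Matrix (Fin n) (Fin n) F) (Matrix (Fin n) (Fin n) F)) ∘ₗ
      toProd.toLinearMap ∘ₗ L
  let L2 : (ι → F) →ₗ[F] Matrix (Fin n) (Fin n) F :=
    (LinearMap.snd F (Matrix (Fin n) (Fin n) F) (Matrix (Fin n) (Fin n) F)) ∘ₗ
      toProd.toLinearMap ∘ₗ L
  have h1 : Continuous L1 := LinearMap.continuous_on_pi _
  have h2 : Continuous L2 := LinearMap.continuous_on_pi _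
  exact continuous_mk h1 h2

end top

end Sw

section inst

variable {A : Type*} {F : Type*} [Field F] [Ring A] [StarRing A] {n : ℕ}

/-- The embedding of `A` in `M_n(F) × M_n(F)`. -/
def jSw (f : A →+* Matrix (Fin n) (Fin n) F) : A →+* Sw n F where
  toFun x := Sw.mk (f x) (f (star x))ᵀ
  map_one' := by
    rw [star_one, map_one, transpose_one]
    rfl
  map_mul' x y := by
    rw [star_mul, map_mul, map_mul, transpose_mul]
    rfl
  map_zero' := by
    rw [star_zero, map_zero, transpose_zero]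
    rfl
  map_add' x y := by
    rw [star_add, map_add, map_add, transpose_add]
    rfl

theorem jSw_X (f : A →+* Matrix (Fin n) (Fin n) F) (x : A) : (jSw f x).X = f x := rfl

theorem jSw_Y (f : A →+* Matrix (Fin n) (Fin n) F) (x : A) : (jSw f x).Y = (f (star x))ᵀ := rfl

theorem jSw_star (f : A →+* Matrix (Fin n) (Fin n) F) (x : A) :
    jSw f (star x) = star (jSw f x) := by
  refine Sw.ext ?_ ?_
  · rw [jSw_X, Sw.X_star, jSw_Y, transpose_transpose]
  · rw [jSw_Y, Sw.Y_star, jSw_X, star_star]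

variable {k ι : Type*} [Field k] [TopologicalSpace F]
  [IsTopologicalRing F] [Algebra k F] [Algebra k A] [Fintype ι] [DecidableEq ι]

/-- The instance of `BCR` at a split place. -/
noncomputable def bcrSw (f : A →+* Matrix (Fin n) (Fin n) F) (B : Basis ι k A)
    (hst : ∀ (c : k) (x : A), star (c • x) = c • star x)
    (hf : ∀ c : k, f (algebraMap k A c) = algebraMap F _ (algebraMap k F c))
    (b' : Basis ι F (Matrix (Fin n) (Fin n) F × Matrix (Fin n) (Fin n) F))
    (hb : ∀ i, b' i = (f (B i), (f (star (B i)))ᵀ)) :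
    BCR k F A (Sw n F) ι where
  a := B
  φ :=
    { (Sw.toProd.trans b'.equivFun : Sw n F ≃ₗ[F] (ι → F)) with
      continuous_toFun := Sw.cont_out (Sw.toProd.trans b'.equivFun).toLinearMap
      continuous_invFun := Sw.cont_in (Sw.toProd.trans b'.equivFun).symm.toLinearMap }
  j := jSw f
  j_smul c x := by
    have hsm : ∀ (c : k) (x : A), f (c • x) = algebraMap k F c • f x := by
      intro c x
      rw [Algebra.smul_def, map_mul, hf, ← Algebra.smul_def]
    refine Sw.ext ?_ ?_
    · rw [jSw_X, Sw.X_smul, jSw_X, hsm]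
    · rw [jSw_Y, Sw.Y_smul, jSw_Y, hst, hsm, transpose_smul]
  j_star := jSw_star f
  φ_j i := by
    change b'.equivFun (f (B i), (f (star (B i)))ᵀ) = _
    rw [← hb]
    funext l
    rw [Basis.equivFun_self, Pi.single_apply]
    simp [eq_comm]
  star_smul := Sw.star_smul'

end inst

end Vale.Agent.P011.H74
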