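import Vale.Agent.P011.H74.FinalF2
import Vale.Agent.P011.H961.ReachF
import Vale.Agent.P011.H73.AdjAF
import Vale.Agent.P011.H518.S3bFF
import Vale.Agent.P011.H271.S3aW
import Vale.Agent.P011.H21.Sig
import Vale.Agent.P011.H775.CubEx

/-!
# The solvable step in degree three over global function fields
-/

open Module

set_option linter.unusedSectionVars false

namespace Vale.Agent.P011.H74

open Vale.Agent.P011.H738 Vale.Agent.P011.H271 Vale.Agent.P011.H775 Vale.Agent.P011.H305

variable {k K D Ω : Type} [Field k] [Field K] [StarRing K] [DivisionRing D] [StarRing D]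
  [Algebra k K] [Algebra k D] [Algebra K D] [IsScalarTower k K D] [StarModule K D] {N : ℕ}
  [Field Ω] [Algebra K Ω]

/-- **The solvable step for division algebras of degree three** over a global function field of
characteristic at least five. -/
theorem solvAtF_three (hk : IsGlobalFunctionField k) (hA : Anis k K D 3) (h2 : (2 : k) ≠ 0)
    (h3 : (3 : k) ≠ 0) (f : D →ₐ[K] Matrix (Fin 3) (Fin 3) Ω) (B : Basis (Fin N) k D) :
    SolvAtF k K f B := by
  have hgff : GFF k := gff_of_isGlobal hk
  obtain ⟨d, s, hS⟩ := exists_setF hA three_ne_zero h2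
  have h9 := hA.finrank_eq
  have hfin := hS.fin
  have hcen := hS.cen
  have hfk : FiniteDimensional k K := Module.finite_of_finrank_pos (by rw [hS.rank]; norm_num)
  have hgK : GFF K := Hey.H63.gff_of_finite (k := k)
  obtain ⟨C⟩ := exists_cub (K := K) (D := D) h9
  have hsc := H948.sCub_of C h9 hS.star_smul
  have h2K : (2 : K) ≠ 0 := by
    rw [← map_ofNat (algebraMap k K) 2]
    exact (map_ne_zero _).mpr h2
  refine FinalF.final2 hk hS h3 h9 C f B (H961.reachF hS h3 C h9 B)
    (fun F hF hd g0 hg0 ε hε => H73.AdjA.adjA_ff hS Nat.prime_three h9 B hF hd hg0 hε)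
    (S3.s3a_of hk hS h3 h9 C f B (fun V e h he hh hV => ?_) fun V V' v h h' => ?_)
    (H518.s3b_ff hk hS h3 h9 C f B)
  · exact H21.Sig.exists_sig C hsc h2K he hh V hV
  · exact H21.Sig.above_or hS.fix h h'

end Vale.Agent.P011.H74
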