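import Vale.Agent.P011.H74.T3FF
import Vale.Agent.P011.H305.Three

/-!
# The conjecture for division algebras of degree three over global function fields
-/

open Module TensorProduct Topology

set_option linter.unusedSectionVars false

namespace Vale.Agent.P011.H74

open Vale.Agent.P011.H738 (Place SUA Anis IsGlobalFunctionField)
open Vale.Agent.P011.H732F (GK HA IsDiagonal IsOpenPreimage Adiv)

variable {k K D Ω : Type} [Field k] [Field K] [StarRing K] [DivisionRing D] [StarRing D]
  [Algebra k K] [Algebra k D] [Algebra K D] [IsScalarTower k K D] [StarModule K D]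
  [Field Ω] [Algebra K Ω]

/-- **The conjecture** for `SU_1(D, *)`, `D` a division algebra of degree three over a global
function field of characteristic at least five: every normal subgroup of finite index is the
preimage of an open subgroup. -/
theorem conj_three_ff (hk : IsGlobalFunctionField k) (hA : Anis k K D 3) (h2 : (2 : k) ≠ 0)
    (h3 : (3 : k) ≠ 0) (f : D →ₐ[K] Matrix (Fin 3) (Fin 3) Ω) :
    ∃ δ : GK f →* HA D 3 (Adiv k K D), IsDiagonal δ ∧ DenseRange δ ∧
      ∀ M : Subgroup (GK f), M.Normal → M.index ≠ 0 → IsOpenPreimage δ M := by
  have hfk : FiniteDimensional k K := (H519.quad hA.fixed hA.star_ne).1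
  have hfD : FiniteDimensional K D := FiniteDimensional.of_finrank_pos (by
    rw [hA.finrank_eq]
    positivity)
  have hfkD : FiniteDimensional k D := Module.Finite.trans K D
  exact H305.conj_of_solvF hk hA le_rfl f (finBasis k D)
    (solvAtF_three hk hA h2 h3 f (finBasis k D))

end Vale.Agent.P011.H74
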