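import Vale.Agent.P011.H74.LatFF

/-!
# The base change `R ⊗ A` as a topological ring with involution, and orders, for any ring `A`

(Twins of `H544/TopBC.lean` and `H544/Ord.lean`, where `A` is a division ring.)
-/

open Module TensorProduct

namespace Vale.Agent.P011.H74

/-- The involution is linear over `k`. -/
class StarLinR (k A : Type*) [Field k] [Ring A] [StarRing A] [Algebra k A] : Prop where
  star_smul' : ∀ (c : k) (x : A), star (c • x) = c • star x

section

variable {k A ι : Type*} [Field k] [Ring A] [StarRing A] [Algebra k A]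

/-- The base change of `A` to `R`, with the topology given by the basis `a`. -/
def BR (_a : Basis ι k A) (R : Type*) [CommRing R] [Algebra k R] : Type _ := R ⊗[k] A

variable (a : Basis ι k A) (R : Type*) [CommRing R] [Algebra k R]

noncomputable instance : Ring (BR a R) := inferInstanceAs (Ring (R ⊗[k] A))
noncomputable instance : Algebra R (BR a R) := inferInstanceAs (Algebra R (R ⊗[k] A))

/-- star as a linear map -/
def starA (k A : Type*) [Field k] [Ring A] [StarRing A] [Algebra k A] [StarLinR k A] :
    A →ₗ[k] A where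
  toFun := star
  map_add' := star_add
  map_smul' c x := StarLinR.star_smul' c x

/-- star on the base change -/
noncomputable def starT [StarLinR k A] : (R ⊗[k] A) →ₗ[R] (R ⊗[k] A) :=
  (starA k A).baseChange R

theorem starT_tmul [StarLinR k A] (r : R) (x : A) : starT (k := k) R (r ⊗ₜ[k] x) = r ⊗ₜ star x :=
  rfl

theorem starT_starT [StarLinR k A] (x : R ⊗[k] A) : starT (k := k) R (starT R x) = x := by
  induction x using TensorProduct.induction_on with
  | zero => simp
  | tmul r x => rw [starT_tmul, starT_tmul, star_star]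
  | add x y hx hy => rw [map_add, map_add, hx, hy]

theorem starT_mul [StarLinR k A] (x y : R ⊗[k] A) :
    starT (k := k) R (x * y) = starT R y * starT R x := by
  induction x using TensorProduct.induction_on with
  | zero => simp
  | add x x' hx hx' => rw [add_mul, map_add, map_add, mul_add, hx, hx']
  | tmul r x =>
    induction y using TensorProduct.induction_on with
    | zero => simp
    | add y y' hy hy' => rw [mul_add, map_add, map_add, add_mul, hy, hy']
    | tmul s y =>
      rw [Algebra.TensorProduct.tmul_mul_tmul, starT_tmul, starT_tmul, starT_tmul,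
        Algebra.TensorProduct.tmul_mul_tmul, star_mul, mul_comm]

noncomputable instance [StarLinR k A] : StarRing (BR a R) where
  star := fun x => starT (k := k) (A := A) R x
  star_involutive := starT_starT (k := k) (A := A) R
  star_mul := starT_mul (k := k) (A := A) R
  star_add := fun x y => map_add (starT (k := k) (A := A) R) x y

variable [Fintype ι]

/-- the coordinates -/
noncomputable def eqF : BR a R ≃ₗ[R] (ι → R) := (a.baseChange R).equivFun

variable [TopologicalSpace R]

noncomputable instance : TopologicalSpace (BR a R) :=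
  TopologicalSpace.induced (fun x => eqF a R x) inferInstance

omit [StarRing A] in
theorem cont_eqF : Continuous (eqF a R) := continuous_induced_dom

omit [StarRing A] in
theorem cont_into {X : Type*} [TopologicalSpace X] (f : X → BR a R)
    (h : Continuous fun x => eqF a R (f x)) : Continuous f :=
  continuous_induced_rng.2 h

instance [IsTopologicalRing R] : IsTopologicalRing (BR a R) where
  continuous_add := by
    refine cont_into a R _ ?_
    simp only [map_add]
    exact ((cont_eqF a R).comp continuous_fst).add ((cont_eqF a R).comp continuous_snd)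
  continuous_neg := by
    refine cont_into a R _ ?_
    simp only [map_neg]
    exact (cont_eqF a R).neg
  continuous_mul := by
    classical
    refine cont_into a R _ ?_
    have hx : ∀ x : BR a R, x = ∑ i, eqF a R x i • (eqF a R).symm (Pi.single i 1) := by
      intro x
      apply (eqF a R).injective
      rw [map_sum]
      funext l
      rw [Finset.sum_apply, Finset.sum_eq_single l]
      · simp
      · intro i _ hi
        simp [hi.symm]
      · simp
    have h : ∀ p : BR a R × BR a R, eqF a R (p.1 * p.2) =
        ∑ i, ∑ l, (eqF a R p.1 i * eqF a R p.2 l) •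
          eqF a R ((eqF a R).symm (Pi.single i 1) * (eqF a R).symm (Pi.single l 1)) := by
      intro p
      conv_lhs => rw [hx p.1, hx p.2]
      rw [Finset.sum_mul_sum, map_sum]
      refine Finset.sum_congr rfl fun i _ => ?_
      rw [map_sum]
      refine Finset.sum_congr rfl fun l _ => ?_
      rw [smul_mul_smul_comm, map_smul]
    simp only [h]
    refine continuous_finsetSum _ fun i _ => continuous_finsetSum _ fun l _ => ?_
    have h1 : Continuous fun p : BR a R × BR a R => eqF a R p.1 i :=
      (continuous_apply i).comp ((cont_eqF a R).comp continuous_fst)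
    have h2 : Continuous fun p : BR a R × BR a R => eqF a R p.2 l :=
      (continuous_apply l).comp ((cont_eqF a R).comp continuous_snd)
    exact (h1.mul h2).smul continuous_const

/-- The instance of `BCR`. -/
noncomputable def bcrT [DecidableEq ι] [StarLinR k A] : BCR k R A (BR a R) ι where
  a := a
  φ := { eqF a R with
    continuous_toFun := cont_eqF a R
    continuous_invFun := by
      have h : Continuous (fun x : ι → R => (eqF a R).symm x) := by
        refine cont_into (X := ι → R) a R _ ?_
        simp only [LinearEquiv.apply_symm_apply]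
        exact continuous_id
      exact h }
  j := (Algebra.TensorProduct.includeRight : A →ₐ[k] R ⊗[k] A).toRingHom
  j_smul c x := by
    change (1 : R) ⊗ₜ[k] (c • x) = (algebraMap k R c) • ((1 : R) ⊗ₜ[k] x)
    rw [TensorProduct.smul_tmul', ← TensorProduct.smul_tmul, algebraMap_smul]
  j_star x := rfl
  φ_j i := by
    change (a.baseChange R).equivFun ((1 : R) ⊗ₜ[k] a i) = _
    rw [← Basis.baseChange_apply]
    funext l
    rw [Basis.equivFun_self, Pi.single_apply]
    simp [eq_comm]
  star_smul r x := map_smul (starT (k := k) (A := A) R) r x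

end

section ord

variable {k A ι : Type*} [Field k] [Ring A] [StarRing A] [Algebra k A] [Fintype ι]
  (a : Basis ι k A)

/-- The set of elements with coordinates in `O`. -/
def InL (O : Subring k) (x : A) : Prop := ∀ i, a.repr x i ∈ O

omit [StarRing A] [Fintype ι] in
theorem InL.add {O : Subring k} {x y : A} (hx : InL a O x) (hy : InL a O y) : InL a O (x + y) :=
  fun i => by rw [map_add]; exact O.add_mem (hx i) (hy i)

omit [StarRing A] [Fintype ι] in
theorem InL.sum {O : Subring k} {κ : Type*} (s : Finset κ) (f : κ → A)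
    (h : ∀ i ∈ s, InL a O (f i)) : InL a O (∑ i ∈ s, f i) := fun l => by
  rw [map_sum, Finsupp.finsetSum_apply]
  exact O.sum_mem fun i hi => h i hi l

omit [StarRing A] [Fintype ι] in
theorem InL.smul {O : Subring k} {c : k} {x : A} (hc : c ∈ O) (hx : InL a O x) :
    InL a O (c • x) := fun i => by
  rw [map_smul, Finsupp.smul_apply, smul_eq_mul]; exact O.mul_mem hc (hx i)

/-- The order of the elements `x` such that `x` and `star x` preserve the lattice. -/
def ordO (O : Subring k) : Subring A where
  carrier := {x | (∀ y, InL a O y → InL a O (x * y)) ∧ ∀ y, InL a O y → InL a O (star x * y)}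
  mul_mem' := by
    rintro x x' ⟨h1, h2⟩ ⟨h3, h4⟩
    refine ⟨fun y hy => ?_, fun y hy => ?_⟩
    · rw [mul_assoc]; exact h1 _ (h3 _ hy)
    · rw [star_mul, mul_assoc]; exact h4 _ (h2 _ hy)
  one_mem' := ⟨fun y hy => by rwa [one_mul], fun y hy => by rwa [star_one, one_mul]⟩
  add_mem' := by
    rintro x x' ⟨h1, h2⟩ ⟨h3, h4⟩
    refine ⟨fun y hy => ?_, fun y hy => ?_⟩
    · rw [add_mul]; exact (h1 _ hy).add a (h3 _ hy)
    · rw [star_add, add_mul]; exact (h2 _ hy).add a (h4 _ hy)
  zero_mem' := ⟨fun y _ i => by simp, fun y _ i => by simp⟩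
  neg_mem' := by
    rintro x ⟨h1, h2⟩
    refine ⟨fun y hy i => ?_, fun y hy i => ?_⟩
    · rw [neg_mul, map_neg]; exact O.neg_mem (h1 y hy i)
    · rw [star_neg, neg_mul, map_neg]; exact O.neg_mem (h2 y hy i)

omit [Fintype ι] in
theorem smul_one_mem_ordO [StarLinR k A] {O : Subring k} {c : k} (hc : c ∈ O) :
    c • (1 : A) ∈ ordO a O := by
  refine ⟨fun y hy => ?_, fun y hy => ?_⟩
  · rw [smul_mul_assoc, one_mul]; exact InL.smul a hc hy
  · rw [StarLinR.star_smul', star_one, smul_mul_assoc, one_mul]; exact InL.smul a hc hy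

/-- `d` is a common denominator of the structure constants. -/
structure DenR (d : k) (O : Subring k) : Prop where
  ne : d ≠ 0
  one : InL a O (d • (1 : A))
  mul : ∀ i l, InL a O (d • (a i * a l))
  star : ∀ i l, InL a O (d • (star (a i) * a l))

omit [Fintype ι] in
theorem DenR.mono {d : k} {O O' : Subring k} (h : O ≤ O') (H : DenR a d O) : DenR a d O' :=
  ⟨H.ne, fun i => h (H.one i), fun i l j => h (H.mul i l j), fun i l j => h (H.star i l j)⟩

/-- Finitely many elements have a common denominator. -/
theorem common_den {O : Subring k} (hO : ∀ x : k, ∃ d ∈ O, d ≠ 0 ∧ d * x ∈ O) {κ : Type*}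
    (s : Finset κ) (f : κ → k) : ∃ d ∈ O, d ≠ 0 ∧ ∀ i ∈ s, d * f i ∈ O := by
  classical
  induction s using Finset.induction_on with
  | empty => exact ⟨1, O.one_mem, one_ne_zero, by simp⟩
  | insert i s hi ih =>
    obtain ⟨d, hd, hd0, hd1⟩ := ih
    obtain ⟨e, he, he0, he1⟩ := hO (f i)
    refine ⟨d * e, O.mul_mem hd he, mul_ne_zero hd0 he0, fun j hj => ?_⟩
    rcases Finset.mem_insert.1 hj with rfl | hj
    · rw [mul_assoc]; exact O.mul_mem hd he1
    · rw [mul_comm d e, mul_assoc]; exact O.mul_mem he (hd1 j hj)

theorem exists_denR (O : Subring k) (hO : ∀ x : k, ∃ d ∈ O, d ≠ 0 ∧ d * x ∈ O) :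
    ∃ d ∈ O, DenR a d O := by
  classical
  obtain ⟨d1, h1, h10, h11⟩ := common_den hO (Finset.univ : Finset ι) (fun i => a.repr 1 i)
  obtain ⟨d2, h2, h20, h21⟩ := common_den hO (Finset.univ : Finset (ι × ι × ι))
    (fun p => a.repr (a p.1 * a p.2.1) p.2.2)
  obtain ⟨d3, h3, h30, h31⟩ := common_den hO (Finset.univ : Finset (ι × ι × ι))
    (fun p => a.repr (star (a p.1) * a p.2.1) p.2.2)
  refine ⟨d1 * d2 * d3, O.mul_mem (O.mul_mem h1 h2) h3,
    mul_ne_zero (mul_ne_zero h10 h20) h30, fun i => ?_, fun i l j => ?_, fun i l j => ?_⟩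
  · rw [map_smul, Finsupp.smul_apply, smul_eq_mul]
    have : d1 * d2 * d3 * a.repr 1 i = d2 * d3 * (d1 * a.repr 1 i) := by ring
    rw [this]
    exact O.mul_mem (O.mul_mem h2 h3) (h11 i (Finset.mem_univ _))
  · rw [map_smul, Finsupp.smul_apply, smul_eq_mul]
    have : d1 * d2 * d3 * a.repr (a i * a l) j = d1 * d3 * (d2 * a.repr (a i * a l) j) := by ring
    rw [this]
    exact O.mul_mem (O.mul_mem h1 h3) (h21 (i, l, j) (Finset.mem_univ _))
  · rw [map_smul, Finsupp.smul_apply, smul_eq_mul]
    have : d1 * d2 * d3 * a.repr (star (a i) * a l) j =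
      d1 * d2 * (d3 * a.repr (star (a i) * a l) j) := by ring
    rw [this]
    exact O.mul_mem (O.mul_mem h1 h2) (h31 (i, l, j) (Finset.mem_univ _))

/-- The order is an order, with explicit denominator. -/
theorem isOrdR_ordO [StarLinR k A] {d : k} {O : Subring k} (H : DenR a d O) :
    IsOrdR a O (ordO a O) ∧ ∀ x ∈ ordO a O, ∀ i, d * a.repr x i ∈ O := by
  classical
  have hup : ∀ x ∈ ordO a O, ∀ i, d * a.repr x i ∈ O := by
    rintro x ⟨hx, -⟩ i
    have h1 := hx _ H.one i
    rwa [mul_smul_comm, mul_one, map_smul, Finsupp.smul_apply, smul_eq_mul] at h1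
  have hL : ∀ z : A, (∀ l, InL a O (z * a l)) → ∀ y, InL a O y → InL a O (z * y) := by
    intro z hz y hy
    rw [← a.sum_repr y, Finset.mul_sum]
    refine InL.sum a _ _ fun l _ => ?_
    rw [mul_smul_comm]
    exact InL.smul a (hy l) (hz l)
  refine ⟨⟨?_, ⟨d, H.ne, hup⟩, d, H.ne, fun c hc => ⟨hL _ fun l => ?_, hL _ fun l => ?_⟩⟩, hup⟩
  · rintro x ⟨h1, h2⟩
    exact ⟨h2, by rwa [star_star]⟩
  · rw [Finset.sum_mul]
    refine InL.sum a _ _ fun i _ => ?_
    rw [smul_mul_assoc, mul_comm d, mul_smul]
    exact InL.smul a (hc i) (H.mul i l)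
  · rw [star_sum, Finset.sum_mul]
    refine InL.sum a _ _ fun i _ => ?_
    rw [StarLinR.star_smul', smul_mul_assoc, mul_comm d, mul_smul]
    exact InL.smul a (hc i) (H.star i l)

end ord

end Vale.Agent.P011.H74
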