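import Vale.Agent.P011.H74.UprMass

/-!
# The mass of the unitary elements in small cosets
-/

set_option linter.unusedSectionVars false

open MeasureTheory Filter Topology Set Module
open scoped ENNReal NNReal Pointwise CompactlySupported

namespace Vale.Agent.P011.H74

open Vale.Agent.P011.H380.UpBC Vale.Agent.P011.H380.UnitsTop

section

variable {k R A E ι : Type*} [Field k] [CommRing R] [TopologicalSpace R] [IsTopologicalRing R]
  [Algebra k R] [Ring A] [StarRing A] [Algebra k A] [Ring E] [StarRing E] [TopologicalSpace E]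
  [IsTopologicalRing E] [Algebra R E] [Fintype ι] [DecidableEq ι] (B : BCR k R A E ι)
  [Nontrivial R] [LocallyCompactSpace R] [T2Space R] [SecondCountableTopology R]

omit [IsTopologicalRing R] [IsTopologicalRing E] [Nontrivial R] [LocallyCompactSpace R]
  [T2Space R] [SecondCountableTopology R] in
theorem j_icay {w v : A} (hu : IsUnit (v - 1)) :
    B.j (icay w v) = Ring.inverse (B.j v - 1) * B.j (w - star w) + B.j w := by
  have h1 : Ring.inverse (B.j v - 1) = B.j (Ring.inverse (v - 1)) := by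
    refine inverse_eq ?_ ?_
    · rw [← map_one B.j, ← map_sub, ← map_mul, Ring.mul_inverse_cancel _ hu]
    · rw [← map_one B.j, ← map_sub, ← map_mul, Ring.inverse_mul_cancel _ hu]
  rw [icay, map_add, map_mul, h1]

/-- **The mass of the unitary elements in a small coset**, near a point. -/
theorem cell_bound {O : Subring k} (hG : Good k R O) {Lam : Subring A} [Countable Lam]
    (H : IsOrdR B.a O Lam) (Z : Cells E) {w ε : A} (hw : ∀ x, w * x = x * w) (hwL : w ∈ Lam)
    (hεL : ε ∈ Lam) (hε : ε * (w - star w) = 1) {z : A} (hz1 : star z * z = 1)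
    (hz2 : z * star z = 1) (hzu : IsUnit (z - 1))
    (hdense : ∀ g : unitary E, ∀ V ∈ 𝓝 g, ∃ u : unitary A, jUR B u ∈ V)
    [MeasurableSpace (unitary E)] [BorelSpace (unitary E)] (μ : Measure (unitary E))
    [μ.IsHaarMeasure] [μ.IsMulRightInvariant] (hcos : Cos B Lam) (g₀ : unitary E) :
    ∃ C : ℝ, 0 ≤ C ∧ ∃ N₁ ∈ 𝓝 g₀, ∃ m₁, ∀ m ≥ m₁, ∀ ε : ℝ, 0 < ε → ∀ᶠ x : ℝ in 𝓝[>] 1,
      ∀ g ∈ N₁, ∀ F : Finset (unitary A), (∀ y ∈ F, jUR B y ∈ cst Z m g) →
        (x - 1) * ∑ y ∈ F, (H699.den Lam (y : A) : ℝ) ^ (-x) ≤ C * μ.real (HU Z m) + ε := by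
  classical
  have := B.continuousStar
  have := B.t2
  have := B.locallyCompact
  have := locallyCompact_unitary E
  have hE : GoodUnits E := GoodUnits.algebra B.φ hG.units
  have hε' : (w - star w) * ε = 1 := by
    have hws : ∀ x, star w * x = x * star w := by
      intro x
      have h := congrArg star (hw (star x))
      rw [star_mul, star_mul, star_star] at h
      exact h.symm
    rw [sub_mul, hw, hws, ← mul_sub, hε]
  -- the base point
  have h1 : {u : unitary E | IsUnit (B.j z * (g₀ : E) * star (u : E) - 1)} ∈ 𝓝 g₀ := by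
    have h2 : Continuous fun u : unitary E => B.j z * (g₀ : E) * star (u : E) - 1 := by fun_prop
    refine h2.continuousAt.preimage_mem_nhds (hE.isOpen.mem_nhds ?_)
    change IsUnit (B.j z * (g₀ : E) * star (g₀ : E) - 1)
    rw [mul_assoc, Unitary.mul_star_self_of_mem g₀.2, mul_one, ← map_one B.j, ← map_sub]
    exact hzu.map B.j
  obtain ⟨u₁, hu₁⟩ := hdense g₀ _ h1
  have hη : B.j (star (u₁ : A)) = star ((jUR B u₁ : unitary E) : E) := by
    rw [B.j_star]
    rfl
  have h3 : {g : unitary E | IsUnit (B.j z * (g : E) * B.j (star (u₁ : A)) - 1)} ∈ 𝓝 g₀ := by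
    have h4 : Continuous fun g : unitary E => B.j z * (g : E) * B.j (star (u₁ : A)) - 1 := by
      fun_prop
    refine h4.continuousAt.preimage_mem_nhds (hE.isOpen.mem_nhds ?_)
    change IsUnit (B.j z * (g₀ : E) * B.j (star (u₁ : A)) - 1)
    rw [hη]
    exact hu₁
  obtain ⟨N, hN, hNsub, hNc⟩ := local_compact_nhds h3
  have hNu : ∀ g ∈ N, IsUnit (B.j z * (g : E) * B.j (star (u₁ : A)) - 1) := fun g hg => hNsub hg
  obtain ⟨m₀, hm₀⟩ := exists_small B hG H Z
  have hden0 : ∀ s : A, H699.den Lam s ≠ 0 :=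
    H973.Rg.den_ne_zero B hG.disc hG.coc hG.frac H
  obtain ⟨c₁, hc₁⟩ := chart_le Z hE (δ := B.j (w - star w)) hNc hNu
  obtain ⟨c₂, hc₂⟩ := le_chart Z (ζ := B.j z) (η := B.j (star (u₁ : A))) (δ := B.j (w - star w))
    (ε := B.j ε) (ζ' := B.j (star z)) (η' := B.j (u₁ : A))
    (by rw [← map_mul, hz1, map_one])
    (by rw [← map_mul, Unitary.star_mul_self_of_mem u₁.2, map_one])
    (by rw [← map_mul, hε', map_one]) hNc hNu
  obtain ⟨C₃, hC₃, hden⟩ := den_icay_le B hG H hwL hεL hε hε' z (star (u₁ : A)) hNc hNu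
  set s : unitary A → A := fun y => icay w (z * (y : A) * star (u₁ : A)) with hs
  have hjv : ∀ y : unitary A, B.j (z * (y : A) * star (u₁ : A)) =
      B.j z * ((jUR B y : unitary E) : E) * B.j (star (u₁ : A)) := by
    intro y
    rw [map_mul, map_mul]
    rfl
  have hvu : ∀ y : unitary A, jUR B y ∈ N → IsUnit (z * (y : A) * star (u₁ : A) - 1) := by
    intro y hy
    apply isUnit_of_j B
    rw [map_sub, map_one, hjv]
    exact hNu _ hy
  have hdiff : ∀ y y' : unitary A, jUR B y ∈ N → jUR B y' ∈ N → B.j (s y' - s y) =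
      Ring.inverse (B.j z * ((jUR B y' : unitary E) : E) * B.j (star (u₁ : A)) - 1) *
        B.j (w - star w) -
      Ring.inverse (B.j z * ((jUR B y : unitary E) : E) * B.j (star (u₁ : A)) - 1) *
        B.j (w - star w) := by
    intro y y' hy hy'
    rw [map_sub, hs]
    simp only
    rw [j_icay B (hvu y hy), j_icay B (hvu y' hy'), hjv, hjv]
    abel
  have hyy : ∀ y : unitary A, star (y : A) * y = 1 ∧ (y : A) * star (y : A) = 1 := fun y =>
    ⟨Unitary.star_mul_self_of_mem y.2, Unitary.mul_star_self_of_mem y.2⟩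
  refine cell_bound_of B Z hm₀ s hN ?_ ?_ ?_ ?_ hden0 hC₃ ?_ hdense μ hcos (c₁ := c₁) (c₂ := c₂)
  · intro y hy
    refine star_icay hw ?_ ?_ (hvu y hy)
    · rw [star_mul, star_mul, star_star]
      calc (u₁ : A) * (star (y : A) * star z) * (z * (y : A) * star (u₁ : A)) =
          (u₁ : A) * (star (y : A) * (star z * z) * (y : A)) * star (u₁ : A) := by
            simp only [mul_assoc]
        _ = 1 := by rw [hz1, mul_one, (hyy y).1, mul_one, (hyy u₁).2]
    · rw [star_mul, star_mul, star_star]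
      calc z * (y : A) * star (u₁ : A) * ((u₁ : A) * (star (y : A) * star z)) =
          z * ((y : A) * (star (u₁ : A) * (u₁ : A)) * star (y : A)) * star z := by
            simp only [mul_assoc]
        _ = 1 := by rw [(hyy u₁).1, mul_one, (hyy y).2, mul_one, hz2]
  · intro m y y' hy hy' h
    rw [hdiff y y' hy hy']
    exact hc₁ m _ hy _ hy' h
  · intro m y y' hy hy' h
    rw [hdiff y y' hy hy'] at h
    exact hc₂ m _ hy _ hy' h
  · intro y y' hy hy' h
    have h5 := icay_inj (hvu y hy) (hvu y' hy') hε' h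
    apply Subtype.ext
    have h6 : star z * (z * (y : A) * star (u₁ : A)) * (u₁ : A) =
        star z * (z * (y' : A) * star (u₁ : A)) * (u₁ : A) := by rw [h5]
    have h7 : ∀ a : A, star z * (z * a * star (u₁ : A)) * (u₁ : A) = a := by
      intro a
      calc star z * (z * a * star (u₁ : A)) * (u₁ : A) =
          (star z * z) * a * (star (u₁ : A) * (u₁ : A)) := by simp only [mul_assoc]
        _ = a := by rw [hz1, (hyy u₁).1, one_mul, mul_one]
    rwa [h7, h7] at h6
  · intro y hy
    exact hden y (jUR B y) hy rfl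

end

end Vale.Agent.P011.H74
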