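import Vale.Agent.P011.H74.UprChart

/-!
# The upper bound for the unitary elements from the upper bound for small cosets of symmetric
elements
-/

set_option linter.unusedSectionVars false

open MeasureTheory Filter Topology Set Module
open scoped ENNReal NNReal Pointwise CompactlySupported

namespace Vale.Agent.P011.H74

open Vale.Agent.P011.H380.UpBC Vale.Agent.P011.H380.UnitsTop Vale.Agent.P011.H380.Theta

section

variable {k R A E ι : Type*} [Field k] [CommRing R] [TopologicalSpace R] [IsTopologicalRing R]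
  [Algebra k R] [Ring A] [StarRing A] [Algebra k A] [Ring E] [StarRing E] [TopologicalSpace E]
  [IsTopologicalRing E] [Algebra R E] [Fintype ι] [DecidableEq ι] (B : BCR k R A E ι)
  [Nontrivial R] [LocallyCompactSpace R] [T2Space R] [SecondCountableTopology R]

/-- The bound with a uniform constant. -/
def CellUnif (Z : Cells E) (Lam : Subring A) [MeasurableSpace (unitary E)]
    (μ : Measure (unitary E)) (C : ℝ) : Prop :=
  ∀ g₀ : unitary E, ∃ N₁ ∈ 𝓝 g₀, ∃ m₁, ∀ m ≥ m₁, ∀ ε : ℝ, 0 < ε → ∀ᶠ x : ℝ in 𝓝[>] 1,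
      ∀ g ∈ N₁, ∀ F : Finset (unitary A), (∀ y ∈ F, jUR B y ∈ cst Z m g) →
        (x - 1) * ∑ y ∈ F, (H699.den Lam (y : A) : ℝ) ^ (-x) ≤ C * μ.real (HU Z m) + ε

theorem exists_cellUnif {O : Subring k} (hG : Good k R O) {Lam : Subring A} [Countable Lam]
    (H : IsOrdR B.a O Lam) (hcoc : CocU B Lam) (Z : Cells E) {w ε : A} (hw : ∀ x, w * x = x * w)
    (hwL : w ∈ Lam) (hεL : ε ∈ Lam) (hε : ε * (w - star w) = 1) {z : A} (hz1 : star z * z = 1)
    (hz2 : z * star z = 1) (hzu : IsUnit (z - 1))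
    (hdense : ∀ g : unitary E, ∀ V ∈ 𝓝 g, ∃ u : unitary A, jUR B u ∈ V)
    [MeasurableSpace (unitary E)] [BorelSpace (unitary E)] (μ : Measure (unitary E))
    [μ.IsHaarMeasure] [μ.IsMulRightInvariant] (hcos : Cos B Lam) :
    ∃ C : ℝ, 0 ≤ C ∧ CellUnif B Z Lam μ C := by
  classical
  have := B.continuousStar
  have := B.t2
  have := B.locallyCompact
  obtain ⟨K, hK, hKcov⟩ := hcoc
  have hKc : IsCompact ((fun g : unitary E => (g : E)) ⁻¹' K) :=
    (isClosed_unitary E).isClosedEmbedding_subtypeVal.isCompact_preimage hK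
  choose C hC N hN m₁ hb using
    cell_bound B hG H Z hw hwL hεL hε hz1 hz2 hzu hdense μ hcos
  obtain ⟨ts, hts, hcov⟩ := hKc.elim_nhds_subcover (fun t => interior (N t))
    (fun t _ => interior_mem_nhds.2 (hN t))
  refine ⟨∑ t ∈ ts, C t, Finset.sum_nonneg fun t _ => hC t, fun g₀ => ?_⟩
  obtain ⟨a, haL, ha1, ha2, haK⟩ := hKcov (g₀ : E) (Unitary.star_mul_self_of_mem g₀.2)
    (Unitary.mul_star_self_of_mem g₀.2)
  let b : unitary A := ⟨a, Unitary.mem_iff.2 ⟨ha1, ha2⟩⟩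
  have hgb : g₀ * jUR B b ∈ (fun g : unitary E => (g : E)) ⁻¹' K := haK
  obtain ⟨t, ht, hgt⟩ := mem_iUnion₂.1 (hcov hgb)
  refine ⟨(fun g => g * jUR B b) ⁻¹' (N t), ?_, m₁ t, fun m hm ε hε => ?_⟩
  · have h1 : N t ∈ 𝓝 (g₀ * jUR B b) := mem_interior_iff_mem_nhds.1 hgt
    exact (continuous_id.mul continuous_const).continuousAt.preimage_mem_nhds h1
  filter_upwards [hb t m hm ε hε] with x hx g hg F hF
  have h2 := hx (g * jUR B b) hg (F.image fun y => y * b) (by
    intro y hy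
    obtain ⟨y', hy', rfl⟩ := Finset.mem_image.1 hy
    rw [map_mul]
    exact (cst_mul Z).2 (hF y' hy'))
  rw [Finset.sum_image fun y _ y' _ h => mul_right_cancel h] at h2
  have h3 : ∀ y : unitary A, H699.den Lam ((y * b : unitary A) : A) = H699.den Lam (y : A) := by
    intro y
    exact H699.den_mul_right haL (H.star_mem _ haL) ha1 ha2 _
  simp only [h3] at h2
  refine h2.trans ?_
  have h4 : C t ≤ ∑ t ∈ ts, C t := Finset.single_le_sum (fun t _ => hC t) ht
  gcongr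

/-- The final estimate. -/
theorem final_real {κ : Type*} (Cs : Finset κ) (a : κ → ℝ) {C M Φ I ε μm T : ℝ} (hC : 0 ≤ C)
    (hM0 : 0 ≤ M) (hΦ0 : 0 ≤ Φ) (hε : 0 < ε) (hμm0 : 0 ≤ μm) (hΦ : ∀ c, a c ≤ Φ)
    (hcard : Cs.card * μm ≤ M)
    (hlow : ∑ c ∈ Cs, (a c - ε / (4 * (C + 1) * (M + 1))) * μm ≤ I)
    (hT : T ≤ ∑ c ∈ Cs, (a c + ε / (4 * (C + 1) * (M + 1))) * (C * μm +
      ε / (2 * ((Cs.card : ℝ) + 1) * (Φ + ε / (4 * (C + 1) * (M + 1)) + 1)))) :
    T ≤ C * I + ε := by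
  set δ : ℝ := ε / (4 * (C + 1) * (M + 1)) with hδ
  have hδ0 : 0 < δ := by positivity
  set ε₁ : ℝ := ε / (2 * ((Cs.card : ℝ) + 1) * (Φ + δ + 1)) with hε₁
  have hε₁0 : 0 < ε₁ := by positivity
  have hsum1 : ∑ c ∈ Cs, a c * μm ≤ I + δ * M := by
    have h3 : ∑ c ∈ Cs, (a c - δ) * μm = ∑ c ∈ Cs, a c * μm - δ * (Cs.card * μm) := by
      simp only [sub_mul]
      rw [Finset.sum_sub_distrib, Finset.sum_const, nsmul_eq_mul]
      ring
    have h4 : δ * (Cs.card * μm) ≤ δ * M := by gcongr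
    linarith
  have hsum2 : ∑ c ∈ Cs, (a c + δ) ≤ ((Cs.card : ℝ) + 1) * (Φ + δ + 1) := by
    calc ∑ c ∈ Cs, (a c + δ) ≤ ∑ _c ∈ Cs, (Φ + δ + 1) := by
          refine Finset.sum_le_sum fun c _ => ?_
          have := hΦ c
          linarith
      _ = (Cs.card : ℝ) * (Φ + δ + 1) := by rw [Finset.sum_const, nsmul_eq_mul]
      _ ≤ _ := by gcongr; linarith
  have hsum3 : ε₁ * ∑ c ∈ Cs, (a c + δ) ≤ ε / 2 := by
    calc ε₁ * ∑ c ∈ Cs, (a c + δ) ≤ ε₁ * (((Cs.card : ℝ) + 1) * (Φ + δ + 1)) := by gcongr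
      _ = ε / 2 := by
        rw [hε₁]
        field_simp
  have hsum4 : C * (2 * (δ * M)) ≤ ε / 2 := by
    have h3 : C * (2 * (δ * M)) ≤ (C + 1) * (2 * (δ * (M + 1))) := by
      gcongr <;> linarith
    have h4 : (C + 1) * (2 * (δ * (M + 1))) = ε / 2 := by
      rw [hδ]
      field_simp
      norm_num
    linarith
  calc T ≤ ∑ c ∈ Cs, (a c + δ) * (C * μm + ε₁) := hT
    _ = C * (∑ c ∈ Cs, a c * μm + δ * (Cs.card * μm)) +
        ε₁ * ∑ c ∈ Cs, (a c + δ) := by
        have h3 : ∀ c ∈ Cs, (a c + δ) * (C * μm + ε₁) =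
            C * (a c * μm) + C * (δ * μm) + ε₁ * (a c + δ) := by
          intro c _
          ring
        have e1 : ∑ c ∈ Cs, C * (a c * μm) = C * ∑ c ∈ Cs, a c * μm :=
          (Finset.mul_sum _ _ _).symm
        have e2 : ∑ c ∈ Cs, ε₁ * (a c + δ) = ε₁ * ∑ c ∈ Cs, (a c + δ) :=
          (Finset.mul_sum _ _ _).symm
        rw [Finset.sum_congr rfl h3, Finset.sum_add_distrib, Finset.sum_add_distrib, e1, e2,
          Finset.sum_const, nsmul_eq_mul]
        generalize ∑ c ∈ Cs, a c * μm = S1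
        generalize ∑ c ∈ Cs, (a c + δ) = S2
        ring
    _ ≤ C * ((I + δ * M) + δ * M) + ε / 2 := by
        gcongr
    _ = C * I + C * (2 * (δ * M)) + ε / 2 := by ring
    _ ≤ C * I + ε := by linarith

/-- The finite sums. -/
theorem sum_le_of_cell (Z : Cells E) {Lam : Subring A}
    [MeasurableSpace (unitary E)] [BorelSpace (unitary E)] (μ : Measure (unitary E))
    [μ.IsHaarMeasure] [μ.IsMulRightInvariant] {C : ℝ} (hC : 0 ≤ C) (hcell : CellUnif B Z Lam μ C)
    (φ : C_c(unitary E, ℝ)) (hφ : ∀ g, 0 ≤ φ g) {ε : ℝ} (hε : 0 < ε) :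
    ∀ᶠ x : ℝ in 𝓝[>] 1, ∀ F : Finset (unitary A),
      ∑ y ∈ F, (x - 1) * (H699.den Lam (y : A) : ℝ) ^ (-x) * φ (jUR B y) ≤
        C * ∫ g, φ g ∂μ + ε := by
  classical
  have := B.continuousStar
  have := B.t2
  have := B.locallyCompact
  have := locallyCompact_unitary E
  set K : Set (unitary E) := tsupport φ with hK
  have hKc : IsCompact K := φ.hasCompactSupport
  -- uniform thresholds
  choose N hN m₁ hb using hcell
  obtain ⟨ts, hts, hcov⟩ := hKc.elim_nhds_subcover N (fun t _ => hN t)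
  have hthr : ∃ M₁ : ℕ, ∀ m ≥ M₁, ∀ ε : ℝ, 0 < ε → ∀ᶠ x : ℝ in 𝓝[>] 1,
      ∀ g ∈ K, ∀ F : Finset (unitary A), (∀ y ∈ F, jUR B y ∈ cst Z m g) →
        (x - 1) * ∑ y ∈ F, (H699.den Lam (y : A) : ℝ) ^ (-x) ≤ C * μ.real (HU Z m) + ε := by
    refine ⟨ts.sup m₁, fun m hm ε hε => ?_⟩
    have h1 : ∀ᶠ x : ℝ in 𝓝[>] 1, ∀ t ∈ ts, ∀ g ∈ N t, ∀ F : Finset (unitary A),
        (∀ y ∈ F, jUR B y ∈ cst Z m g) →
        (x - 1) * ∑ y ∈ F, (H699.den Lam (y : A) : ℝ) ^ (-x) ≤ C * μ.real (HU Z m) + ε :=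
      (Filter.eventually_all_finset ts).2 fun t ht =>
        hb t m ((Finset.le_sup (f := m₁) ht).trans hm) ε hε
    filter_upwards [h1] with x hx g hg F hF
    obtain ⟨t, ht, hgt⟩ := mem_iUnion₂.1 (hcov hg)
    exact hx t ht g hgt F hF
  obtain ⟨M₁, hM₁⟩ := hthr
  -- the large compact set
  set K' : Set (unitary E) := (fun p : unitary E × unitary E => p.1 * p.2) ''
    ((HU Z 0 : Set (unitary E)) ×ˢ K) with hK'
  have hK'c : IsCompact K' := ((isCompact_HU B Z 0).prod hKc).image continuous_mul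
  set M : ℝ := μ.real K' with hM
  have hM0 : 0 ≤ M := measureReal_nonneg
  set δ : ℝ := ε / (4 * (C + 1) * (M + 1)) with hδ
  have hδ0 : 0 < δ := by positivity
  -- oscillation
  have hosc : ∃ m₂, ∀ g ∈ K, ∀ g' ∈ cst Z m₂ g, |φ g' - φ g| < δ := by
    have h1 : ∀ᶠ h in 𝓝 (1 : unitary E), ∀ g ∈ K, |φ (h * g) - φ g| < δ := by
      refine hKc.eventually_forall_of_forall_eventually (x₀ := (1 : unitary E))
        (P := fun h g => |φ (h * g) - φ g| < δ) fun g _ => ?_
      have hc : Continuous fun p : unitary E × unitary E => |φ (p.1 * p.2) - φ p.2| := by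
        have := φ.continuous
        fun_prop
      have h0 : |φ ((1 : unitary E) * g) - φ g| < δ := by simpa using hδ0
      exact (hc.continuousAt (x := ((1 : unitary E), g))).eventually_lt continuousAt_const h0
    obtain ⟨m, hm⟩ := exists_HU_subset Z h1
    refine ⟨m, fun g hg g' hg' => ?_⟩
    have h2 := hm hg' g hg
    simpa using h2
  obtain ⟨m₂, hm₂⟩ := hosc
  set m : ℕ := max M₁ m₂ with hm
  have hcst : ∀ g : unitary E, μ (cst Z m g) = μ (HU Z m : Set (unitary E)) :=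
    fun g => measure_preimage_mul_right μ g⁻¹ _
  have hfin : μ (HU Z m : Set (unitary E)) ≠ ⊤ := (isCompact_HU B Z m).measure_lt_top.ne
  -- the cosets
  obtain ⟨us, hus, hcov'⟩ := hKc.elim_nhds_subcover (fun t => cst Z m t)
    (fun t _ => (isOpen_cst Z m t).mem_nhds (self_mem_cst Z m t))
  set Cs : Finset (Set (unitary E)) := us.image fun t => cst Z m t with hCs
  have hrep : ∀ c : Set (unitary E), ∃ g : unitary E, c ∈ Cs → g ∈ K ∧ c = cst Z m g := by
    intro c
    by_cases hcC : c ∈ Cs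
    · obtain ⟨t, ht, rfl⟩ := Finset.mem_image.1 hcC
      exact ⟨t, fun _ => ⟨hus t ht, rfl⟩⟩
    · exact ⟨1, fun h => absurd h hcC⟩
  choose r hr using hrep
  have hdisj : ∀ c ∈ Cs, ∀ c' ∈ Cs, ∀ g, g ∈ c → g ∈ c' → c = c' := by
    intro c hc c' hc' g hg hg'
    rw [(hr c hc).2] at hg ⊢
    rw [(hr c' hc').2] at hg' ⊢
    rw [← cst_eq Z hg, cst_eq Z hg']
  have hcm : ∀ c ∈ Cs, MeasurableSet c := by
    intro c hc
    rw [(hr c hc).2]
    exact (isOpen_cst Z m _).measurableSet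
  have hμc : ∀ c ∈ Cs, μ.real c = μ.real (HU Z m) := by
    intro c hc
    rw [(hr c hc).2, Measure.real, hcst]
    rfl
  have hcard : Cs.card * μ.real (HU Z m) ≤ M := by
    have h1 : μ.real (⋃ c ∈ Cs, c) = ∑ c ∈ Cs, μ.real c := by
      refine measureReal_biUnion_finset ?_ (fun c hc => hcm c hc) ?_
      · intro c hc c' hc' hne
        rw [Function.onFun, Set.disjoint_left]
        intro g hg hg'
        exact hne (hdisj c hc c' hc' g hg hg')
      · intro c hc
        rw [(hr c hc).2, hcst]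
        exact hfin
    rw [Finset.sum_congr rfl hμc, Finset.sum_const, nsmul_eq_mul] at h1
    rw [← h1]
    refine measureReal_mono ?_ hK'c.measure_lt_top.ne
    intro g hg
    obtain ⟨c, hc, hgc⟩ := mem_iUnion₂.1 hg
    rw [(hr c hc).2] at hgc
    exact ⟨(g * (r c)⁻¹, r c), ⟨HU_anti Z (Nat.zero_le m) hgc, (hr c hc).1⟩, by simp⟩
  -- lower bound for the integral
  have hlow : ∑ c ∈ Cs, (φ (r c) - δ) * μ.real (HU Z m) ≤ ∫ g, φ g ∂μ := by
    have h1 : ∀ g, ∑ c ∈ Cs, c.indicator (fun _ => φ (r c) - δ) g ≤ φ g := by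
      intro g
      by_cases hg : ∃ c ∈ Cs, g ∈ c
      · obtain ⟨c, hc, hgc⟩ := hg
        rw [Finset.sum_eq_single_of_mem c hc, indicator_of_mem hgc]
        · have h2 := (hr c hc).2
          have h3 : g ∈ cst Z m₂ (r c) := by
            rw [h2] at hgc
            exact cst_anti Z (le_max_right _ _) _ hgc
          have h4 := abs_lt.1 (hm₂ _ (hr c hc).1 g h3)
          linarith [h4.1]
        · intro c' hc' hne
          rw [indicator_of_notMem]
          exact fun h => hne (hdisj c' hc' c hc g h hgc)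
      · rw [Finset.sum_eq_zero fun c hc => indicator_of_notMem (fun h => hg ⟨c, hc, h⟩) _]
        exact hφ g
    have h2 : ∀ c ∈ Cs, Integrable (c.indicator fun _ : unitary E => φ (r c) - δ) μ := by
      intro c hc
      refine (integrable_indicator_iff (hcm c hc)).2 (integrableOn_const ?_)
      rw [(hr c hc).2, hcst]
      exact hfin
    calc ∑ c ∈ Cs, (φ (r c) - δ) * μ.real (HU Z m) =
        ∑ c ∈ Cs, ∫ g, c.indicator (fun _ => φ (r c) - δ) g ∂μ := by
          refine Finset.sum_congr rfl fun c hc => ?_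
          rw [integral_indicator_const _ (hcm c hc), hμc c hc, smul_eq_mul, mul_comm]
      _ = ∫ g, ∑ c ∈ Cs, c.indicator (fun _ => φ (r c) - δ) g ∂μ :=
          (integral_finsetSum _ h2).symm
      _ ≤ ∫ g, φ g ∂μ := by
          refine integral_mono (integrable_finsetSum _ h2) ?_ h1
          exact φ.continuous.integrable_of_hasCompactSupport φ.hasCompactSupport
  -- a bound for the function
  obtain ⟨Φ, hΦ⟩ : ∃ Φ : ℝ, ∀ g, φ g ≤ Φ := by
    obtain ⟨Φ, hΦ⟩ := φ.continuous.bddAbove_range_of_hasCompactSupport φ.hasCompactSupport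
    exact ⟨Φ, fun g => hΦ (mem_range_self g)⟩
  have hΦ0 : 0 ≤ Φ := (hφ 1).trans (hΦ 1)
  set ε₁ : ℝ := ε / (2 * ((Cs.card : ℝ) + 1) * (Φ + δ + 1)) with hε₁
  have hε₁0 : 0 < ε₁ := by positivity
  have h1 := hM₁ m (le_max_left _ _) ε₁ hε₁0
  have h2 : Set.Ioc (1 : ℝ) 2 ∈ 𝓝[>] (1 : ℝ) := Ioc_mem_nhdsGT (by norm_num)
  filter_upwards [h1, h2] with x hx hx2 F
  have hx1 : 0 < x - 1 := by linarith [hx2.1]
  set W : unitary A → ℝ := fun y => (x - 1) * (H699.den Lam (y : A) : ℝ) ^ (-x) with hW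
  have hW0 : ∀ y, 0 ≤ W y := fun y => by positivity
  have hsplit : ∑ y ∈ F, W y * φ (jUR B y) ≤
      ∑ c ∈ Cs, ∑ y ∈ F with jUR B y ∈ c, W y * φ (jUR B y) := by
    have h3 : ∀ y ∈ F, W y * φ (jUR B y) ≤
        ∑ c ∈ Cs, if jUR B y ∈ c then W y * φ (jUR B y) else 0 := by
      intro y _
      by_cases hy : jUR B y ∈ K
      · obtain ⟨t, ht, hyt⟩ := mem_iUnion₂.1 (hcov' hy)
        have h4 : cst Z m t ∈ Cs := Finset.mem_image_of_mem _ ht
        refine le_trans ?_ (Finset.single_le_sum (f := fun c => if jUR B y ∈ c then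
          W y * φ (jUR B y) else 0) (fun c _ => ?_) h4)
        · rw [if_pos hyt]
        · split_ifs
          · exact mul_nonneg (hW0 y) (hφ _)
          · exact le_rfl
      · rw [image_eq_zero_of_notMem_tsupport hy, mul_zero]
        refine Finset.sum_nonneg fun c _ => ?_
        split_ifs <;> exact le_rfl
    refine (Finset.sum_le_sum h3).trans ?_
    rw [Finset.sum_comm]
    refine le_of_eq (Finset.sum_congr rfl fun c _ => ?_)
    rw [Finset.sum_filter]
  have hcb : ∀ c ∈ Cs, ∑ y ∈ F with jUR B y ∈ c, W y * φ (jUR B y) ≤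
      (φ (r c) + δ) * (C * μ.real (HU Z m) + ε₁) := by
    intro c hc
    have hrK := (hr c hc).1
    have hceq := (hr c hc).2
    have h3 := hx (r c) hrK (F.filter fun y => jUR B y ∈ c) (by
      intro y hy
      rw [← hceq]
      exact (Finset.mem_filter.1 hy).2)
    calc ∑ y ∈ F with jUR B y ∈ c, W y * φ (jUR B y) ≤
        ∑ y ∈ F with jUR B y ∈ c, W y * (φ (r c) + δ) := by
          refine Finset.sum_le_sum fun y hy => ?_
          have h4 := (Finset.mem_filter.1 hy).2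
          rw [hceq] at h4
          have h5 := abs_lt.1 (hm₂ _ hrK _ (cst_anti Z (le_max_right _ _) _ h4))
          have h6 := hW0 y
          gcongr
          linarith [h5.2]
      _ = (φ (r c) + δ) * ((x - 1) * ∑ y ∈ F with jUR B y ∈ c,
          (H699.den Lam (y : A) : ℝ) ^ (-x)) := by
          rw [← Finset.sum_mul, mul_comm, Finset.mul_sum (a := x - 1)]
      _ ≤ _ := by
          have := hφ (r c)
          gcongr
  exact final_real Cs (fun c => φ (r c)) hC hM0 hΦ0 hε measureReal_nonneg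
    (fun c => hΦ (r c)) hcard hlow (hsplit.trans (Finset.sum_le_sum hcb))

/-- **The upper bound in the unitary group, from small cosets of symmetric elements.** -/
theorem upr_of_cos {O : Subring k} (hG : Good k R O) {R0 : Subring R} (hR0o : IsOpen (R0 : Set R))
    (hR0c : IsCompact (R0 : Set R)) {Lam : Subring A} [Countable Lam] (H : IsOrdR B.a O Lam)
    (hcoc : CocU B Lam) {w ε : A} (hw : ∀ x, w * x = x * w)
    (hwL : w ∈ Lam) (hεL : ε ∈ Lam) (hε : ε * (w - star w) = 1)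
    (htw : ∃ z : A, star z * z = 1 ∧ z * star z = 1 ∧ IsUnit (z - 1))
    (hdense : ∀ g : unitary E, ∀ V ∈ 𝓝 g, ∃ u : unitary A, jUR B u ∈ V)
    {U : Type*} [Group U] (υ : U →* unitary A) (hυ : Function.Injective υ)
    [MeasurableSpace (unitary E)] [BorelSpace (unitary E)] (μ : Measure (unitary E))
    [μ.IsHaarMeasure] (hcos : Cos B Lam) : UPR B υ Lam μ := by
  classical
  have := B.continuousStar
  have := B.t2
  have := B.locallyCompact
  have := locallyCompact_unitary E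
  obtain ⟨Z⟩ := B.exists_cells hG.contr hR0o hR0c
  obtain ⟨z, hz1, hz2, hzu⟩ := htw
  have hinv : μ.IsMulRightInvariant := isMulRightInvariantR B hG.disc H hcoc μ
  obtain ⟨C, hC, hcell⟩ := exists_cellUnif B hG H hcoc Z hw hwL hεL hε hz1 hz2 hzu hdense μ hcos
  have hden0 : ∀ s : A, H699.den Lam s ≠ 0 :=
    H973.Rg.den_ne_zero B hG.disc hG.coc hG.frac H
  have hden1 : ∀ p : U, (1 : ℝ) ≤ (H699.den Lam (υ p : A) : ℝ) := fun p => by
    exact_mod_cast Nat.one_le_iff_ne_zero.2 (hden0 _)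
  refine ⟨⟨C, hC⟩, fun φ hφ ε hε => ?_⟩
  have h1 := sum_le_of_cell B Z μ hC hcell φ hφ hε
  have h2 : Set.Ioc (1 : ℝ) 2 ∈ 𝓝[>] (1 : ℝ) := Ioc_mem_nhdsGT (by norm_num)
  filter_upwards [h1, h2] with x hx hx2 s
  refine integral_smeas_le (wt_nonneg hden1 x) s φ.continuous hφ fun F => ?_
  have h3 := hx (F.image υ)
  rw [Finset.sum_image fun p _ q _ h => hυ h] at h3
  refine le_trans (le_of_eq (Finset.sum_congr rfl fun p _ => ?_)) h3
  rw [wt, max_eq_left (by linarith [hx2.1] : (0 : ℝ) ≤ x - 1)]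
  rfl

end

end Vale.Agent.P011.H74
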