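import Vale.Agent.P011.H74.Cells
import Vale.Agent.P011.H74.M6R
import Vale.Agent.P011.H973.LowRing

/-!
# Cayley charts of the unitary group, small cosets
-/

set_option linter.unusedSectionVars false

open MeasureTheory Filter Topology Set Module
open scoped ENNReal NNReal Pointwise

namespace Vale.Agent.P011.H74

section HU

variable {E : Type*} [Ring E] [StarRing E] [TopologicalSpace E] [IsTopologicalRing E]
  (Z : Cells E)

/-- The unitary elements near one. -/
def HU (m : ℕ) : Subgroup (unitary E) where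
  carrier := {h | (h : E) - 1 ∈ Z.I m}
  mul_mem' := by
    intro a b ha hb
    change (a : E) * (b : E) - 1 ∈ Z.I m
    have h1 : (a : E) * (b : E) - 1 = ((a : E) - 1) * ((b : E) - 1) + ((a : E) - 1) +
        ((b : E) - 1) := by noncomm_ring
    rw [h1]
    exact (Z.I m).add_mem ((Z.I m).add_mem (Z.mul m _ _ ha (Z.anti (Nat.zero_le m) hb)) ha) hb
  one_mem' := by
    change (1 : E) - 1 ∈ Z.I m
    rw [sub_self]
    exact (Z.I m).zero_mem
  inv_mem' := by
    intro a ha
    change star (a : E) - 1 ∈ Z.I m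
    have h1 : star (a : E) - 1 = star ((a : E) - 1) := by rw [star_sub, star_one]
    rw [h1]
    exact Z.star m _ ha

theorem mem_HU {m : ℕ} {h : unitary E} : h ∈ HU Z m ↔ (h : E) - 1 ∈ Z.I m := Iff.rfl

theorem isOpen_HU (m : ℕ) : IsOpen (HU Z m : Set (unitary E)) := by
  have h1 : (HU Z m : Set (unitary E)) = (fun h : unitary E => (h : E) - 1) ⁻¹' (Z.I m) := rfl
  rw [h1]
  exact (Z.op m).preimage (continuous_subtype_val.sub continuous_const)

theorem HU_anti : Antitone (HU Z) := fun _ _ h _ hx => Z.anti h hx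

theorem exists_HU_subset {V : Set (unitary E)} (hV : V ∈ 𝓝 (1 : unitary E)) :
    ∃ m, (HU Z m : Set (unitary E)) ⊆ V := by
  rw [nhds_induced, mem_comap] at hV
  obtain ⟨t, ht, htV⟩ := hV
  have h1 : (fun x : E => x + 1) ⁻¹' t ∈ 𝓝 (0 : E) := by
    refine (continuous_id.add continuous_const).continuousAt.preimage_mem_nhds ?_
    simpa using ht
  obtain ⟨m, hm⟩ := Z.basis _ h1
  refine ⟨m, fun x hx => htV ?_⟩
  have h2 := hm hx
  simpa using h2

/-- The coset `HU m * g`. -/
def cst (m : ℕ) (g : unitary E) : Set (unitary E) := {g' | g' * g⁻¹ ∈ HU Z m}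

theorem mem_cst {m : ℕ} {g g' : unitary E} : g' ∈ cst Z m g ↔ g' * g⁻¹ ∈ HU Z m := Iff.rfl

theorem self_mem_cst (m : ℕ) (g : unitary E) : g ∈ cst Z m g := by
  rw [mem_cst, mul_inv_cancel]
  exact (HU Z m).one_mem

theorem cst_symm {m : ℕ} {g g' : unitary E} (h : g' ∈ cst Z m g) : g ∈ cst Z m g' := by
  rw [mem_cst] at h ⊢
  have := (HU Z m).inv_mem h
  rwa [mul_inv_rev, inv_inv] at this

theorem cst_trans {m : ℕ} {g g' g'' : unitary E} (h : g' ∈ cst Z m g) (h' : g'' ∈ cst Z m g') :
    g'' ∈ cst Z m g := by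
  rw [mem_cst] at h h' ⊢
  have := (HU Z m).mul_mem h' h
  rwa [mul_assoc, inv_mul_cancel_left] at this

theorem cst_eq {m : ℕ} {g g' : unitary E} (h : g' ∈ cst Z m g) : cst Z m g' = cst Z m g := by
  ext x
  exact ⟨fun hx => cst_trans Z h hx, fun hx => cst_trans Z (cst_symm Z h) hx⟩

theorem cst_mul {m : ℕ} {g g' x : unitary E} : g' * x ∈ cst Z m (g * x) ↔ g' ∈ cst Z m g := by
  rw [mem_cst, mem_cst, mul_inv_rev, ← mul_assoc, mul_assoc g', mul_inv_cancel, mul_one]

theorem cst_anti {m m' : ℕ} (h : m ≤ m') (g : unitary E) : cst Z m' g ⊆ cst Z m g :=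
  fun _ hx => HU_anti Z h hx

variable [T2Space E] [ContinuousStar E] [LocallyCompactSpace E]

theorem isOpen_cst (m : ℕ) (g : unitary E) : IsOpen (cst Z m g) :=
  (isOpen_HU Z m).preimage (continuous_id.mul continuous_const)

/-- In every neighbourhood there are small cosets, uniformly. -/
theorem exists_cst_subset {V : Set (unitary E)} {g : unitary E} (hV : V ∈ 𝓝 g) :
    ∃ N ∈ 𝓝 g, ∃ m, ∀ g' ∈ N, cst Z m g' ⊆ V := by
  have h1 : Continuous fun p : unitary E × unitary E => p.1 * p.2 := continuous_mul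
  have h2 : (fun p : unitary E × unitary E => p.1 * p.2) ⁻¹' V ∈ 𝓝 ((1 : unitary E), g) := by
    refine h1.continuousAt.preimage_mem_nhds ?_
    simpa using hV
  rw [nhds_prod_eq, mem_prod_iff] at h2
  obtain ⟨t, ht, N, hN, hsub⟩ := h2
  obtain ⟨m, hm⟩ := exists_HU_subset Z ht
  refine ⟨N, hN, m, fun g' hg' x hx => ?_⟩
  have h3 := hsub (Set.mk_mem_prod (hm hx) hg')
  simpa using h3

end HU

section chart

variable {E : Type*} [Ring E] [StarRing E] [TopologicalSpace E] [IsTopologicalRing E]
  [T2Space E] [ContinuousStar E]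
  (Z : Cells E)

open Vale.Agent.P011.H380.UnitsTop

/-- Comparison of the two distances, one direction. -/
theorem chart_le (hE : GoodUnits E) {ζ η δ : E} {N : Set (unitary E)} (hN : IsCompact N)
    (hNu : ∀ g ∈ N, IsUnit (ζ * (g : E) * η - 1)) :
    ∃ c, ∀ m, ∀ g ∈ N, ∀ g' ∈ N, g' ∈ cst Z (m + c) g →
      Ring.inverse (ζ * (g' : E) * η - 1) * δ - Ring.inverse (ζ * (g : E) * η - 1) * δ ∈
        Z.I m := by
  have hcv : Continuous fun g : unitary E => ζ * (g : E) * η - 1 := by fun_prop
  have hinv : ContinuousOn (fun g : unitary E => Ring.inverse (ζ * (g : E) * η - 1)) N :=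
    hE.inv.comp hcv.continuousOn hNu
  have hC : IsCompact ((fun g : unitary E => -(Ring.inverse (ζ * (g : E) * η - 1) * ζ)) '' N) :=
    hN.image_of_continuousOn ((hinv.mul continuousOn_const).neg)
  have hC' : IsCompact ((fun g : unitary E =>
      (g : E) * η * Ring.inverse (ζ * (g : E) * η - 1) * δ) '' N) :=
    hN.image_of_continuousOn ((((by fun_prop : Continuous fun g : unitary E =>
      (g : E) * η).continuousOn).mul hinv).mul continuousOn_const)
  obtain ⟨c, hc⟩ := Z.bd _ _ hC hC'
  refine ⟨c, fun m g hg g' hg' h => ?_⟩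
  have h1 := Ring.inverse_mul_cancel _ (hNu g' hg')
  have h2 := Ring.mul_inverse_cancel _ (hNu g hg)
  set i' := Ring.inverse (ζ * (g' : E) * η - 1) with hi'
  set i := Ring.inverse (ζ * (g : E) * η - 1) with hi
  have h3 : i' * δ - i * δ = -(i' * ζ) * (((g' * g⁻¹ : unitary E) : E) - 1) *
      ((g : E) * η * i * δ) := by
    have h4 : (((g' * g⁻¹ : unitary E) : E) - 1) * (g : E) = (g' : E) - (g : E) := by
      rw [sub_mul, one_mul, ← Submonoid.coe_mul, inv_mul_cancel_right]
    have h5 : i' - i = i' * ((ζ * (g : E) * η - 1) - (ζ * (g' : E) * η - 1)) * i := by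
      rw [mul_sub, h1, sub_mul, one_mul, mul_assoc, h2, mul_one]
    calc i' * δ - i * δ = (i' - i) * δ := by rw [sub_mul]
      _ = i' * ((ζ * (g : E) * η - 1) - (ζ * (g' : E) * η - 1)) * i * δ := by rw [h5]
      _ = i' * (-(ζ * ((g' : E) - (g : E)) * η)) * i * δ := by
          congr 3
          noncomm_ring
      _ = i' * (-(ζ * ((((g' * g⁻¹ : unitary E) : E) - 1) * (g : E)) * η)) * i * δ := by rw [h4]
      _ = _ := by simp only [mul_assoc, neg_mul, mul_neg]
  rw [h3]
  exact hc m _ ⟨g', hg', rfl⟩ _ ⟨g, hg, rfl⟩ _ h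

/-- Comparison of the two distances, other direction. -/
theorem le_chart {ζ η δ ε ζ' η' : E} (hζ : ζ' * ζ = 1) (hη : η * η' = 1)
    (hδ : δ * ε = 1) {N : Set (unitary E)}
    (hN : IsCompact N) (hNu : ∀ g ∈ N, IsUnit (ζ * (g : E) * η - 1)) :
    ∃ c, ∀ m, ∀ g ∈ N, ∀ g' ∈ N,
      Ring.inverse (ζ * (g' : E) * η - 1) * δ - Ring.inverse (ζ * (g : E) * η - 1) * δ ∈
        Z.I (m + c) → g' ∈ cst Z m g := by
  have hC : IsCompact ((fun g : unitary E => -(ζ' * (ζ * (g : E) * η - 1))) '' N) :=
    hN.image (by fun_prop)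
  have hC' : IsCompact ((fun g : unitary E =>
      ε * (ζ * (g : E) * η - 1) * η' * star (g : E)) '' N) :=
    hN.image (by fun_prop)
  obtain ⟨c, hc⟩ := Z.bd _ _ hC hC'
  refine ⟨c, fun m g hg g' hg' h => ?_⟩
  have h1 := Ring.mul_inverse_cancel _ (hNu g' hg')
  have h2 := Ring.inverse_mul_cancel _ (hNu g hg)
  set i' := Ring.inverse (ζ * (g' : E) * η - 1) with hi'
  set i := Ring.inverse (ζ * (g : E) * η - 1) with hi
  rw [mem_cst, mem_HU]
  have hg1 : (g : E) * star (g : E) = 1 := Unitary.mul_star_self_of_mem g.2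
  have h3 : ((g' * g⁻¹ : unitary E) : E) - 1 = -(ζ' * (ζ * (g' : E) * η - 1)) *
      (i' * δ - i * δ) * (ε * (ζ * (g : E) * η - 1) * η' * star (g : E)) := by
    have h4 : ((g' * g⁻¹ : unitary E) : E) - 1 = ((g' : E) - (g : E)) * star (g : E) := by
      rw [sub_mul, hg1]
      rfl
    have h5 : (ζ * (g' : E) * η - 1) * (i' * δ - i * δ) * (ε * (ζ * (g : E) * η - 1)) =
        (ζ * (g : E) * η - 1) - (ζ * (g' : E) * η - 1) := by
      calc (ζ * (g' : E) * η - 1) * (i' * δ - i * δ) * (ε * (ζ * (g : E) * η - 1)) =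
          ((ζ * (g' : E) * η - 1) * i') * (δ * ε) * (ζ * (g : E) * η - 1) -
          (ζ * (g' : E) * η - 1) * i * (δ * ε) * (ζ * (g : E) * η - 1) := by noncomm_ring
        _ = _ := by
          rw [h1, hδ, mul_one, one_mul, mul_one, mul_assoc (ζ * (g' : E) * η - 1), h2, mul_one]
    calc ((g' * g⁻¹ : unitary E) : E) - 1 = ((g' : E) - (g : E)) * star (g : E) := h4
      _ = (ζ' * ζ) * ((g' : E) - (g : E)) * (η * η') * star (g : E) := by
          rw [hζ, hη, one_mul, mul_one]
      _ = -(ζ' * ((ζ * (g : E) * η - 1) - (ζ * (g' : E) * η - 1)) * η' * star (g : E)) := by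
          noncomm_ring
      _ = -(ζ' * ((ζ * (g' : E) * η - 1) * (i' * δ - i * δ) * (ε * (ζ * (g : E) * η - 1))) * η' *
          star (g : E)) := by rw [h5]
      _ = _ := by simp only [mul_assoc, neg_mul]
  rw [h3]
  exact hc m _ ⟨g', hg', rfl⟩ _ ⟨g, hg, rfl⟩ _ h

end chart

section cay

variable {A : Type*} [Ring A] [StarRing A]

/-- The inverse Cayley transform. -/
noncomputable def icay (w v : A) : A := Ring.inverse (v - 1) * (w - star w) + w

theorem star_icay {w v : A} (hw : ∀ x, w * x = x * w) (hv : star v * v = 1)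
    (hv' : v * star v = 1) (hu : IsUnit (v - 1)) : star (icay w v) = icay w v := by
  have hws : ∀ x, star w * x = x * star w := by
    intro x
    have h := congrArg star (hw (star x))
    rw [star_mul, star_mul, star_star] at h
    exact h.symm
  set i := Ring.inverse (v - 1) with hi
  have h1 : (v - 1) * i = 1 := Ring.mul_inverse_cancel _ hu
  have h2 : i * (v - 1) = 1 := Ring.inverse_mul_cancel _ hu
  -- the star of the inverse
  have h3 : star i = -(1 + i) := by
    have h4 : star i * (star v - 1) = 1 := by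
      have := congrArg star h1
      rwa [star_mul, star_sub, star_one] at this
    have h5 : (star v - 1) * (v * i) = -1 := by
      calc (star v - 1) * (v * i) = (star v * v) * i - v * i := by noncomm_ring
        _ = -((v - 1) * i) := by rw [hv]; noncomm_ring
        _ = -1 := by rw [h1]
    have h6 : v * i = 1 + i := by
      calc v * i = (v - 1) * i + i := by noncomm_ring
        _ = 1 + i := by rw [h1]
    calc star i = star i * -((star v - 1) * (v * i)) := by rw [h5, neg_neg, mul_one]
      _ = -(star i * (star v - 1) * (v * i)) := by rw [mul_neg, mul_assoc]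
      _ = -(1 + i) := by rw [h4, one_mul, h6]
  have hc : ∀ x, (w - star w) * x = x * (w - star w) := by
    intro x
    rw [sub_mul, mul_sub, hw, hws]
  rw [icay, star_add, star_mul, star_sub, star_star, h3]
  calc (star w - w) * -(1 + i) + star w = (w - star w) * i + w := by noncomm_ring
    _ = i * (w - star w) + w := by rw [hc]

theorem icay_sub {w v : A} : icay w v - w = Ring.inverse (v - 1) * (w - star w) := by
  rw [icay, add_sub_cancel_right]

/-- The Cayley transform of `icay w v` is `v`. -/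
theorem mul_icay {w v : A} (hu : IsUnit (v - 1)) :
    v * (icay w v - w) = icay w v - star w := by
  set i := Ring.inverse (v - 1) with hi
  have h1 : (v - 1) * i = 1 := Ring.mul_inverse_cancel _ hu
  have h6 : v * i = 1 + i := by
    calc v * i = (v - 1) * i + i := by noncomm_ring
      _ = 1 + i := by rw [h1]
  rw [icay_sub, ← mul_assoc, h6, icay, ← hi]
  noncomm_ring

theorem icay_inj {w v v' : A} (hu : IsUnit (v - 1)) (hu' : IsUnit (v' - 1))
    {ε : A} (hε : (w - star w) * ε = 1) (h : icay w v = icay w v') : v = v' := by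
  have h1 : Ring.inverse (v - 1) * (w - star w) = Ring.inverse (v' - 1) * (w - star w) := by
    have := congrArg (fun x => x - w) h
    simpa [icay] using this
  have h2 : Ring.inverse (v - 1) = Ring.inverse (v' - 1) := by
    have := congrArg (fun x => x * ε) h1
    simpa only [mul_assoc, hε, mul_one] using this
  have h3 : v - 1 = v' - 1 := by
    calc v - 1 = (v - 1) * (Ring.inverse (v' - 1) * (v' - 1)) := by
          rw [Ring.inverse_mul_cancel _ hu', mul_one]
      _ = (v - 1) * Ring.inverse (v - 1) * (v' - 1) := by rw [h2, mul_assoc]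
      _ = v' - 1 := by rw [Ring.mul_inverse_cancel _ hu, one_mul]
  exact sub_left_injective h3

end cay

end Vale.Agent.P011.H74
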