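import Vale.Agent.P011.H74.UprCell

/-!
# The mass of a small coset
-/

set_option linter.unusedSectionVars false

open MeasureTheory Filter Topology Set Module
open scoped ENNReal NNReal Pointwise CompactlySupported

namespace Vale.Agent.P011.H74

open Vale.Agent.P011.H380.UpBC Vale.Agent.P011.H380.UnitsTop

section

variable {k R A E ι : Type*} [Field k] [CommRing R] [TopologicalSpace R] [IsTopologicalRing R]
  [Algebra k R] [Ring A] [StarRing A] [Algebra k A] [Ring E] [StarRing E] [TopologicalSpace E]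
  [IsTopologicalRing E] [Algebra R E] [Fintype ι] [DecidableEq ι] (B : BCR k R A E ι)
  [Nontrivial R] [LocallyCompactSpace R] [T2Space R] [SecondCountableTopology R]

include B in
omit [Nontrivial R] [LocallyCompactSpace R] [SecondCountableTopology R] in
theorem isCompact_HU (Z : Cells E) (m : ℕ) : IsCompact (HU Z m : Set (unitary E)) := by
  have := B.continuousStar
  have := B.t2
  have h1 : IsCompact ((fun x : E => x + 1) '' (Z.I m : Set E)) :=
    (Z.comp m).image (by fun_prop)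
  have h2 := (isClosed_unitary E).isClosedEmbedding_subtypeVal.isCompact_preimage h1
  refine h2.of_isClosed_subset ?_ ?_
  · have h3 : IsClosed (Z.I m : Set E) := AddSubgroup.isClosed_of_isOpen _ (Z.op m)
    exact h3.preimage (f := fun g : unitary E => (g : E) - 1) (by fun_prop)
  · intro g hg
    exact ⟨(g : E) - 1, hg, sub_add_cancel _ _⟩

/-- Small cosets have large mass compared with the number of cosets of symmetric elements. -/
theorem mass_le (Z : Cells E) {Lam : Subring A} {m₀ : ℕ}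
    (hsmall : ∀ l ∈ Lam, B.j l ∈ Z.I m₀ → l = 0) (s : unitary A → A) {N : Set (unitary E)}
    {g₀ : unitary E} (hN : N ∈ 𝓝 g₀) (hs : ∀ y, jUR B y ∈ N → star (s y) = s y) {c₁ c₂ : ℕ}
    (hA : ∀ m, ∀ y y' : unitary A, jUR B y ∈ N → jUR B y' ∈ N →
      jUR B y' ∈ cst Z (m + c₁) (jUR B y) → B.j (s y' - s y) ∈ Z.I m)
    (hB : ∀ m, ∀ y y' : unitary A, jUR B y ∈ N → jUR B y' ∈ N →
      B.j (s y' - s y) ∈ Z.I (m + c₂) → jUR B y' ∈ cst Z m (jUR B y))
    (hdense : ∀ g : unitary E, ∀ V ∈ 𝓝 g, ∃ u : unitary A, jUR B u ∈ V)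
    [MeasurableSpace (unitary E)] [BorelSpace (unitary E)] (μ : Measure (unitary E))
    [μ.IsHaarMeasure] [μ.IsMulRightInvariant] :
    ∃ K₁ : ℝ, 0 ≤ K₁ ∧ ∃ M₀ : ℕ, ∀ m ≥ M₀,
      1 / (cosI B Lam (Z.I m) : ℝ) ≤ K₁ * μ.real (HU Z (m + c₁)) := by
  classical
  have := B.continuousStar
  have := B.t2
  have := B.locallyCompact
  obtain ⟨N', hN', mN, hmN⟩ := exists_cst_subset Z hN
  have hNg := hmN g₀ (mem_of_mem_nhds hN')
  obtain ⟨K, hK⟩ := Z.idx (c₂ + c₁)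
  set m₂' : ℕ := max mN m₀ with hm₂'
  set m₂ : ℕ := m₂' + c₁ with hm₂
  have hpos : ∀ m, 0 < μ.real (HU Z m) := fun m =>
    ENNReal.toReal_pos ((isOpen_HU Z m).measure_pos μ ⟨1, (HU Z m).one_mem⟩).ne'
      (isCompact_HU B Z m).measure_lt_top.ne
  have hfinm : ∀ m, μ (HU Z m : Set (unitary E)) ≠ ⊤ := fun m =>
    (isCompact_HU B Z m).measure_lt_top.ne
  refine ⟨K / μ.real (HU Z m₂), by positivity, m₂' + c₂, fun m hm => ?_⟩
  by_cases hcos : cosI B Lam (Z.I m) = 0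
  · rw [hcos, Nat.cast_zero, div_zero]
    have := hpos m₂
    have := hpos (m + c₁)
    positivity
  obtain ⟨m'', hm''⟩ : ∃ m'', m = m'' + c₂ := ⟨m - c₂, by omega⟩
  have hm''2 : m₂' ≤ m'' := by omega
  obtain ⟨T, hT1, hT2, hT3⟩ := exists_points B Z hdense μ m₂ (m + c₁) g₀
  have hTc : ∀ y ∈ T, jUR B y ∈ cst Z m₂ g₀ := by
    intro y hy
    obtain ⟨t, ht, hyt⟩ := hT1 y hy
    exact cst_trans Z ht (cst_anti Z (by omega) t hyt)
  have hTN : ∀ y ∈ T, jUR B y ∈ N := fun y hy =>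
    hNg (cst_anti Z (by omega) g₀ (hTc y hy))
  -- the quotient
  set P : AddSubgroup A := (Lam.toAddSubgroup ⊓ selfAdjoint A) ⊔
    ((Z.I m).comap (B.j : A →+ E) ⊓ selfAdjoint A) with hP
  set Q := (selfAdjoint A) ⧸ P.addSubgroupOf (selfAdjoint A) with hQ
  have hfi : (P.addSubgroupOf (selfAdjoint A)).FiniteIndex := ⟨hcos⟩
  have hfin : Finite Q := AddSubgroup.finite_quotient_of_finiteIndex
  have hcard : Nat.card Q = cosI B Lam (Z.I m) := rfl
  have hft : Fintype Q := Fintype.ofFinite Q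
  let q : unitary A → Q := fun y =>
    if h : star (s y) = s y then QuotientAddGroup.mk ⟨s y, h⟩ else 0
  have hq : ∀ y ∈ T, ∀ y' ∈ T, q y = q y' → B.j (s y' - s y) ∈ Z.I m := by
    intro y hy y' hy' hyy
    have h1 := hs y (hTN y hy)
    have h2 := hs y' (hTN y' hy')
    simp only [q, dif_pos h1, dif_pos h2] at hyy
    have h3 := QuotientAddGroup.eq.1 hyy
    rw [AddSubgroup.mem_addSubgroupOf] at h3
    have h4 : -s y + s y' ∈ P := h3
    obtain ⟨l, hl, x, hx, hlx⟩ := AddSubgroup.mem_sup.1 h4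
    have h5 : s y' - s y = l + x := by rw [hlx]; abel
    have h6 : B.j x ∈ Z.I m := hx.1
    have h7 : B.j (s y' - s y) ∈ Z.I m₂' := hA m₂' y y' (hTN y hy) (hTN y' hy')
      (cst_trans Z (cst_symm Z (hTc y hy)) (hTc y' hy'))
    have h8 : l = 0 := by
      refine hsmall l hl.1 (Z.anti (le_max_right mN m₀) ?_)
      have h9 : B.j l = B.j (s y' - s y) - B.j x := by
        rw [h5, map_add, add_sub_cancel_right]
      rw [h9]
      exact (Z.I m₂').sub_mem h7 (Z.anti (by omega) h6)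
    rw [h5, h8, zero_add]
    exact h6
  have hcardT : T.card ≤ K * cosI B Lam (Z.I m) := by
    refine (Finset.card_le_mul_card_image (f := q) T K ?_).trans ?_
    · intro a ha
      by_cases hne : (T.filter fun x => q x = a).Nonempty
      · obtain ⟨y₀, hy₀⟩ := hne
        obtain ⟨hy₀T, hy₀a⟩ := Finset.mem_filter.1 hy₀
        refine card_le_idx B Z hK m'' _ (jUR B y₀) ?_ ?_
        · intro y hy
          obtain ⟨hyT, hya⟩ := Finset.mem_filter.1 hy
          have h1 := hq y₀ hy₀T y hyT (hy₀a.trans hya.symm)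
          rw [hm''] at h1
          exact hB m'' y₀ y (hTN _ hy₀T) (hTN _ hyT) h1
        · intro y hy y' hy' h
          refine hT2 y (Finset.mem_filter.1 hy).1 y' (Finset.mem_filter.1 hy').1 ?_
          rw [hm'', add_assoc]
          exact h
      · rw [Finset.not_nonempty_iff_eq_empty.1 hne]
        exact Nat.zero_le _
    · refine Nat.mul_le_mul_left K ?_
      rw [← hcard, Nat.card_eq_fintype_card]
      exact Finset.card_le_univ _
  have h1 : μ.real (HU Z m₂) ≤ T.card * μ.real (HU Z (m + c₁)) := by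
    have h2 := ENNReal.toReal_mono (ENNReal.mul_ne_top (ENNReal.natCast_ne_top _)
      (hfinm (m + c₁))) hT3
    rw [ENNReal.toReal_mul, ENNReal.toReal_natCast] at h2
    exact h2
  have h2 : (T.card : ℝ) ≤ K * cosI B Lam (Z.I m) := by exact_mod_cast hcardT
  have h3 := hpos m₂
  have h4 := hpos (m + c₁)
  have h5 : (0 : ℝ) < cosI B Lam (Z.I m) := by
    exact_mod_cast Nat.pos_of_ne_zero hcos
  rw [div_le_iff₀ h5, div_mul_eq_mul_div, div_mul_eq_mul_div, le_div_iff₀ h3, one_mul]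
  calc μ.real (HU Z m₂) ≤ T.card * μ.real (HU Z (m + c₁)) := h1
    _ ≤ (K * cosI B Lam (Z.I m)) * μ.real (HU Z (m + c₁)) := by gcongr
    _ = K * μ.real (HU Z (m + c₁)) * cosI B Lam (Z.I m) := by ring

/-- **The mass of the unitary elements in a small coset**, abstract chart. -/
theorem cell_bound_of (Z : Cells E) {Lam : Subring A} {m₀ : ℕ}
    (hsmall : ∀ l ∈ Lam, B.j l ∈ Z.I m₀ → l = 0) (s : unitary A → A) {N : Set (unitary E)}
    {g₀ : unitary E} (hN : N ∈ 𝓝 g₀) (hs : ∀ y, jUR B y ∈ N → star (s y) = s y) {c₁ c₂ : ℕ}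
    (hA : ∀ m, ∀ y y' : unitary A, jUR B y ∈ N → jUR B y' ∈ N →
      jUR B y' ∈ cst Z (m + c₁) (jUR B y) → B.j (s y' - s y) ∈ Z.I m)
    (hB : ∀ m, ∀ y y' : unitary A, jUR B y ∈ N → jUR B y' ∈ N →
      B.j (s y' - s y) ∈ Z.I (m + c₂) → jUR B y' ∈ cst Z m (jUR B y))
    (hinj : ∀ y y', jUR B y ∈ N → jUR B y' ∈ N → s y = s y' → y = y')
    (hden0 : ∀ x : A, H699.den Lam x ≠ 0) {C₃ : ℝ} (hC₃ : 1 ≤ C₃)
    (hden : ∀ y, jUR B y ∈ N → (H699.den Lam (s y) : ℝ) ≤ C₃ * H699.den Lam (y : A))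
    (hdense : ∀ g : unitary E, ∀ V ∈ 𝓝 g, ∃ u : unitary A, jUR B u ∈ V)
    [MeasurableSpace (unitary E)] [BorelSpace (unitary E)] (μ : Measure (unitary E))
    [μ.IsHaarMeasure] [μ.IsMulRightInvariant] (hcos : Cos B Lam) :
    ∃ C : ℝ, 0 ≤ C ∧ ∃ N₁ ∈ 𝓝 g₀, ∃ m₁, ∀ m ≥ m₁, ∀ ε : ℝ, 0 < ε → ∀ᶠ x : ℝ in 𝓝[>] 1,
      ∀ g ∈ N₁, ∀ F : Finset (unitary A), (∀ y ∈ F, jUR B y ∈ cst Z m g) →
        (x - 1) * ∑ y ∈ F, (H699.den Lam (y : A) : ℝ) ^ (-x) ≤ C * μ.real (HU Z m) + ε := by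
  classical
  have := B.continuousStar
  have := B.t2
  have := B.locallyCompact
  obtain ⟨K₁, hK₁, M₀, hM₀⟩ := mass_le B Z hsmall s hN hs hA hB hdense μ
  obtain ⟨C, U0, hU0, hC⟩ := hcos
  obtain ⟨mU, hmU⟩ := Z.basis U0 hU0
  obtain ⟨N₁, hN₁, mN, hmN⟩ := exists_cst_subset Z hN
  refine ⟨C₃ ^ 2 * |C| * K₁, by positivity, N₁, hN₁, max (mU + c₁) (max (M₀ + c₁) mN),
    fun m hm ε hε => ?_⟩
  obtain ⟨m', hm'⟩ : ∃ m', m = m' + c₁ := ⟨m - c₁, by omega⟩
  have hC₃0 : 0 < C₃ := lt_of_lt_of_le one_pos hC₃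
  have h1 := hC (Z.I m') (Z.op m') (fun x hx => hmU (Z.anti (by omega) hx)) (ε / C₃ ^ 2)
    (by positivity)
  have h2 : Set.Ioc (1 : ℝ) 2 ∈ 𝓝[>] (1 : ℝ) := Ioc_mem_nhdsGT (by norm_num)
  filter_upwards [h1, h2] with x hx hx2 g hg F hF
  have hFN : ∀ y ∈ F, jUR B y ∈ N := fun y hy =>
    hmN g hg (cst_anti Z (by omega) g (hF y hy))
  have h3 := hx (F.image s) (by
    intro a ha
    obtain ⟨y, hy, rfl⟩ := Finset.mem_image.1 ha
    exact hs y (hFN y hy)) (by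
    intro a ha b hb
    obtain ⟨y, hy, rfl⟩ := Finset.mem_image.1 ha
    obtain ⟨y', hy', rfl⟩ := Finset.mem_image.1 hb
    refine hA m' y' y (hFN y' hy') (hFN y hy) ?_
    rw [← hm']
    exact cst_trans Z (cst_symm Z (hF y' hy')) (hF y hy))
  rw [Finset.sum_image fun y hy y' hy' h => hinj y y' (hFN y hy) (hFN y' hy') h] at h3
  have hx1 : 0 < x - 1 := by linarith [hx2.1]
  have h4 : ∀ y ∈ F, (H699.den Lam (y : A) : ℝ) ^ (-x) ≤
      C₃ ^ 2 * (H699.den Lam (s y) : ℝ) ^ (-x) := by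
    intro y hy
    have h5 : (0 : ℝ) < H699.den Lam (s y) := by
      exact_mod_cast Nat.pos_of_ne_zero (hden0 _)
    have h6 : (H699.den Lam (s y) : ℝ) / C₃ ≤ H699.den Lam (y : A) := by
      rw [div_le_iff₀ hC₃0, mul_comm]
      exact hden y (hFN y hy)
    have h7 : (H699.den Lam (y : A) : ℝ) ^ (-x) ≤ ((H699.den Lam (s y) : ℝ) / C₃) ^ (-x) :=
      Real.rpow_le_rpow_of_nonpos (by positivity) h6 (by linarith)
    refine h7.trans ?_
    rw [Real.div_rpow h5.le hC₃0.le, div_eq_mul_inv, ← Real.rpow_neg hC₃0.le, neg_neg, mul_comm]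
    gcongr
    calc C₃ ^ x ≤ C₃ ^ (2 : ℝ) := Real.rpow_le_rpow_of_exponent_le hC₃ hx2.2
      _ = C₃ ^ 2 := by norm_num
  have h8 : (x - 1) * ∑ y ∈ F, (H699.den Lam (y : A) : ℝ) ^ (-x) ≤
      C₃ ^ 2 * ((x - 1) * ∑ y ∈ F, (H699.den Lam (s y) : ℝ) ^ (-x)) := by
    rw [mul_left_comm, Finset.mul_sum (a := C₃ ^ 2)]
    gcongr with y hy
    exact h4 y hy
  have h9 : C / (cosI B Lam (Z.I m') : ℝ) ≤ |C| * (K₁ * μ.real (HU Z m)) := by
    have h10 := hM₀ m' (by omega)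
    rw [← hm'] at h10
    calc C / (cosI B Lam (Z.I m') : ℝ) = C * (1 / (cosI B Lam (Z.I m') : ℝ)) := by ring
      _ ≤ |C| * (1 / (cosI B Lam (Z.I m') : ℝ)) := by
          gcongr
          exact le_abs_self C
      _ ≤ _ := by gcongr
  calc (x - 1) * ∑ y ∈ F, (H699.den Lam (y : A) : ℝ) ^ (-x) ≤
      C₃ ^ 2 * ((x - 1) * ∑ y ∈ F, (H699.den Lam (s y) : ℝ) ^ (-x)) := h8
    _ ≤ C₃ ^ 2 * (|C| * (K₁ * μ.real (HU Z m)) + ε / C₃ ^ 2) := by
        gcongr
        exact h3.trans (by linarith)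
    _ = C₃ ^ 2 * |C| * K₁ * μ.real (HU Z m) + ε := by
        field_simp

end

end Vale.Agent.P011.H74
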